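import Vale.Agent.P211.H237.Psd

/-!
Positive semidefiniteness of a 3x3 matrix of polynomials on a cell: integer upper triangular
congruence followed by diagonal dominance (all sign combinations, so no bounds are needed).
-/

namespace Vale.Agent.P211.H237

open MvPolynomial

variable {F : Fam} {c : CellP} {C : Ctx F c}

theorem Rep.neg {v : ℕ} {P : MP} {n : ℕ} (h : Rep C v P n) :
    Rep C (F.W - v) (MvPolynomial.C (-1) * P) n := by
  refine ⟨?_, Nat.sub_le _ _, ?_⟩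
  · have := (Bd.C (-1)).mul h.1
    refine this.mono ?_ (by omega) (by omega)
    simp
  · rw [Nat.cast_sub h.2.1, ZMod.natCast_self, h.2.2, eval₂_mul, eval₂_C]
    simp

/-- the four sign combinations `a ± b ± c ≥ 0` -/
def dom3 (W m a b c : ℕ) : Bool :=
  chk W m (((a + b) % W + c) % W) && chk W m (((a + b) % W + (W - c)) % W) &&
  chk W m (((a + (W - b)) % W + c) % W) && chk W m (((a + (W - b)) % W + (W - c)) % W)

theorem dom3_sound {a b d : ℕ} {A B D : MP} {na nb nd : ℕ} (ha : Rep C a A na) (hb : Rep C b B nb)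
    (hd : Rep C d D nd) (hn : (na + nb + nd) * (F.nx ^ F.D * F.ny ^ F.E) < 2 ^ F.β)
    (h : dom3 F.W F.msk a b d = true) (x y : ℝ) (hxy : c.In x y) :
    |rev x y B| + |rev x y D| ≤ rev x y A := by
  unfold dom3 at h
  simp only [Bool.and_eq_true] at h
  obtain ⟨⟨⟨h1, h2⟩, h3⟩, h4⟩ := h
  have k1 := ((ha.add hb).add hd).nonneg hn h1 x y hxy
  have k2 := ((ha.add hb).add hd.neg).nonneg hn h2 x y hxy
  have k3 := ((ha.add hb.neg).add hd).nonneg hn h3 x y hxy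
  have k4 := ((ha.add hb.neg).add hd.neg).nonneg hn h4 x y hxy
  simp only [rev_add, rev_mul, rev_C] at k1 k2 k3 k4
  push_cast at k1 k2 k3 k4
  rcases abs_cases (rev x y B) with ⟨e1, _⟩ | ⟨e1, _⟩ <;>
  rcases abs_cases (rev x y D) with ⟨e2, _⟩ | ⟨e2, _⟩ <;> rw [e1, e2] <;> linarith

/-- digits of an upper triangular 3x3 matrix (signed with offset) -/
structure T3 where
  a : ℕ
  b : ℕ
  c : ℕ
  d : ℕ
  e : ℕ
  f : ℕ

/-- six entries `11 12 13 22 23 33` -/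
structure Q3 where
  a : ℕ
  b : ℕ
  c : ℕ
  d : ℕ
  e : ℕ
  f : ℕ

/-- the check -/
noncomputable def psd3 (W m o : ℕ) (q : Q3) (t : T3) : Bool :=
  let r11 := sm W o q.a t.a
  let r12 := (sm W o q.a t.b + sm W o q.b t.d) % W
  let r22 := (sm W o q.b t.b + sm W o q.d t.d) % W
  let r13 := ((sm W o q.a t.c + sm W o q.b t.e) % W + sm W o q.c t.f) % W
  let r23 := ((sm W o q.b t.c + sm W o q.d t.e) % W + sm W o q.e t.f) % W
  let r33 := ((sm W o q.c t.c + sm W o q.e t.e) % W + sm W o q.f t.f) % W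
  let s11 := sm W o r11 t.a
  let s12 := sm W o r12 t.a
  let s13 := sm W o r13 t.a
  let s22 := (sm W o r12 t.b + sm W o r22 t.d) % W
  let s23 := (sm W o r13 t.b + sm W o r23 t.d) % W
  let s33 := ((sm W o r13 t.c + sm W o r23 t.e) % W + sm W o r33 t.f) % W
  !(Nat.beq t.a o) && !(Nat.beq t.d o) && !(Nat.beq t.f o) &&
  dom3 W m s11 s12 s13 && dom3 W m s22 s12 s23 && dom3 W m s33 s13 s23

/-- the maximal digit plus offset -/
def T3.le (t : T3) (o M : ℕ) : Prop :=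
  t.a + o ≤ M ∧ t.b + o ≤ M ∧ t.c + o ≤ M ∧ t.d + o ≤ M ∧ t.e + o ≤ M ∧ t.f + o ≤ M

theorem quad_nonneg {s11 s12 s13 s22 s23 s33 : ℝ} (h1 : |s12| + |s13| ≤ s11)
    (h2 : |s12| + |s23| ≤ s22) (h3 : |s13| + |s23| ≤ s33) (w1 w2 w3 : ℝ) :
    0 ≤ s11 * w1 ^ 2 + 2 * s12 * w1 * w2 + 2 * s13 * w1 * w3 + s22 * w2 ^ 2
      + 2 * s23 * w2 * w3 + s33 * w3 ^ 2 := by
  have key : ∀ s u v : ℝ, -(|s| * (u ^ 2 + v ^ 2)) ≤ 2 * s * u * v := by
    intro s u v
    rcases abs_cases s with ⟨e, h⟩ | ⟨e, h⟩ <;> rw [e]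
    · nlinarith [mul_nonneg h (sq_nonneg (u + v))]
    · nlinarith [mul_nonneg (neg_pos.mpr h).le (sq_nonneg (u - v))]
  have k1 := key s12 w1 w2
  have k2 := key s13 w1 w3
  have k3 := key s23 w2 w3
  have m1 := mul_le_mul_of_nonneg_right h1 (sq_nonneg w1)
  have m2 := mul_le_mul_of_nonneg_right h2 (sq_nonneg w2)
  have m3 := mul_le_mul_of_nonneg_right h3 (sq_nonneg w3)
  nlinarith

theorem psd3_sound {o M n : ℕ} {q : Q3} {t : T3} {A B D E G H : MP}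
    (ha : Rep C q.a A n) (hb : Rep C q.b B n) (hc : Rep C q.c D n) (hd : Rep C q.d E n)
    (he : Rep C q.e G n) (hf : Rep C q.f H n) (ht : t.le o M)
    (hn : 27 * (M * M * n) * (F.nx ^ F.D * F.ny ^ F.E) < 2 ^ F.β)
    (h : psd3 F.W F.msk o q t = true) (x y : ℝ) (hxy : c.In x y) (z1 z2 z3 : ℝ) :
    0 ≤ rev x y A * z1 ^ 2 + 2 * rev x y B * z1 * z2 + 2 * rev x y D * z1 * z3
      + rev x y E * z2 ^ 2 + 2 * rev x y G * z2 * z3 + rev x y H * z3 ^ 2 := by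
  obtain ⟨t1, t2, t3, t4, t5, t6⟩ := ht
  have up : ∀ {v : ℕ} {P : MP} {k : ℕ} (_ : Rep C v P k) (d : ℕ) (_ : d + o ≤ M),
      Rep C (sm F.W o v d) (MvPolynomial.C ((d : ℤ) - o) * P) (M * k) :=
    fun hv d hd => (hv.sm o d).mono (Nat.mul_le_mul_right _ hd)
  have r11 := up ha t.a t1
  have r12 := (up ha t.b t2).add (up hb t.d t4)
  have r22 := (up hb t.b t2).add (up hd t.d t4)
  have r13 := ((up ha t.c t3).add (up hb t.e t5)).add (up hc t.f t6)
  have r23 := ((up hb t.c t3).add (up hd t.e t5)).add (up he t.f t6)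
  have r33 := ((up hc t.c t3).add (up he t.e t5)).add (up hf t.f t6)
  have s11 := up r11 t.a t1
  have s12 := up r12 t.a t1
  have s13 := up r13 t.a t1
  have s22 := (up r12 t.b t2).add (up r22 t.d t4)
  have s23 := (up r13 t.b t2).add (up r23 t.d t4)
  have s33 := ((up r13 t.c t3).add (up r23 t.e t5)).add (up r33 t.f t6)
  unfold psd3 at h
  simp only [Bool.and_eq_true, Bool.not_eq_true'] at h
  obtain ⟨⟨⟨⟨⟨n1, n2⟩, n3⟩, k1⟩, k2⟩, k3⟩ := h
  have hb1 : ∀ a b d : ℕ, a ≤ 9 * (M * (M * n)) → b ≤ 9 * (M * (M * n)) →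
      d ≤ 9 * (M * (M * n)) →
      (a + b + d) * (F.nx ^ F.D * F.ny ^ F.E) < 2 ^ F.β := by
    intro a b d h1 h2 h3
    refine lt_of_le_of_lt (Nat.mul_le_mul_right _ ?_) hn
    have e : 27 * (M * M * n) = 9 * (M * (M * n)) + 9 * (M * (M * n)) + 9 * (M * (M * n)) := by
      ring
    omega
  have e1 : M * (M * n + M * n) = 2 * (M * (M * n)) := by ring
  have e2 : M * (M * n + M * n + M * n) = 3 * (M * (M * n)) := by ring
  have d1 := dom3_sound s11 s12 s13 (hb1 _ _ _ (by omega) (by omega) (by omega)) k1 x y hxy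
  have d2 := dom3_sound s22 s12 s23 (hb1 _ _ _ (by omega) (by omega) (by omega)) k2 x y hxy
  have d3 := dom3_sound s33 s13 s23 (hb1 _ _ _ (by omega) (by omega) (by omega)) k3 x y hxy
  simp only [rev_add, rev_mul, rev_C] at d1 d2 d3
  have g1 : ((t.a : ℤ) - (o : ℤ)) ≠ 0 := by
    intro h0
    have : t.a = o := by omega
    rw [this] at n1
    simp at n1
  have g2 : ((t.d : ℤ) - (o : ℤ)) ≠ 0 := by
    intro h0
    have : t.d = o := by omega
    rw [this] at n2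
    simp at n2
  have g3 : ((t.f : ℤ) - (o : ℤ)) ≠ 0 := by
    intro h0
    have : t.f = o := by omega
    rw [this] at n3
    simp at n3
  set a := rev x y A
  set b := rev x y B
  set cc := rev x y D
  set d := rev x y E
  set e := rev x y G
  set f := rev x y H
  have g1' : (((t.a : ℤ) - (o : ℤ) : ℤ) : ℝ) ≠ 0 := by exact_mod_cast g1
  have g2' : (((t.d : ℤ) - (o : ℤ) : ℤ) : ℝ) ≠ 0 := by exact_mod_cast g2
  have g3' : (((t.f : ℤ) - (o : ℤ) : ℤ) : ℝ) ≠ 0 := by exact_mod_cast g3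
  generalize (((t.a : ℤ) - (o : ℤ) : ℤ) : ℝ) = ta at *
  generalize (((t.b : ℤ) - (o : ℤ) : ℤ) : ℝ) = tb at *
  generalize (((t.c : ℤ) - (o : ℤ) : ℤ) : ℝ) = tc at *
  generalize (((t.d : ℤ) - (o : ℤ) : ℤ) : ℝ) = td at *
  generalize (((t.e : ℤ) - (o : ℤ) : ℤ) : ℝ) = te at *
  generalize (((t.f : ℤ) - (o : ℤ) : ℤ) : ℝ) = tf at *
  obtain ⟨w3, hw3⟩ : ∃ w3, tf * w3 = z3 := ⟨z3 / tf, by field_simp⟩
  obtain ⟨w2, hw2⟩ : ∃ w2, td * w2 + te * w3 = z2 := ⟨(z2 - te * w3) / td, by field_simp; ring⟩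
  obtain ⟨w1, hw1⟩ : ∃ w1, ta * w1 + tb * w2 + tc * w3 = z1 :=
    ⟨(z1 - tb * w2 - tc * w3) / ta, by field_simp; ring⟩
  have key := quad_nonneg d1 d2 d3 w1 w2 w3
  rw [← hw1, ← hw2, ← hw3]
  refine key.trans (le_of_eq ?_)
  ring

end Vale.Agent.P211.H237
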