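import Vale.Agent.P211.H237.Fast
import Vale.Agent.P211.H237.Psd3

/-!
Weighted sums with signed weights and the positivity check for 4x4 matrices.
-/

namespace Vale.Agent.P211.H237

open MvPolynomial

variable {F : Fam} {c : CellP} {C : Ctx F c}

/-! ### lookups -/

noncomputable def nth (l : List ℕ) : ℕ → ℕ :=
  List.rec (motive := fun _ => ℕ → ℕ) (fun _ => 0)
    (fun a _ ih i => Nat.rec (motive := fun _ => ℕ) a (fun j _ => ih j) i) l

theorem nth_eq (l : List ℕ) : ∀ i, nth l i = l.getD i 0 := by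
  induction l with
  | nil => intro i; rfl
  | cons a l ih =>
    intro i
    cases i with
    | zero => rfl
    | succ i => exact ih i

/-! ### sums that are reduced once -/

/-- unreduced representative -/
def Rep' (C : Ctx F c) (v : ℕ) (P : MP) (n : ℕ) : Prop :=
  Bd P n F.D F.E ∧
    (v : ZMod F.W) = C.s0 * eval₂ (Int.castRingHom (ZMod F.W)) ![C.xb, C.yb] P

theorem Rep'.red {v : ℕ} {P : MP} {n : ℕ} (h : Rep' C v P n) : Rep C (v % F.W) P n :=
  ⟨h.1, (Nat.mod_lt _ F.W_pos).le, by rw [ZMod.natCast_mod]; exact h.2⟩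

theorem Rep'.zero : Rep' C 0 0 0 := by
  refine ⟨Bd.zero.mono (Nat.zero_le _) (Nat.zero_le _) (Nat.zero_le _), ?_⟩
  simp

theorem Rep'.add {v v' : ℕ} {P P' : MP} {n n' : ℕ} (h : Rep' C v P n) (h' : Rep' C v' P' n') :
    Rep' C (v + v') (P + P') (n + n') := by
  refine ⟨?_, ?_⟩
  · simpa using h.1.add h'.1
  · rw [Nat.cast_add, h.2, h'.2, eval₂_add, mul_add]

theorem Rep.mulS {v : ℕ} {P : MP} {n : ℕ} (h : Rep C v P n) (s : Sg) :
    Rep' C (s.mulN F.W v) (MvPolynomial.C s.val * P) (s.abs * n) := by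
  refine ⟨?_, ?_⟩
  · have := (Bd.C s.val).mul h.1
    rw [Sg.abs_val] at this
    exact this.mono le_rfl (by omega) (by omega)
  · rw [Sg.cast_mulN h.2.1, h.2.2, eval₂_mul, eval₂_C]
    simp only [eq_intCast]
    ring

/-- weighted sum of outputs -/
noncomputable def ls0 (W : ℕ) (outs : List ℕ) (l : List (ℕ × Sg)) : ℕ :=
  List.rec 0 (fun t _ acc => Nat.add (Sg.mulN W (nth outs t.1) t.2) acc) l

noncomputable def ls (W : ℕ) (outs : List ℕ) (l : List (ℕ × Sg)) : ℕ := Nat.mod (ls0 W outs l) W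

noncomputable def lsP (vals : ℕ → MP) (l : List (ℕ × Sg)) : MP :=
  List.foldr (fun t acc => MvPolynomial.C t.2.val * vals t.1 + acc) 0 l

noncomputable def lsR (w : ℕ → ℝ) (l : List (ℕ × Sg)) : ℝ :=
  List.foldr (fun t acc => (t.2.val : ℝ) * w t.1 + acc) 0 l

/-- sum of the absolute values of the weights -/
noncomputable def lsB (l : List (ℕ × Sg)) : ℕ :=
  List.rec 0 (fun t _ acc => Nat.add (Sg.absN t.2) acc) l

theorem rep_ls0 {outs : List ℕ} {pol : ℕ → MP} {n0 : ℕ}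
    (ho : ∀ i, Rep C (outs.getD i 0) (pol i) n0) (l : List (ℕ × Sg)) :
    Rep' C (ls0 F.W outs l) (lsP pol l) (lsB l * n0) := by
  induction l with
  | nil =>
    show Rep' C 0 0 (0 * n0)
    rw [Nat.zero_mul]; exact Rep'.zero
  | cons t l ih =>
    have h1 : Rep C (nth outs t.1) (pol t.1) n0 := by rw [nth_eq]; exact ho t.1
    have := (h1.mulS t.2).add ih
    show Rep' C (t.2.mulN F.W (nth outs t.1) + ls0 F.W outs l)
      (MvPolynomial.C t.2.val * pol t.1 + lsP pol l) ((t.2.absN + lsB l) * n0)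
    rw [Nat.add_mul, Sg.absN_eq]
    exact this

theorem rep_ls {outs : List ℕ} {pol : ℕ → MP} {n0 : ℕ}
    (ho : ∀ i, Rep C (outs.getD i 0) (pol i) n0) (l : List (ℕ × Sg)) :
    Rep C (ls F.W outs l) (lsP pol l) (lsB l * n0) := (rep_ls0 ho l).red

theorem rev_ls {pol : ℕ → MP} {w : ℕ → ℝ} {x y : ℝ} (hw : ∀ i, rev x y (pol i) = w i)
    (l : List (ℕ × Sg)) : rev x y (lsP pol l) = lsR w l := by
  induction l with
  | nil => exact rev_zero x y
  | cons t l ih =>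
    show rev x y (_ * _ + lsP _ l) = _ * _ + lsR _ l
    rw [rev_add, rev_mul, rev_C, ih, hw]

/-! ### accumulated masks -/

/-- the value to be compared with the mask -/
def mk (W m v : ℕ) : ℕ := Nat.mod (Nat.add v m) W

/-- all mask bits are set -/
def Ok (m a : ℕ) : Prop := a &&& m = m

theorem ok_land {m a b : ℕ} (h : Ok m (Nat.land a b)) : Ok m a ∧ Ok m b := by
  have h' : (a &&& b) &&& m = m := h
  constructor
  · show a &&& m = m
    apply Nat.eq_of_testBit_eq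
    intro i
    have := congrArg (fun z : ℕ => z.testBit i) h'
    simp only [Nat.testBit_and] at this ⊢
    cases ha : a.testBit i <;> cases hb : b.testBit i <;> cases hm : m.testBit i <;> simp_all
  · show b &&& m = m
    apply Nat.eq_of_testBit_eq
    intro i
    have := congrArg (fun z : ℕ => z.testBit i) h'
    simp only [Nat.testBit_and] at this ⊢
    cases ha : a.testBit i <;> cases hb : b.testBit i <;> cases hm : m.testBit i <;> simp_all

theorem Rep'.nonneg {v v' : ℕ} {P : MP} {n : ℕ} (h : Rep' C v P n)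
    (hn : n * (F.nx ^ F.D * F.ny ^ F.E) < 2 ^ F.β) (e : v' = v + F.msk)
    (hc : Ok F.msk (Nat.mod v' F.W)) (x y : ℝ) (hxy : c.In x y) : 0 ≤ rev x y P := by
  refine h.red.nonneg hn ?_ x y hxy
  unfold chk
  rw [Nat.mod_add_mod, ← e]
  have : (v' % F.W) &&& F.msk = F.msk := hc
  rw [this]
  exact Nat.beq_refl _

/-- linear check -/
noncomputable def slinN (W m : ℕ) (outs : List ℕ) (l : List (ℕ × Sg)) : ℕ := mk W m (ls0 W outs l)

theorem slin_sound {outs : List ℕ} {pol : ℕ → MP} {n0 nw : ℕ}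
    (ho : ∀ i, Rep C (outs.getD i 0) (pol i) n0)
    (hn : nw * n0 * (F.nx ^ F.D * F.ny ^ F.E) < 2 ^ F.β) {w : ℕ → ℝ} {x y : ℝ}
    (hw : ∀ i, rev x y (pol i) = w i) (l : List (ℕ × Sg)) (hb : lsB l ≤ nw)
    (hl : Ok F.msk (slinN F.W F.msk outs l))
    (hxy : c.In x y) : 0 ≤ lsR w l := by
  rw [← rev_ls hw]
  exact (rep_ls0 ho l).nonneg (lt_of_le_of_lt
    (Nat.mul_le_mul_right _ (Nat.mul_le_mul_right _ hb)) hn) rfl hl x y hxy

/-! ### 4x4 matrices -/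

theorem Rep.up {v : ℕ} {P : MP} {n : ℕ} (h : Rep C v P n) : Rep' C v P n := ⟨h.1, h.2.2⟩

theorem Rep.negU {v : ℕ} {P : MP} {n : ℕ} (h : Rep C v P n) :
    Rep' C (F.W - v) (MvPolynomial.C (-1) * P) n := h.neg.up

/-- `a ± b ± c ± d ≥ 0` -/
noncomputable def dom4N (W m a b c d : ℕ) : ℕ :=
  let e := Nat.add a m
  let b1 := Nat.add e b
  let b2 := Nat.add e (Nat.sub W b)
  let c' := Nat.sub W c
  let d' := Nat.sub W d
  let p1 := Nat.add b1 c
  let p2 := Nat.add b1 c'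
  let p3 := Nat.add b2 c
  let p4 := Nat.add b2 c'
  Nat.land (Nat.mod (Nat.add p1 d) W) (Nat.land (Nat.mod (Nat.add p1 d') W)
    (Nat.land (Nat.mod (Nat.add p2 d) W) (Nat.land (Nat.mod (Nat.add p2 d') W)
    (Nat.land (Nat.mod (Nat.add p3 d) W) (Nat.land (Nat.mod (Nat.add p3 d') W)
    (Nat.land (Nat.mod (Nat.add p4 d) W) (Nat.mod (Nat.add p4 d') W)))))))

theorem dom4_sound {a b d e : ℕ} {A B D E : MP} {n : ℕ} (ha : Rep C a A n)
    (hb : Rep C b B n) (hd : Rep C d D n) (he : Rep C e E n)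
    (hn : (n + n + n + n) * (F.nx ^ F.D * F.ny ^ F.E) < 2 ^ F.β)
    (h : Ok F.msk (dom4N F.W F.msk a b d e)) (x y : ℝ) (hxy : c.In x y) :
    |rev x y B| + |rev x y D| + |rev x y E| ≤ rev x y A := by
  unfold dom4N at h
  obtain ⟨h1, h⟩ := ok_land h
  obtain ⟨h2, h⟩ := ok_land h
  obtain ⟨h3, h⟩ := ok_land h
  obtain ⟨h4, h⟩ := ok_land h
  obtain ⟨h5, h⟩ := ok_land h
  obtain ⟨h6, h⟩ := ok_land h
  obtain ⟨h7, h8⟩ := ok_land h
  have e1 : ∀ u v w z t : ℕ, Nat.add (Nat.add (Nat.add (Nat.add u t) v) w) z = u + v + w + z + t := by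
    intro u v w z t
    show u + t + v + w + z = _
    ring
  have k1 := (((ha.up.add hb.up).add hd.up).add he.up).nonneg hn (e1 _ _ _ _ _) h1 x y hxy
  have k2 := (((ha.up.add hb.up).add hd.up).add he.negU).nonneg hn (e1 _ _ _ _ _) h2 x y hxy
  have k3 := (((ha.up.add hb.up).add hd.negU).add he.up).nonneg hn (e1 _ _ _ _ _) h3 x y hxy
  have k4 := (((ha.up.add hb.up).add hd.negU).add he.negU).nonneg hn (e1 _ _ _ _ _) h4 x y hxy
  have k5 := (((ha.up.add hb.negU).add hd.up).add he.up).nonneg hn (e1 _ _ _ _ _) h5 x y hxy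
  have k6 := (((ha.up.add hb.negU).add hd.up).add he.negU).nonneg hn (e1 _ _ _ _ _) h6 x y hxy
  have k7 := (((ha.up.add hb.negU).add hd.negU).add he.up).nonneg hn (e1 _ _ _ _ _) h7 x y hxy
  have k8 := (((ha.up.add hb.negU).add hd.negU).add he.negU).nonneg hn (e1 _ _ _ _ _) h8 x y hxy
  simp only [rev_add, rev_mul, rev_C] at k1 k2 k3 k4 k5 k6 k7 k8
  push_cast at k1 k2 k3 k4 k5 k6 k7 k8
  rcases abs_cases (rev x y B) with ⟨e1, _⟩ | ⟨e1, _⟩ <;>
  rcases abs_cases (rev x y D) with ⟨e2, _⟩ | ⟨e2, _⟩ <;>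
  rcases abs_cases (rev x y E) with ⟨e3, _⟩ | ⟨e3, _⟩ <;> rw [e1, e2, e3] <;> linarith

/-- ten entries `11 12 13 14 22 23 24 33 34 44` -/
structure Q4 where
  a11 : ℕ
  a12 : ℕ
  a13 : ℕ
  a14 : ℕ
  a22 : ℕ
  a23 : ℕ
  a24 : ℕ
  a33 : ℕ
  a34 : ℕ
  a44 : ℕ

/-- upper triangular matrix -/
structure T4 where
  t11 : Sg
  t12 : Sg
  t13 : Sg
  t14 : Sg
  t22 : Sg
  t23 : Sg
  t24 : Sg
  t33 : Sg
  t34 : Sg
  t44 : Sg

/-- nonzero check -/
noncomputable def Sg.nz (s : Sg) : Bool := Nat.blt 0 s.absN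

theorem Sg.nz_sound {s : Sg} (h : s.nz = true) : (s.val : ℝ) ≠ 0 := by
  unfold Sg.nz at h
  rw [Nat.blt_eq, Sg.absN_eq, ← Sg.abs_val] at h
  have : s.val ≠ 0 := by
    intro h0; rw [h0] at h; simp at h
  exact_mod_cast this

/-- the check -/
noncomputable def psd4N (W m : ℕ) (q : Q4) (t : T4) : ℕ :=
  let r11 := Nat.mod (Sg.mulN W q.a11 t.t11) W
  let r12 := Nat.mod (Nat.add (Sg.mulN W q.a11 t.t12) (Sg.mulN W q.a12 t.t22)) W
  let r22 := Nat.mod (Nat.add (Sg.mulN W q.a12 t.t12) (Sg.mulN W q.a22 t.t22)) W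
  let r13 := Nat.mod (Nat.add (Nat.add (Sg.mulN W q.a11 t.t13) (Sg.mulN W q.a12 t.t23)) (Sg.mulN W q.a13 t.t33)) W
  let r23 := Nat.mod (Nat.add (Nat.add (Sg.mulN W q.a12 t.t13) (Sg.mulN W q.a22 t.t23)) (Sg.mulN W q.a23 t.t33)) W
  let r33 := Nat.mod (Nat.add (Nat.add (Sg.mulN W q.a13 t.t13) (Sg.mulN W q.a23 t.t23)) (Sg.mulN W q.a33 t.t33)) W
  let r14 := Nat.mod (Nat.add (Nat.add (Nat.add (Sg.mulN W q.a11 t.t14) (Sg.mulN W q.a12 t.t24)) (Sg.mulN W q.a13 t.t34)) (Sg.mulN W q.a14 t.t44)) W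
  let r24 := Nat.mod (Nat.add (Nat.add (Nat.add (Sg.mulN W q.a12 t.t14) (Sg.mulN W q.a22 t.t24)) (Sg.mulN W q.a23 t.t34)) (Sg.mulN W q.a24 t.t44)) W
  let r34 := Nat.mod (Nat.add (Nat.add (Nat.add (Sg.mulN W q.a13 t.t14) (Sg.mulN W q.a23 t.t24)) (Sg.mulN W q.a33 t.t34)) (Sg.mulN W q.a34 t.t44)) W
  let r44 := Nat.mod (Nat.add (Nat.add (Nat.add (Sg.mulN W q.a14 t.t14) (Sg.mulN W q.a24 t.t24)) (Sg.mulN W q.a34 t.t34)) (Sg.mulN W q.a44 t.t44)) W
  let s11 := Nat.mod (Sg.mulN W r11 t.t11) W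
  let s12 := Nat.mod (Sg.mulN W r12 t.t11) W
  let s13 := Nat.mod (Sg.mulN W r13 t.t11) W
  let s14 := Nat.mod (Sg.mulN W r14 t.t11) W
  let s22 := Nat.mod (Nat.add (Sg.mulN W r12 t.t12) (Sg.mulN W r22 t.t22)) W
  let s23 := Nat.mod (Nat.add (Sg.mulN W r13 t.t12) (Sg.mulN W r23 t.t22)) W
  let s24 := Nat.mod (Nat.add (Sg.mulN W r14 t.t12) (Sg.mulN W r24 t.t22)) W
  let s33 := Nat.mod (Nat.add (Nat.add (Sg.mulN W r13 t.t13) (Sg.mulN W r23 t.t23)) (Sg.mulN W r33 t.t33)) W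
  let s34 := Nat.mod (Nat.add (Nat.add (Sg.mulN W r14 t.t13) (Sg.mulN W r24 t.t23)) (Sg.mulN W r34 t.t33)) W
  let s44 := Nat.mod (Nat.add (Nat.add (Nat.add (Sg.mulN W r14 t.t14) (Sg.mulN W r24 t.t24)) (Sg.mulN W r34 t.t34)) (Sg.mulN W r44 t.t44)) W
  Nat.land (dom4N W m s11 s12 s13 s14) (Nat.land (dom4N W m s22 s12 s23 s24)
    (Nat.land (dom4N W m s33 s13 s23 s34) (dom4N W m s44 s14 s24 s34)))

/-- the diagonal of `T` has no zeros -/
noncomputable def T4.nz (t : T4) : Bool :=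
  t.t11.nz && t.t22.nz && t.t33.nz && t.t44.nz

/-- bound of the entries -/
def T4.le (t : T4) (M : ℕ) : Prop :=
  t.t11.abs ≤ M ∧ t.t12.abs ≤ M ∧ t.t13.abs ≤ M ∧ t.t14.abs ≤ M ∧ t.t22.abs ≤ M ∧
  t.t23.abs ≤ M ∧ t.t24.abs ≤ M ∧ t.t33.abs ≤ M ∧ t.t34.abs ≤ M ∧ t.t44.abs ≤ M

/-- a symmetric form in four variables -/
noncomputable def form4 (a11 a12 a13 a14 a22 a23 a24 a33 a34 a44 z1 z2 z3 z4 : ℝ) : ℝ :=
  a11 * z1 ^ 2 + a22 * z2 ^ 2 + a33 * z3 ^ 2 + a44 * z4 ^ 2 + 2 * a12 * z1 * z2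
    + 2 * a13 * z1 * z3 + 2 * a14 * z1 * z4 + 2 * a23 * z2 * z3 + 2 * a24 * z2 * z4
    + 2 * a34 * z3 * z4

theorem quad4_nonneg {s11 s12 s13 s14 s22 s23 s24 s33 s34 s44 : ℝ}
    (h1 : |s12| + |s13| + |s14| ≤ s11) (h2 : |s12| + |s23| + |s24| ≤ s22)
    (h3 : |s13| + |s23| + |s34| ≤ s33) (h4 : |s14| + |s24| + |s34| ≤ s44)
    (w1 w2 w3 w4 : ℝ) : 0 ≤ form4 s11 s12 s13 s14 s22 s23 s24 s33 s34 s44 w1 w2 w3 w4 := by
  have key : ∀ s u v : ℝ, -(|s| * (u ^ 2 + v ^ 2)) ≤ 2 * s * u * v := by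
    intro s u v
    rcases abs_cases s with ⟨e, h⟩ | ⟨e, h⟩ <;> rw [e]
    · nlinarith [mul_nonneg h (sq_nonneg (u + v))]
    · nlinarith [mul_nonneg (neg_pos.mpr h).le (sq_nonneg (u - v))]
  have k1 := key s12 w1 w2
  have k2 := key s13 w1 w3
  have k3 := key s14 w1 w4
  have k4 := key s23 w2 w3
  have k5 := key s24 w2 w4
  have k6 := key s34 w3 w4
  have m1 := mul_le_mul_of_nonneg_right h1 (sq_nonneg w1)
  have m2 := mul_le_mul_of_nonneg_right h2 (sq_nonneg w2)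
  have m3 := mul_le_mul_of_nonneg_right h3 (sq_nonneg w3)
  have m4 := mul_le_mul_of_nonneg_right h4 (sq_nonneg w4)
  unfold form4
  nlinarith

theorem form4_congr (a11 a12 a13 a14 a22 a23 a24 a33 a34 a44 t11 t12 t13 t14 t22 t23 t24 t33 t34 t44
    w1 w2 w3 w4 : ℝ) :
    form4 (t11 * (t11 * a11)) (t11 * (t12 * a11 + t22 * a12))
      (t11 * (t13 * a11 + t23 * a12 + t33 * a13))
      (t11 * (t14 * a11 + t24 * a12 + t34 * a13 + t44 * a14))
      (t12 * (t12 * a11 + t22 * a12) + t22 * (t12 * a12 + t22 * a22))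
      (t12 * (t13 * a11 + t23 * a12 + t33 * a13) + t22 * (t13 * a12 + t23 * a22 + t33 * a23))
      (t12 * (t14 * a11 + t24 * a12 + t34 * a13 + t44 * a14)
        + t22 * (t14 * a12 + t24 * a22 + t34 * a23 + t44 * a24))
      (t13 * (t13 * a11 + t23 * a12 + t33 * a13) + t23 * (t13 * a12 + t23 * a22 + t33 * a23)
        + t33 * (t13 * a13 + t23 * a23 + t33 * a33))
      (t13 * (t14 * a11 + t24 * a12 + t34 * a13 + t44 * a14)
        + t23 * (t14 * a12 + t24 * a22 + t34 * a23 + t44 * a24)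
        + t33 * (t14 * a13 + t24 * a23 + t34 * a33 + t44 * a34))
      (t14 * (t14 * a11 + t24 * a12 + t34 * a13 + t44 * a14)
        + t24 * (t14 * a12 + t24 * a22 + t34 * a23 + t44 * a24)
        + t34 * (t14 * a13 + t24 * a23 + t34 * a33 + t44 * a34)
        + t44 * (t14 * a14 + t24 * a24 + t34 * a34 + t44 * a44)) w1 w2 w3 w4 =
    form4 a11 a12 a13 a14 a22 a23 a24 a33 a34 a44 (t11 * w1 + t12 * w2 + t13 * w3 + t14 * w4)
      (t22 * w2 + t23 * w3 + t24 * w4) (t33 * w3 + t34 * w4) (t44 * w4) := by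
  unfold form4
  ring

theorem psd4_sound {M n : ℕ} {q : Q4} {t : T4}
    {A11 A12 A13 A14 A22 A23 A24 A33 A34 A44 : MP}
    (h11 : Rep C q.a11 A11 n) (h12 : Rep C q.a12 A12 n) (h13 : Rep C q.a13 A13 n)
    (h14 : Rep C q.a14 A14 n) (h22 : Rep C q.a22 A22 n) (h23 : Rep C q.a23 A23 n)
    (h24 : Rep C q.a24 A24 n) (h33 : Rep C q.a33 A33 n) (h34 : Rep C q.a34 A34 n)
    (h44 : Rep C q.a44 A44 n) (ht : t.le M)
    (hn : 64 * (M * (M * n)) * (F.nx ^ F.D * F.ny ^ F.E) < 2 ^ F.β)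
    (hz : t.nz = true) (h : Ok F.msk (psd4N F.W F.msk q t)) (x y : ℝ) (hxy : c.In x y) (z1 z2 z3 z4 : ℝ) :
    0 ≤ form4 (rev x y A11) (rev x y A12) (rev x y A13) (rev x y A14) (rev x y A22)
      (rev x y A23) (rev x y A24) (rev x y A33) (rev x y A34) (rev x y A44) z1 z2 z3 z4 := by
  obtain ⟨t1, t2, t3, t4, t5, t6, t7, t8, t9, t10⟩ := ht
  have up : ∀ {v : ℕ} {P : MP} {k : ℕ} (_ : Rep C v P k) (s : Sg) (_ : s.abs ≤ M),
      Rep' C (s.mulN F.W v) (MvPolynomial.C s.val * P) (M * k) := by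
    intro v P k hv s hs
    have := hv.mulS s
    exact ⟨this.1.mono (Nat.mul_le_mul_right _ hs) le_rfl le_rfl, this.2⟩
  have wk : ∀ {v : ℕ} {P : MP} {k k' : ℕ} (_ : Rep C v P k) (_ : k ≤ k'), Rep C v P k' :=
    fun hv hk => hv.mono hk
  have r11 := wk (up h11 _ t1).red (show _ ≤ 4 * (M * n) by omega)
  have r12 := wk ((up h11 _ t2).add (up h12 _ t5)).red (show _ ≤ 4 * (M * n) by omega)
  have r22 := wk ((up h12 _ t2).add (up h22 _ t5)).red (show _ ≤ 4 * (M * n) by omega)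
  have r13 := wk (((up h11 _ t3).add (up h12 _ t6)).add (up h13 _ t8)).red
    (show _ ≤ 4 * (M * n) by omega)
  have r23 := wk (((up h12 _ t3).add (up h22 _ t6)).add (up h23 _ t8)).red
    (show _ ≤ 4 * (M * n) by omega)
  have r33 := wk (((up h13 _ t3).add (up h23 _ t6)).add (up h33 _ t8)).red
    (show _ ≤ 4 * (M * n) by omega)
  have r14 := wk ((((up h11 _ t4).add (up h12 _ t7)).add (up h13 _ t9)).add (up h14 _ t10)).red
    (show _ ≤ 4 * (M * n) by omega)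
  have r24 := wk ((((up h12 _ t4).add (up h22 _ t7)).add (up h23 _ t9)).add (up h24 _ t10)).red
    (show _ ≤ 4 * (M * n) by omega)
  have r34 := wk ((((up h13 _ t4).add (up h23 _ t7)).add (up h33 _ t9)).add (up h34 _ t10)).red
    (show _ ≤ 4 * (M * n) by omega)
  have r44 := wk ((((up h14 _ t4).add (up h24 _ t7)).add (up h34 _ t9)).add (up h44 _ t10)).red
    (show _ ≤ 4 * (M * n) by omega)
  have s11 := wk (up r11 _ t1).red (show _ ≤ 4 * (M * (4 * (M * n))) by omega)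
  have s12 := wk (up r12 _ t1).red (show _ ≤ 4 * (M * (4 * (M * n))) by omega)
  have s13 := wk (up r13 _ t1).red (show _ ≤ 4 * (M * (4 * (M * n))) by omega)
  have s14 := wk (up r14 _ t1).red (show _ ≤ 4 * (M * (4 * (M * n))) by omega)
  have s22 := wk ((up r12 _ t2).add (up r22 _ t5)).red
    (show _ ≤ 4 * (M * (4 * (M * n))) by omega)
  have s23 := wk ((up r13 _ t2).add (up r23 _ t5)).red
    (show _ ≤ 4 * (M * (4 * (M * n))) by omega)
  have s24 := wk ((up r14 _ t2).add (up r24 _ t5)).red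
    (show _ ≤ 4 * (M * (4 * (M * n))) by omega)
  have s33 := wk (((up r13 _ t3).add (up r23 _ t6)).add (up r33 _ t8)).red
    (show _ ≤ 4 * (M * (4 * (M * n))) by omega)
  have s34 := wk (((up r14 _ t3).add (up r24 _ t6)).add (up r34 _ t8)).red
    (show _ ≤ 4 * (M * (4 * (M * n))) by omega)
  have s44 := wk ((((up r14 _ t4).add (up r24 _ t7)).add (up r34 _ t9)).add (up r44 _ t10)).red
    (show _ ≤ 4 * (M * (4 * (M * n))) by omega)
  unfold T4.nz at hz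
  simp only [Bool.and_eq_true] at hz
  obtain ⟨⟨⟨n1, n2⟩, n3⟩, n4⟩ := hz
  unfold psd4N at h
  obtain ⟨k1, h⟩ := ok_land h
  obtain ⟨k2, h⟩ := ok_land h
  obtain ⟨k3, k4⟩ := ok_land h
  have e16 : 4 * (M * (4 * (M * n))) = 16 * (M * (M * n)) := by ring
  rw [e16] at s11 s12 s13 s14 s22 s23 s24 s33 s34 s44
  have hb : (16 * (M * (M * n)) + 16 * (M * (M * n)) + 16 * (M * (M * n)) + 16 * (M * (M * n)))
      * (F.nx ^ F.D * F.ny ^ F.E) < 2 ^ F.β := by
    refine lt_of_eq_of_lt ?_ hn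
    congr 1
    omega
  have d1 := dom4_sound s11 s12 s13 s14 hb k1 x y hxy
  have d2 := dom4_sound s22 s12 s23 s24 hb k2 x y hxy
  have d3 := dom4_sound s33 s13 s23 s34 hb k3 x y hxy
  have d4 := dom4_sound s44 s14 s24 s34 hb k4 x y hxy
  simp only [rev_add, rev_mul, rev_C] at d1 d2 d3 d4
  have g1 := Sg.nz_sound n1
  have g2 := Sg.nz_sound n2
  have g3 := Sg.nz_sound n3
  have g4 := Sg.nz_sound n4
  clear s11 s12 s13 s14 s22 s23 s24 s33 s34 s44 r11 r12 r22 r13 r23 r33 r14 r24 r34 r44 k1 k2 k3 k4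
    n1 n2 n3 n4 up wk hb hn e16 t1 t2 t3 t4 t5 t6 t7 t8 t9 t10 h11 h12 h13 h14 h22 h23 h24 h33 h34
    h44
  generalize rev x y A11 = a11 at *
  generalize rev x y A12 = a12 at *
  generalize rev x y A13 = a13 at *
  generalize rev x y A14 = a14 at *
  generalize rev x y A22 = a22 at *
  generalize rev x y A23 = a23 at *
  generalize rev x y A24 = a24 at *
  generalize rev x y A33 = a33 at *
  generalize rev x y A34 = a34 at *
  generalize rev x y A44 = a44 at *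
  generalize (t.t11.val : ℝ) = u11 at *
  generalize (t.t12.val : ℝ) = u12 at *
  generalize (t.t13.val : ℝ) = u13 at *
  generalize (t.t14.val : ℝ) = u14 at *
  generalize (t.t22.val : ℝ) = u22 at *
  generalize (t.t23.val : ℝ) = u23 at *
  generalize (t.t24.val : ℝ) = u24 at *
  generalize (t.t33.val : ℝ) = u33 at *
  generalize (t.t34.val : ℝ) = u34 at *
  generalize (t.t44.val : ℝ) = u44 at *
  obtain ⟨w4, hw4⟩ : ∃ w4, u44 * w4 = z4 := ⟨z4 / u44, by field_simp⟩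
  obtain ⟨w3, hw3⟩ : ∃ w3, u33 * w3 + u34 * w4 = z3 := ⟨(z3 - u34 * w4) / u33, by field_simp; ring⟩
  obtain ⟨w2, hw2⟩ : ∃ w2, u22 * w2 + u23 * w3 + u24 * w4 = z2 :=
    ⟨(z2 - u23 * w3 - u24 * w4) / u22, by field_simp; ring⟩
  obtain ⟨w1, hw1⟩ : ∃ w1, u11 * w1 + u12 * w2 + u13 * w3 + u14 * w4 = z1 :=
    ⟨(z1 - u12 * w2 - u13 * w3 - u14 * w4) / u11, by field_simp; ring⟩
  have key := quad4_nonneg d1 d2 d3 d4 w1 w2 w3 w4
  rw [form4_congr] at key
  rw [← hw1, ← hw2, ← hw3, ← hw4]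
  exact key

end Vale.Agent.P211.H237
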