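import Vale.Agent.P211.H237.Psd3

/-!
Subdivision trees for boxes in `(x, y, p)`; leaves carry a number (their packed data).
-/

namespace Vale.Agent.P211.H237

/-- a box `xa ≤ xq x ≤ xb`, `ya ≤ yq y ≤ yb`, `pa ≤ pq p ≤ pb` (the denominators are global);
a negative `pb` means that there is no upper bound for `p` -/
structure Box where
  xa : ℤ
  xb : ℤ
  ya : ℤ
  yb : ℤ
  pa : ℤ
  pb : ℤ

namespace Box

def In (b : Box) (xq yq pq : ℕ) (x y p : ℝ) : Prop :=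
  (b.xa : ℝ) ≤ xq * x ∧ xq * x ≤ b.xb ∧ (b.ya : ℝ) ≤ yq * y ∧ yq * y ≤ b.yb ∧
    (b.pa : ℝ) ≤ pq * p ∧ (b.pb < 0 ∨ pq * p ≤ b.pb)

/-- the cell of a box -/
def cell (b : Box) (xq yq : ℕ) : CellP := ⟨b.xa, b.xb, xq, b.ya, b.yb, yq⟩

theorem In.cell {b : Box} {xq yq pq : ℕ} {x y p : ℝ} (h : b.In xq yq pq x y p) :
    (b.cell xq yq).In x y := ⟨h.1, h.2.1, h.2.2.1, h.2.2.2.1⟩

end Box

/-- subdivision trees; `no` = a leaf that is excluded for another reason -/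
inductive Tr
  | leaf (d : ℕ)
  | sx (m : ℤ) (a b : Tr)
  | sy (m : ℤ) (a b : Tr)
  | sp (m : ℤ) (a b : Tr)

namespace Tr

/-- the check of a tree -/
noncomputable def ok (lf : Box → ℕ → Bool) (t : Tr) : Box → Bool :=
  Tr.rec (motive := fun _ => Box → Bool) (fun d b => lf b d)
    (fun m _ _ ia ib b => (ia ⟨b.xa, m, b.ya, b.yb, b.pa, b.pb⟩) &&
      (ib ⟨m, b.xb, b.ya, b.yb, b.pa, b.pb⟩))
    (fun m _ _ ia ib b => (ia ⟨b.xa, b.xb, b.ya, m, b.pa, b.pb⟩) &&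
      (ib ⟨b.xa, b.xb, m, b.yb, b.pa, b.pb⟩))
    (fun m _ _ ia ib b => (ia ⟨b.xa, b.xb, b.ya, b.yb, b.pa, m⟩) &&
      (ib ⟨b.xa, b.xb, b.ya, b.yb, m, b.pb⟩)) t

theorem ok_sound (lf : Box → ℕ → Bool) (Good : ℝ → ℝ → ℝ → Prop) (xq yq pq : ℕ)
    (hlf : ∀ b d, lf b d = true → ∀ x y p, b.In xq yq pq x y p → Good x y p) (t : Tr) :
    ∀ b : Box, t.ok lf b = true → ∀ x y p, b.In xq yq pq x y p → Good x y p := by
  induction t with
  | leaf d => exact fun b h => hlf b d h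
  | sx m a b iha ihb =>
    intro c h x y p hc
    have h' : (a.ok lf ⟨c.xa, m, c.ya, c.yb, c.pa, c.pb⟩ &&
      b.ok lf ⟨m, c.xb, c.ya, c.yb, c.pa, c.pb⟩) = true := h
    rw [Bool.and_eq_true] at h'
    obtain ⟨h1, h2, h3, h4, h5, h6⟩ := hc
    rcases le_total (xq * x : ℝ) m with hm | hm
    · exact iha _ h'.1 x y p ⟨h1, hm, h3, h4, h5, h6⟩
    · exact ihb _ h'.2 x y p ⟨hm, h2, h3, h4, h5, h6⟩
  | sy m a b iha ihb =>
    intro c h x y p hc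
    have h' : (a.ok lf ⟨c.xa, c.xb, c.ya, m, c.pa, c.pb⟩ &&
      b.ok lf ⟨c.xa, c.xb, m, c.yb, c.pa, c.pb⟩) = true := h
    rw [Bool.and_eq_true] at h'
    obtain ⟨h1, h2, h3, h4, h5, h6⟩ := hc
    rcases le_total (yq * y : ℝ) m with hm | hm
    · exact iha _ h'.1 x y p ⟨h1, h2, h3, hm, h5, h6⟩
    · exact ihb _ h'.2 x y p ⟨h1, h2, hm, h4, h5, h6⟩
  | sp m a b iha ihb =>
    intro c h x y p hc
    have h' : (a.ok lf ⟨c.xa, c.xb, c.ya, c.yb, c.pa, m⟩ &&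
      b.ok lf ⟨c.xa, c.xb, c.ya, c.yb, m, c.pb⟩) = true := h
    rw [Bool.and_eq_true] at h'
    obtain ⟨h1, h2, h3, h4, h5, h6⟩ := hc
    rcases le_total (pq * p : ℝ) m with hm | hm
    · exact iha _ h'.1 x y p ⟨h1, h2, h3, h4, h5, Or.inr hm⟩
    · exact ihb _ h'.2 x y p ⟨h1, h2, h3, h4, hm, h6⟩

end Tr

/-- digit number `i` in base `2^k` of the packed data -/
def dgt (k d i : ℕ) : ℕ := (d / 2 ^ (k * i)) % 2 ^ k

theorem dgt_lt (k d i : ℕ) : dgt k d i < 2 ^ k := Nat.mod_lt _ (Nat.two_pow_pos k)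

end Vale.Agent.P211.H237
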