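import Vale.Agent.P211.H237.Prog

/-!
Cell checks: linear combinations and 3x3 matrices.
-/

namespace Vale.Agent.P211.H237

open MvPolynomial

/-- global parameters of a family of checks -/
structure Fam where
  prog : List Ex
  /-- digit size -/
  β : ℕ
  /-- degrees -/
  D : ℕ
  E : ℕ
  /-- bounds for the cell data -/
  nx : ℕ
  ny : ℕ
  /-- bound for the norms of the outputs -/
  n0 : ℕ

namespace Fam

def W (F : Fam) : ℕ := 2 ^ ((F.β + 1) * ((F.D + 1) * (F.E + 1)))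

theorem W_pos (F : Fam) : 0 < F.W := Nat.pow_pos (by norm_num)

def msk (F : Fam) : ℕ := mask F.β (F.D + 1) (F.E + 1)

/-- static check of the norm and degree bounds -/
def okB (F : Fam) : Bool :=
  (runBd F.prog [(1, 1, 0), (1, 0, 1)]).all
    fun t => Nat.ble t.1 F.n0 && Nat.ble t.2.1 F.D && Nat.ble t.2.2 F.E

end Fam

/-- context of a cell -/
structure Ctx (F : Fam) (c : CellP) where
  xb : ZMod F.W
  yb : ZMod F.W
  s0 : ℕ
  hxq : 0 < c.xq
  hyq : 0 < c.yq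
  hxl : c.xa < c.xb
  hyl : c.ya < c.yb
  hx : 2 * c.xq ≤ F.nx
  hx' : c.xa.natAbs + (c.xb).natAbs ≤ F.nx
  hy : 2 * c.yq ≤ F.ny
  hy' : c.ya.natAbs + (c.yb).natAbs ≤ F.ny
  hxb : (c.xa : ZMod F.W) + c.xb * 2 ^ (F.β + 1) = xb * (c.xq * (1 + 2 ^ (F.β + 1)))
  hyb : (c.ya : ZMod F.W) + c.yb * 2 ^ ((F.β + 1) * (F.D + 1))
      = yb * (c.yq * (1 + 2 ^ ((F.β + 1) * (F.D + 1))))
  hs0 : (s0 : ZMod F.W) = (c.xq * (1 + 2 ^ (F.β + 1))) ^ F.D *
    (c.yq * (1 + 2 ^ ((F.β + 1) * (F.D + 1)))) ^ F.E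

/-- `v` represents `P` with norm bound `n` -/
def Rep {F : Fam} {c : CellP} (C : Ctx F c) (v : ℕ) (P : MP) (n : ℕ) : Prop :=
  Bd P n F.D F.E ∧ v ≤ F.W ∧
    (v : ZMod F.W) = C.s0 * eval₂ (Int.castRingHom (ZMod F.W)) ![C.xb, C.yb] P

variable {F : Fam} {c : CellP} {C : Ctx F c}

theorem Rep.mono {v : ℕ} {P : MP} {n n' : ℕ} (h : Rep C v P n) (hn : n ≤ n') : Rep C v P n' :=
  ⟨h.1.mono hn le_rfl le_rfl, h.2⟩

theorem Rep.add {v v' : ℕ} {P P' : MP} {n n' : ℕ} (h : Rep C v P n) (h' : Rep C v' P' n') :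
    Rep C ((v + v') % F.W) (P + P') (n + n') := by
  refine ⟨?_, (Nat.mod_lt _ F.W_pos).le, ?_⟩
  · simpa using h.1.add h'.1
  · rw [ZMod.natCast_mod, Nat.cast_add, h.2.2, h'.2.2, eval₂_add, mul_add]

/-- multiplication by a signed small number, digit `d` minus offset `o` -/
def sm (W o v d : ℕ) : ℕ := (v * d + (W - v) * o) % W

theorem Rep.sm {v : ℕ} {P : MP} {n : ℕ} (h : Rep C v P n) (o d : ℕ) :
    Rep C (sm F.W o v d) (MvPolynomial.C ((d : ℤ) - o) * P) ((d + o) * n) := by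
  refine ⟨?_, (Nat.mod_lt _ F.W_pos).le, ?_⟩
  · have := (Bd.C ((d : ℤ) - o)).mul h.1
    refine this.mono (Nat.mul_le_mul_right _ ?_) (by omega) (by omega)
    omega
  · unfold H237.sm
    rw [ZMod.natCast_mod, Nat.cast_add, Nat.cast_mul, Nat.cast_mul, Nat.cast_sub h.2.1,
      ZMod.natCast_self, h.2.2, eval₂_mul, eval₂_C]
    simp only [eq_intCast]
    push_cast
    ring

/-- the mask check -/
def chk (W m v : ℕ) : Bool := Nat.beq (((v + m) % W) &&& m) m

theorem Rep.nonneg {v : ℕ} {P : MP} {n : ℕ} (h : Rep C v P n)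
    (hn : n * (F.nx ^ F.D * F.ny ^ F.E) < 2 ^ F.β) (hc : chk F.W F.msk v = true) (x y : ℝ)
    (hxy : c.In x y) : 0 ≤ rev x y P := by
  have hW : F.W = 2 ^ ((F.β + 1) * ((F.D + 1) * (F.E + 1))) := rfl
  refine nonneg_on_box (W := F.W) h.1 c hW C.hxq C.hyq C.hxl C.hyl C.hx C.hx' C.hy C.hy' hn v
    C.xb C.yb C.hxb C.hyb ?_ ?_ x y hxy
  · rw [h.2.2, C.hs0]
  · unfold chk at hc
    exact Nat.eq_of_beq_eq_true hc

/-! ### outputs of the program -/

theorem rev_getD (prog : List Ex) (x y : ℝ) (i : ℕ) :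
    rev x y ((run prog [X 0, X 1]).getD i 0) = (run prog [x, y]).getD i 0 := by
  have h1 := map_run (eval₂Hom (Int.castRingHom ℝ) ![x, y]) prog [X 0, X 1]
  have h2 : ([X 0, X 1] : List MP).map (eval₂Hom (Int.castRingHom ℝ) ![x, y]) = [x, y] := by
    simp
  rw [h2] at h1
  rw [← h1]
  have h3 := List.getD_map (run prog [X 0, X 1]) 0 (n := i)
    (eval₂Hom (Int.castRingHom ℝ) ![x, y])
  rw [map_zero] at h3
  rw [h3]
  rfl

theorem envBd0 : Ex.EnvBd [X 0, X 1] [(1, 1, 0), (1, 0, 1)] := by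
  intro i
  match i with
  | 0 => exact Bd.X0
  | 1 => exact Bd.X1
  | k + 2 => simpa using Bd.zero

theorem bd_output {F : Fam} (h : F.okB = true) (i : ℕ) :
    Bd ((run F.prog [X 0, X 1]).getD i 0) F.n0 F.D F.E := by
  have h1 := runBd_run F.prog [X 0, X 1] [(1, 1, 0), (1, 0, 1)] rfl envBd0 i
  by_cases hi : i < (runBd F.prog [(1, 1, 0), (1, 0, 1)]).length
  · unfold Fam.okB at h
    rw [List.all_eq_true] at h
    have h2 := h _ (List.getElem_mem hi)
    simp only [Bool.and_eq_true, Nat.ble_eq] at h2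
    rw [List.getD_eq_getElem _ _ hi] at h1
    exact h1.mono h2.1.1 h2.1.2 h2.2
  · rw [List.getD_eq_default _ _ (not_lt.mp hi)] at h1
    exact h1.mono (Nat.zero_le _) (Nat.zero_le _) (Nat.zero_le _)

/-- scaled output residues -/
noncomputable def outN (F : Fam) (xr yr s0 : ℕ) : List ℕ :=
  (runN F.W F.prog [xr, yr]).map fun v => (v * s0) % F.W

theorem rep_output (hF : F.okB = true) (xr yr : ℕ) (hxr : (xr : ZMod F.W) = C.xb)
    (hyr : (yr : ZMod F.W) = C.yb) (i : ℕ) :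
    Rep C ((outN F xr yr C.s0).getD i 0) ((run F.prog [X 0, X 1]).getD i 0) F.n0 := by
  refine ⟨bd_output hF i, ?_, ?_⟩
  · have h3 := List.getD_map (runN F.W F.prog [xr, yr]) 0 (n := i) (fun v => (v * C.s0) % F.W)
    simp only [Nat.zero_mul, Nat.zero_mod] at h3
    unfold outN
    rw [h3]
    exact (Nat.mod_lt _ F.W_pos).le
  · have h3 := List.getD_map (runN F.W F.prog [xr, yr]) 0 (n := i) (fun v => (v * C.s0) % F.W)
    simp only [Nat.zero_mul, Nat.zero_mod] at h3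
    unfold outN
    rw [h3, ZMod.natCast_mod, Nat.cast_mul, mul_comm]
    congr 1
    have h1 := cast_runN F.W F.W_pos F.prog [xr, yr]
    have h2 : ([xr, yr].map (Nat.cast : ℕ → ZMod F.W)) = [C.xb, C.yb] := by
      simp [hxr, hyr]
    rw [h2] at h1
    have h4 := List.getD_map (runN F.W F.prog [xr, yr]) 0 (n := i) (Nat.cast : ℕ → ZMod F.W)
    rw [Nat.cast_zero, h1] at h4
    rw [← h4]
    have h5 := map_run (eval₂Hom (Int.castRingHom (ZMod F.W)) ![C.xb, C.yb]) F.prog [X 0, X 1]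
    have h6 : ([X 0, X 1] : List MP).map (eval₂Hom (Int.castRingHom (ZMod F.W)) ![C.xb, C.yb])
        = [C.xb, C.yb] := by simp
    rw [h6] at h5
    rw [← h5]
    have h7 := List.getD_map (run F.prog [X 0, X 1]) 0 (n := i)
      (eval₂Hom (Int.castRingHom (ZMod F.W)) ![C.xb, C.yb])
    rw [map_zero] at h7
    rw [h7]
    rfl

end Vale.Agent.P211.H237
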