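import Mathlib.Algebra.MvPolynomial.Degrees
import Mathlib.Algebra.MvPolynomial.Eval
import Mathlib.Data.Real.Basic
import Mathlib.Tactic

/-!
Kronecker substitution: nonnegativity of all coefficients of an integer polynomial in two
variables from one big integer.
-/

namespace Vale.Agent.P211.H237

open MvPolynomial

abbrev MP := MvPolynomial (Fin 2) ℤ
abbrev MN := MvPolynomial (Fin 2) ℕ

/-- coefficientwise domination -/
def Dom (P : MP) (Q : MN) : Prop := ∀ m, (coeff m P).natAbs ≤ coeff m Q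

theorem Dom.add {P P' : MP} {Q Q' : MN} (h : Dom P Q) (h' : Dom P' Q') :
    Dom (P + P') (Q + Q') := by
  intro m
  rw [coeff_add, coeff_add]
  exact (Int.natAbs_add_le _ _).trans (Nat.add_le_add (h m) (h' m))

theorem natAbs_sum_le {ι : Type*} (s : Finset ι) (f : ι → ℤ) :
    (∑ i ∈ s, f i).natAbs ≤ ∑ i ∈ s, (f i).natAbs := by
  classical
  induction s using Finset.induction_on with
  | empty => simp
  | insert a s ha ih =>
    rw [Finset.sum_insert ha, Finset.sum_insert ha]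
    exact (Int.natAbs_add_le _ _).trans (Nat.add_le_add_left ih _)

theorem Dom.mul {P P' : MP} {Q Q' : MN} (h : Dom P Q) (h' : Dom P' Q') :
    Dom (P * P') (Q * Q') := by
  classical
  intro m
  rw [coeff_mul, coeff_mul]
  refine (natAbs_sum_le _ _).trans (Finset.sum_le_sum fun x _ => ?_)
  rw [Int.natAbs_mul]
  exact Nat.mul_le_mul (h _) (h' _)

theorem Dom.C (a : ℤ) : Dom (C a) (C a.natAbs) := by
  classical
  intro m
  rw [coeff_C, coeff_C]
  split_ifs <;> simp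

theorem Dom.X (i : Fin 2) : Dom (X i) (X i) := by
  classical
  intro m
  rw [coeff_X, coeff_X]
  split_ifs <;> simp

theorem Dom.zero : Dom 0 0 := by
  intro m; simp

theorem coeff_le_eval (Q : MN) (m : Fin 2 →₀ ℕ) : coeff m Q ≤ eval (fun _ => 1) Q := by
  classical
  rw [eval_eq']
  simp only [one_pow, Finset.prod_const_one, mul_one]
  by_cases hm : m ∈ Q.support
  · exact Finset.single_le_sum (f := fun d => coeff d Q) (fun _ _ => Nat.zero_le _) hm
  · rw [notMem_support_iff.mp hm]; exact Nat.zero_le _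

/-! ### digits -/

/-- `∑_{k<D} f k 2^{γ k}` -/
def dig (γ : ℕ) (D : ℕ) (f : ℕ → ℕ) : ℕ := ∑ k ∈ Finset.range D, f k * 2 ^ (γ * k)

theorem dig_succ (γ D : ℕ) (f : ℕ → ℕ) :
    dig γ (D + 1) f = 2 ^ γ * dig γ D (fun k => f (k + 1)) + f 0 := by
  unfold dig
  rw [Finset.sum_range_succ', Finset.mul_sum]
  congr 1
  · refine Finset.sum_congr rfl fun k _ => ?_
    rw [Nat.mul_succ, pow_add]; ring
  · simp

theorem dig_testBit (γ : ℕ) : ∀ (D : ℕ) (f : ℕ → ℕ), (∀ k < D, f k < 2 ^ γ) →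
    ∀ k < D, ∀ b < γ, (dig γ D f).testBit (γ * k + b) = (f k).testBit b
  | 0, _, _ => fun k hk => absurd hk (Nat.not_lt_zero _)
  | D + 1, f, hf => by
    intro k hk b hb
    rw [dig_succ, Nat.testBit_two_pow_mul_add _ (hf 0 (Nat.succ_pos _))]
    rcases k with _ | k
    · simp [hb]
    · have h1 : ¬ (γ * (k + 1) + b < γ) := by
        have : γ ≤ γ * (k + 1) := Nat.le_mul_of_pos_right _ (Nat.succ_pos _)
        omega
      rw [if_neg h1]
      have h2 : γ * (k + 1) + b - γ = γ * k + b := by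
        rw [Nat.mul_succ]; omega
      rw [h2]
      exact dig_testBit γ D (fun k => f (k + 1)) (fun j hj => hf (j + 1) (Nat.succ_lt_succ hj)) k
        (Nat.lt_of_succ_lt_succ hk) b hb

theorem dig_lt (γ : ℕ) : ∀ (D : ℕ) (f : ℕ → ℕ), (∀ k < D, f k < 2 ^ γ) → dig γ D f < 2 ^ (γ * D)
  | 0, f, _ => by simp [dig]
  | D + 1, f, hf => by
    rw [dig_succ, Nat.mul_succ, pow_add]
    have h1 := dig_lt γ D (fun k => f (k + 1)) (fun j hj => hf (j + 1) (Nat.succ_lt_succ hj))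
    have h2 := hf 0 (Nat.succ_pos _)
    calc 2 ^ γ * dig γ D (fun k => f (k + 1)) + f 0
        < 2 ^ γ * dig γ D (fun k => f (k + 1)) + 2 ^ γ := by omega
      _ = 2 ^ γ * (dig γ D (fun k => f (k + 1)) + 1) := by ring
      _ ≤ 2 ^ γ * 2 ^ (γ * D) := Nat.mul_le_mul_left _ h1
      _ = 2 ^ (γ * D) * 2 ^ γ := by ring

/-- two-level digits -/
def dig2 (β K D : ℕ) (f : ℕ → ℕ → ℕ) : ℕ := dig (β * K) D fun j => dig β K fun i => f i j

theorem dig2_testBit (β K D : ℕ) (f : ℕ → ℕ → ℕ) (hf : ∀ i < K, ∀ j < D, f i j < 2 ^ β) (i j b : ℕ)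
    (hi : i < K) (hj : j < D) (hb : b < β) :
    (dig2 β K D f).testBit (β * K * j + (β * i + b)) = (f i j).testBit b := by
  unfold dig2
  have hlt : β * i + b < β * K := by
    calc β * i + b < β * i + β := by omega
      _ = β * (i + 1) := by ring
      _ ≤ β * K := Nat.mul_le_mul_left _ hi
  rw [dig_testBit (β * K) D _ (fun k hk => dig_lt β K _ fun i hi => hf i hi k hk) j hj _ hlt]
  exact dig_testBit β K _ (fun i hi => hf i hi j hj) i hi b hb

theorem nonneg_of_mask (β K D : ℕ) (f : ℕ → ℕ → ℕ) (hf : ∀ i < K, ∀ j < D, f i j < 2 ^ (β + 1))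
    (hm : (dig2 (β + 1) K D f) &&& (dig2 (β + 1) K D fun _ _ => 2 ^ β)
      = dig2 (β + 1) K D fun _ _ => 2 ^ β) :
    ∀ i < K, ∀ j < D, 2 ^ β ≤ f i j := by
  intro i hi j hj
  have h1 := dig2_testBit (β + 1) K D f hf i j β hi hj (Nat.lt_succ_self _)
  have h2 := dig2_testBit (β + 1) K D (fun _ _ => 2 ^ β)
    (fun _ _ _ _ => Nat.pow_lt_pow_right (by norm_num) (Nat.lt_succ_self _)) i j β hi hj
    (Nat.lt_succ_self _)
  have h3 := congrArg (fun x : ℕ => x.testBit ((β + 1) * K * j + ((β + 1) * i + β))) hm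
  simp only [Nat.testBit_and] at h3
  rw [h1, h2, Nat.testBit_two_pow_self, Bool.and_true] at h3
  exact Nat.ge_two_pow_of_testBit h3

theorem dig2_cast (β K D : ℕ) (f : ℕ → ℕ → ℕ) :
    ((dig2 β K D f : ℕ) : ℤ) = ∑ j ∈ Finset.range D, ∑ i ∈ Finset.range K,
      (f i j : ℤ) * ((2 ^ β) ^ i * (2 ^ (β * K)) ^ j) := by
  unfold dig2 dig
  push_cast
  refine Finset.sum_congr rfl fun j _ => ?_
  rw [Finset.sum_mul]
  refine Finset.sum_congr rfl fun i _ => ?_
  rw [← pow_mul, ← pow_mul]; ring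

/-- closed form of the mask -/
def mask (β K D : ℕ) : ℕ := 2 ^ β * ((2 ^ ((β + 1) * (K * D)) - 1) / (2 ^ (β + 1) - 1))

theorem dig_const (γ : ℕ) (hγ : 0 < γ) (a : ℕ) : ∀ D : ℕ,
    dig γ D (fun _ => a) = a * ((2 ^ (γ * D) - 1) / (2 ^ γ - 1)) := by
  intro D
  have hpos : 0 < 2 ^ γ - 1 := by
    have : 2 ^ 1 ≤ 2 ^ γ := Nat.pow_le_pow_right (by norm_num) hγ
    omega
  have key : (2 ^ γ - 1) * ∑ k ∈ Finset.range D, 2 ^ (γ * k) = 2 ^ (γ * D) - 1 := by
    have := Nat.geomSum_eq (m := 2 ^ γ) (by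
      have : 2 ^ 1 ≤ 2 ^ γ := Nat.pow_le_pow_right (by norm_num) hγ
      omega) D
    have h2 : ∑ k ∈ Finset.range D, 2 ^ (γ * k) = ∑ k ∈ Finset.range D, (2 ^ γ) ^ k := by
      refine Finset.sum_congr rfl fun k _ => by rw [pow_mul]
    rw [h2, this, Nat.mul_div_cancel', pow_mul]
    simpa using Nat.sub_dvd_pow_sub_pow (2 ^ γ) 1 D
  unfold dig
  rw [← Finset.mul_sum, ← key, Nat.mul_div_cancel_left _ hpos]

theorem mask_eq (β K D : ℕ) : dig2 (β + 1) K D (fun _ _ => 2 ^ β) = mask β K D := by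
  unfold dig2
  rw [show (fun _ : ℕ => dig (β + 1) K fun _ => 2 ^ β) = fun _ => dig (β + 1) K (fun _ => 2 ^ β)
    from rfl]
  rcases Nat.eq_zero_or_pos K with rfl | hK
  · simp [dig, mask]
  rw [dig_const _ (Nat.mul_pos (Nat.succ_pos _) hK), dig_const _ (Nat.succ_pos _)]
  unfold mask
  rw [Nat.mul_assoc]
  congr 1
  have hpos : 0 < 2 ^ (β + 1) - 1 := by
    have : 2 ^ 1 ≤ 2 ^ (β + 1) := Nat.pow_le_pow_right (by norm_num) (Nat.succ_pos _)
    omega
  have hpos2 : 0 < 2 ^ ((β + 1) * K) - 1 := by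
    have : 2 ^ 1 ≤ 2 ^ ((β + 1) * K) := Nat.pow_le_pow_right (by norm_num)
      (Nat.mul_pos (Nat.succ_pos _) hK)
    omega
  obtain ⟨a, ha⟩ : (2 ^ (β + 1) - 1) ∣ 2 ^ ((β + 1) * K) - 1 := by
    rw [pow_mul]; simpa using Nat.sub_dvd_pow_sub_pow (2 ^ (β + 1)) 1 K
  obtain ⟨b, hb⟩ : (2 ^ ((β + 1) * K) - 1) ∣ 2 ^ ((β + 1) * K * D) - 1 := by
    have h := Nat.sub_dvd_pow_sub_pow (2 ^ ((β + 1) * K)) 1 D
    rwa [one_pow, ← pow_mul] at h
  rw [← Nat.mul_assoc, hb, Nat.mul_div_cancel_left _ hpos2, ha, Nat.mul_div_cancel_left _ hpos,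
    Nat.mul_assoc, Nat.mul_div_cancel_left _ hpos]

/-! ### from the value to the coefficients -/

/-- exponent vector -/
noncomputable def ex (i j : ℕ) : Fin 2 →₀ ℕ := Finsupp.single 0 i + Finsupp.single 1 j

@[simp] theorem ex_zero (i j : ℕ) : ex i j 0 = i := by simp [ex]
@[simp] theorem ex_one (i j : ℕ) : ex i j 1 = j := by simp [ex]

theorem ex_inj {i j i' j' : ℕ} (h : ex i j = ex i' j') : i = i' ∧ j = j' := by
  constructor
  · have := congrArg (fun m : Fin 2 →₀ ℕ => m 0) h; simpa using this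
  · have := congrArg (fun m : Fin 2 →₀ ℕ => m 1) h; simpa using this

theorem eq_ex (m : Fin 2 →₀ ℕ) : m = ex (m 0) (m 1) := by
  ext i; fin_cases i <;> simp

theorem sum_support_eq {S : Type*} [AddCommMonoid S] (P : MP) (K D : ℕ)
    (h0 : ∀ m ∈ P.support, m 0 < K) (h1 : ∀ m ∈ P.support, m 1 < D)
    (g : (Fin 2 →₀ ℕ) → ℤ → S) (hg : ∀ m, g m 0 = 0) :
    ∑ m ∈ P.support, g m (coeff m P)
      = ∑ j ∈ Finset.range D, ∑ i ∈ Finset.range K, g (ex i j) (coeff (ex i j) P) := by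
  classical
  rw [← Finset.sum_product']
  have hinj : Set.InjOn (fun x : ℕ × ℕ => ex x.2 x.1)
      ↑(Finset.range D ×ˢ Finset.range K) := by
    intro x _ y _ h
    obtain ⟨h1, h2⟩ := ex_inj h
    exact Prod.ext h2 h1
  rw [← Finset.sum_image (f := fun m => g m (coeff m P)) hinj]
  refine Finset.sum_subset ?_ ?_
  · intro m hm
    rw [Finset.mem_image]
    refine ⟨(m 1, m 0), ?_, (eq_ex m).symm⟩
    rw [Finset.mem_product]
    exact ⟨Finset.mem_range.mpr (h1 m hm), Finset.mem_range.mpr (h0 m hm)⟩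
  · intro m _ hm
    rw [notMem_support_iff.mp hm, hg]

theorem dig2_lt (β K D : ℕ) (f : ℕ → ℕ → ℕ) (hf : ∀ i < K, ∀ j < D, f i j < 2 ^ β) :
    dig2 β K D f < 2 ^ (β * (K * D)) := by
  unfold dig2
  rw [← Nat.mul_assoc]
  exact dig_lt (β * K) D _ fun k hk => dig_lt β K _ fun i hi => hf i hi k hk

theorem exists_digits (P : MP) (Q : MN) (hPQ : Dom P Q) (β K D : ℕ)
    (h0 : ∀ m ∈ P.support, m 0 < K) (h1 : ∀ m ∈ P.support, m 1 < D)
    (hn : eval (fun _ => 1) Q < 2 ^ β) :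
    ∃ Y : ℕ, (Y : ℤ) = eval ![2 ^ (β + 1), 2 ^ ((β + 1) * K)] P + (mask β K D : ℤ) ∧
      Y < 2 ^ ((β + 1) * (K * D)) ∧
      (Y &&& mask β K D = mask β K D → ∀ m, 0 ≤ coeff m P) := by
  have hb : ∀ m, (coeff m P).natAbs < 2 ^ β := fun m =>
    ((hPQ m).trans (coeff_le_eval Q m)).trans_lt hn
  set f : ℕ → ℕ → ℕ := fun i j => (coeff (ex i j) P + 2 ^ β).toNat with hf
  have hfc : ∀ i j, ((f i j : ℕ) : ℤ) = coeff (ex i j) P + 2 ^ β := by
    intro i j
    rw [hf]; simp only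
    rw [Int.toNat_of_nonneg]
    have h1 := hb (ex i j)
    have h2 : (((2 : ℕ) ^ β : ℕ) : ℤ) = 2 ^ β := by push_cast; rfl
    omega
  have hflt : ∀ i < K, ∀ j < D, f i j < 2 ^ (β + 1) := by
    intro i _ j _
    have h1 := hb (ex i j)
    have h2 : (((2 : ℕ) ^ β : ℕ) : ℤ) = 2 ^ β := by push_cast; rfl
    have h3 := hfc i j
    have h4 : (2 : ℕ) ^ (β + 1) = 2 * 2 ^ β := by rw [pow_succ]; ring
    omega
  refine ⟨dig2 (β + 1) K D f, ?_, dig2_lt _ _ _ _ hflt, ?_⟩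
  · rw [← mask_eq, dig2_cast, dig2_cast, eval_eq']
    simp only [Fin.prod_univ_two, Matrix.cons_val_zero, Matrix.cons_val_one]
    rw [sum_support_eq P K D h0 h1 (fun m a => a * ((2 ^ (β + 1)) ^ m 0 *
      (2 ^ ((β + 1) * K)) ^ m 1)) (fun m => by simp), ← Finset.sum_add_distrib]
    refine Finset.sum_congr rfl fun j _ => ?_
    rw [← Finset.sum_add_distrib]
    refine Finset.sum_congr rfl fun i _ => ?_
    rw [hfc, ex_zero, ex_one]
    push_cast
    ring
  · intro hm m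
    by_cases hms : m ∈ P.support
    swap
    · rw [notMem_support_iff.mp hms]
    have := nonneg_of_mask β K D f hflt (by rw [mask_eq]; exact hm) (m 0) (h0 m hms) (m 1)
      (h1 m hms)
    have h3 := hfc (m 0) (m 1)
    rw [← eq_ex] at h3
    have h2 : (((2 : ℕ) ^ β : ℕ) : ℤ) = 2 ^ β := by push_cast; rfl
    omega

theorem eval_nonneg (P : MP) (hP : ∀ m, 0 ≤ coeff m P) (t r : ℝ) (ht : 0 ≤ t) (hr : 0 ≤ r) :
    0 ≤ eval₂ (Int.castRingHom ℝ) ![t, r] P := by
  rw [eval₂_eq']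
  refine Finset.sum_nonneg fun m _ => mul_nonneg ?_ (Finset.prod_nonneg fun i _ => pow_nonneg ?_ _)
  · have := hP m
    simpa using this
  · fin_cases i
    · exact ht
    · exact hr

end Vale.Agent.P211.H237
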