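import Vale.Agent.P211.H237.Psd4

/-!
Families of tables together with the products of some of them with a profile polynomial.
-/

namespace Vale.Agent.P211.H237

open MvPolynomial

/-! ### sharper degree bounds -/

theorem dot_bd : ∀ (cs : List Sg) (a : MP) (i n j : ℕ), Bd a 1 i j →
    Bd (dot cs (row (X 1) n a)) (nrm cs) i (j + (cs.length - 1))
  | [], a, i, n, j, _ => by
    have e : dot ([] : List Sg) (row (X 1) n a) = (0 : MP) := by cases n <;> rfl
    rw [e]
    exact Bd.zero.mono (Nat.zero_le _) (Nat.zero_le _) (Nat.zero_le _)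
  | c :: cs, a, i, n, j, h => by
    have h1 := ((Bd.C c.val).mul h)
    rw [Sg.abs_val] at h1
    have e : (C c.val : MP) = (c.val : MP) := by simp
    rw [e] at h1
    cases n with
    | zero =>
      show Bd ((c.val : MP) * a + dot cs []) _ _ _
      have h2 : dot cs ([] : List MP) = 0 := by cases cs <;> rfl
      rw [h2, add_zero]
      exact h1.mono (by simp [nrm]) (by omega) (by omega)
    | succ n =>
      show Bd ((c.val : MP) * a + dot cs (row (X 1) n (a * X 1))) _ _ _
      cases cs with
      | nil =>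
        have h2 : dot ([] : List Sg) (row (X 1) n (a * X 1)) = (0 : MP) := by cases n <;> rfl
        rw [h2, add_zero]
        exact h1.mono (by simp [nrm]) (by omega) (by omega)
      | cons d cs =>
        have h2 := dot_bd (d :: cs) (a * X 1) i n (j + 1) ((h.mul Bd.X1).mono (by omega) (by omega)
          (by omega))
        refine (h1.add h2).mono (by simp [nrm]) (by omega) ?_
        simp only [List.length_cons] at h2 ⊢
        omega

/-- maximal length of the rows minus one -/
def ml : List (List Sg) → ℕ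
  | [] => 0
  | c :: cs => max (c.length - 1) (ml cs)

theorem dot2_bd (E : ℕ) : ∀ (cs : List (List Sg)) (a : MP) (i n : ℕ), Bd a 1 i 0 →
    Bd (dot2 cs (rows E (X 0) (X 1) n a)) (nrm2 cs) (i + (cs.length - 1)) (ml cs)
  | [], a, i, n, _ => by
    have e : dot2 ([] : List (List Sg)) (rows E (X 0) (X 1) n a) = (0 : MP) := by cases n <;> rfl
    rw [e]
    exact Bd.zero.mono (Nat.zero_le _) (Nat.zero_le _) (Nat.zero_le _)
  | c :: cs, a, i, n, h => by
    have h1 := dot_bd c a i E 0 h
    cases n with
    | zero =>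
      show Bd (dot c (row (X 1) E a) + dot2 cs []) _ _ _
      have h2 : dot2 cs ([] : List (List MP)) = 0 := by cases cs <;> rfl
      rw [h2, add_zero]
      exact h1.mono (by simp [nrm2]) (by omega) (by simp [ml])
    | succ n =>
      show Bd (dot c (row (X 1) E a) + dot2 cs (rows E (X 0) (X 1) n (a * X 0))) _ _ _
      cases cs with
      | nil =>
        have h2 : dot2 ([] : List (List Sg)) (rows E (X 0) (X 1) n (a * X 0)) = (0 : MP) := by
          cases n <;> rfl
        rw [h2, add_zero]
        exact h1.mono (by simp [nrm2]) (by omega) (by simp [ml])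
      | cons d cs =>
        have h2 := dot2_bd E (d :: cs) (a * X 0) (i + 1) n ((h.mul Bd.X0).mono (by omega)
          (by omega) (by omega))
        refine (h1.add h2).mono (by simp [nrm2]) ?_ ?_
        · simp only [List.length_cons] at h2 ⊢
          omega
        · simp only [ml]; omega

/-! ### tables with products -/

/-- base tables, profile, indices of the tables to be multiplied by the profile -/
structure PT where
  T : Tab
  u : List (List Sg)
  ps : List ℕ

namespace PT

/-- the profile as a polynomial -/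
noncomputable def uP (P : PT) : MP := dot2 P.u (rows P.T.E (X 0) (X 1) P.T.D 1)

/-- the profile as a function -/
noncomputable def uV (P : PT) (x y : ℝ) : ℝ := dot2 P.u (rows P.T.E x y P.T.D 1)

/-- all polynomials -/
noncomputable def pols (P : PT) : List MP :=
  (P.T.cf.map fun c => dot2 c (rows P.T.E (X 0) (X 1) P.T.D 1)) ++
    (P.uP :: P.ps.map fun i => P.uP * P.T.pol i)

noncomputable def pol (P : PT) (i : ℕ) : MP := P.pols.getD i 0

/-- all values -/
noncomputable def valsL (P : PT) (x y : ℝ) : List ℝ :=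
  (P.T.cf.map fun c => dot2 c (rows P.T.E x y P.T.D 1)) ++
    (P.uV x y :: P.ps.map fun i => P.uV x y * P.T.vals x y i)

noncomputable def vals (P : PT) (x y : ℝ) (i : ℕ) : ℝ := (P.valsL x y).getD i 0

theorem rev_u (P : PT) (x y : ℝ) : rev x y P.uP = P.uV x y := by
  unfold rev uP uV
  have h1 := map_dot2 (eval₂Hom (Int.castRingHom ℝ) ![x, y]) P.u (rows P.T.E (X 0) (X 1) P.T.D 1)
  rw [map_rows] at h1
  simp only [coe_eval₂Hom, eval₂_X, eval₂_one, Matrix.cons_val_zero, Matrix.cons_val_one] at h1
  exact h1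

theorem rev_tab (P : PT) (x y : ℝ) (c : List (List Sg)) :
    rev x y (dot2 c (rows P.T.E (X 0) (X 1) P.T.D 1)) = dot2 c (rows P.T.E x y P.T.D 1) := by
  unfold rev
  have h1 := map_dot2 (eval₂Hom (Int.castRingHom ℝ) ![x, y]) c (rows P.T.E (X 0) (X 1) P.T.D 1)
  rw [map_rows] at h1
  simp only [coe_eval₂Hom, eval₂_X, eval₂_one, Matrix.cons_val_zero, Matrix.cons_val_one] at h1
  exact h1

theorem rev_pol (P : PT) (x y : ℝ) (i : ℕ) : rev x y (P.pol i) = P.vals x y i := by
  unfold pol vals
  have h0 : rev x y (0 : MP) = 0 := rev_zero x y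
  have h1 : ∀ l : List MP, ∀ i, rev x y (l.getD i 0) = (l.map (rev x y)).getD i 0 := by
    intro l
    induction l with
    | nil => intro i; simp [h0]
    | cons a l ih =>
      intro i
      cases i with
      | zero => rfl
      | succ i => simpa using ih i
  rw [h1]
  congr 1
  unfold pols valsL
  rw [List.map_append, List.map_cons, List.map_map, List.map_map, P.rev_u]
  congr 1
  · refine List.map_congr_left fun c _ => ?_
    exact P.rev_tab x y c
  · congr 1
    refine List.map_congr_left fun i _ => ?_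
    simp only [Function.comp]
    rw [rev_mul, P.rev_u, P.T.rev_pol]

/-- append by a recursor -/
noncomputable def app (l r : List ℕ) : List ℕ := List.rec r (fun a _ ih => a :: ih) l

theorem app_eq (l r : List ℕ) : app l r = l ++ r := by
  induction l with
  | nil => rfl
  | cons a l ih => show a :: app l r = a :: (l ++ r); rw [ih]

/-- products -/
noncomputable def prN (W u : ℕ) (o : List ℕ) (ps : List ℕ) : List ℕ :=
  List.rec [] (fun i _ ih => Nat.mod (Nat.mul u (nth o i)) W :: ih) ps

/-- residue of the profile -/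
noncomputable def ur (P : PT) (W : ℕ) (c : CellP) : ℕ :=
  Nat.mod (dot2N W P.u (rowsN W P.T.E (P.T.fam.xr c) (P.T.fam.yr c) P.T.D 1)) W

/-- all outputs on a cell -/
noncomputable def outs (P : PT) (W : ℕ) (c : CellP) : List ℕ :=
  app (P.T.outs W c) (Nat.mod (Nat.mul (P.ur W c) (P.T.fam.s0 c)) W ::
    prN W (P.ur W c) (P.T.outs W c) P.ps)

/-- static check -/
def okP (P : PT) : Bool :=
  P.T.okB && Nat.ble (nrm2 P.u) P.T.n0 && P.ps.all fun i =>
    Nat.ble (nrm2 P.u * nrm2 (P.T.cf.getD i [])) P.T.n0 &&
    Nat.ble ((P.u.length - 1) + ((P.T.cf.getD i []).length - 1)) P.T.D &&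
    Nat.ble (ml P.u + ml (P.T.cf.getD i [])) P.T.E

variable {P : PT} {c : CellP}

theorem length_mapO (W s0 : ℕ) (ms : List (List ℕ)) (cf : List (List (List Sg))) :
    (mapO W s0 ms cf).length = cf.length := by
  induction cf with
  | nil => rfl
  | cons a cf ih => show (_ :: mapO W s0 ms cf).length = _; rw [List.length_cons, ih]; rfl

theorem ur_spec (h : P.T.fam.okC c = true) : ((P.ur P.T.fam.W c : ℕ) : ZMod P.T.fam.W) =
    eval₂ (Int.castRingHom (ZMod P.T.fam.W)) ![(P.T.fam.ctx c h).xb, (P.T.fam.ctx c h).yb] P.uP := by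
  have hW := P.T.fam.W_pos
  obtain ⟨h1, h2⟩ := rowsN_spec (W := P.T.fam.W) (E := P.T.E) (x := P.T.fam.xr c)
    (y := P.T.fam.yr c) hW P.T.D 1 hW
  unfold ur
  have e : ∀ a b : ℕ, Nat.mod a b = a % b := fun _ _ => rfl
  rw [e, ZMod.natCast_mod, cast_dot2N _ _ h1, h2]
  unfold uP
  have h3 := map_dot2 (eval₂Hom (Int.castRingHom (ZMod P.T.fam.W))
      ![(P.T.fam.xr c : ZMod P.T.fam.W), (P.T.fam.yr c : ZMod P.T.fam.W)]) P.u
      (rows P.T.E (X 0) (X 1) P.T.D 1)
  rw [map_rows] at h3
  simp only [coe_eval₂Hom, eval₂_X, eval₂_one, Matrix.cons_val_zero, Matrix.cons_val_one] at h3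
  rw [Nat.cast_one]
  exact h3.symm

theorem rep_outs (hF : P.okP = true) (h : P.T.fam.okC c = true) (i : ℕ) :
    Rep (P.T.fam.ctx c h) ((P.outs P.T.fam.W c).getD i 0) (P.pol i) P.T.n0 := by
  have hW := P.T.fam.W_pos
  unfold okP at hF
  rw [Bool.and_eq_true, Bool.and_eq_true, Nat.ble_eq, List.all_eq_true] at hF
  obtain ⟨⟨hT, hu⟩, hps⟩ := hF
  have hbu := dot2_bd P.T.E P.u 1 0 P.T.D (by simpa using (Bd.C 1))
  have hbu' := rows_bd P.T.E P.T.D (a := 1) 0 (by simpa using (Bd.C 1)) P.u
  rw [Nat.zero_add] at hbu hbu'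
  have hus := ur_spec (P := P) h
  have hlen : (P.T.outs P.T.fam.W c).length = P.T.cf.length := length_mapO _ _ _ _
  have hbase := fun i => Tab.rep_outs hT h i
  have hzero : Rep (P.T.fam.ctx c h) 0 0 P.T.n0 := by
    refine ⟨Bd.zero.mono (Nat.zero_le _) (Nat.zero_le _) (Nat.zero_le _), Nat.zero_le _, ?_⟩
    simp
  unfold outs pol pols
  rw [app_eq]
  by_cases hi : i < P.T.cf.length
  · rw [List.getD_append _ _ _ _ (by rw [hlen]; exact hi),
      List.getD_append _ _ _ _ (by rw [List.length_map]; exact hi)]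
    have h1 := hbase i
    unfold Tab.pol at h1
    have e2 : (List.map (fun c => dot2 c (rows P.T.E (X 0) (X 1) P.T.D (1 : MP))) P.T.cf).getD i 0
        = dot2 (P.T.cf.getD i []) (rows P.T.E (X 0) (X 1) P.T.D (1 : MP)) := by
      rw [List.getD_eq_getElem _ _ (by rw [List.length_map]; exact hi), List.getElem_map,
        List.getD_eq_getElem _ _ hi]
    rw [e2]
    exact h1
  · have hi' : P.T.cf.length ≤ i := not_lt.mp hi
    rw [List.getD_append_right _ _ _ _ (by rw [hlen]; exact hi'),
      List.getD_append_right _ _ _ _ (by rw [List.length_map]; exact hi'), hlen, List.length_map]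
    generalize i - P.T.cf.length = j
    cases j with
    | zero =>
      rw [List.getD_cons_zero, List.getD_cons_zero]
      refine ⟨hbu'.mono hu le_rfl le_rfl, (Nat.mod_lt _ hW).le, ?_⟩
      have e : Nat.mod (Nat.mul (P.ur P.T.fam.W c) (P.T.fam.s0 c)) P.T.fam.W =
        (P.ur P.T.fam.W c * P.T.fam.s0 c) % P.T.fam.W := rfl
      rw [e, ZMod.natCast_mod, Nat.cast_mul, hus, mul_comm]
      rfl
    | succ j =>
      rw [List.getD_cons_succ, List.getD_cons_succ]
      have key : ∀ (ps : List ℕ), (∀ i ∈ ps, i ∈ P.ps) → ∀ j,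
          Rep (P.T.fam.ctx c h) ((prN P.T.fam.W (P.ur P.T.fam.W c) (P.T.outs P.T.fam.W c) ps).getD
            j 0) ((ps.map fun i => P.uP * P.T.pol i).getD j 0) P.T.n0 := by
        intro ps
        induction ps with
        | nil => intro _ j; exact hzero
        | cons q ps ih =>
          intro hq j
          cases j with
          | succ j => exact ih (fun i hi => hq i (List.mem_cons_of_mem _ hi)) j
          | zero =>
            show Rep _ (Nat.mod (Nat.mul (P.ur P.T.fam.W c) (nth (P.T.outs P.T.fam.W c) q))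
              P.T.fam.W) (P.uP * P.T.pol q) _
            have h3 := hps q (hq q List.mem_cons_self)
            simp only [Bool.and_eq_true, Nat.ble_eq] at h3
            obtain ⟨⟨g1, g2⟩, g3⟩ := h3
            have hbq := dot2_bd P.T.E (P.T.cf.getD q []) 1 0 P.T.D (by simpa using (Bd.C 1))
            rw [Nat.zero_add] at hbq
            have h4 := hbase q
            refine ⟨(hbu.mul hbq).mono g1 g2 g3, (Nat.mod_lt _ hW).le, ?_⟩
            have e : Nat.mod (Nat.mul (P.ur P.T.fam.W c) (nth (P.T.outs P.T.fam.W c) q))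
              P.T.fam.W = (P.ur P.T.fam.W c * nth (P.T.outs P.T.fam.W c) q) % P.T.fam.W := rfl
            rw [e, ZMod.natCast_mod, Nat.cast_mul, hus, nth_eq, h4.2.2, eval₂_mul]
            ring
      exact key P.ps (fun i hi => hi) j

end PT

end Vale.Agent.P211.H237
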