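import Vale.Agent.P211.H237.Leaf6
import Vale.Agent.P211.H237.Ptab
import Vale.Agent.P211.H210.Syl4

/-!
Leaves in four variables with the control matrix test and a profile polynomial.
-/

namespace Vale.Agent.P211.H237

open MvPolynomial

namespace LF6

theorem leaf_core (f : LF6) (hkq : 0 < f.kq) (hld : 0 < f.ld) (l : L6D)
    (hkk : (l.kk.val : ℝ) = l.k.val + l.k'.val) (w : ℕ → ℝ)
    (F1 : ∀ z1 z2 z3 z4, 0 ≤ f.I.tm.form w ⟨l.a, l.b, l.a * (l.k.val / f.kq), l.L00 / f.ld,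
      l.N0 / f.ld⟩ z1 z2 z3 z4)
    (F2 : ∀ z1 z2 z3 z4, 0 ≤ f.I.tm.form w ⟨l.a, l.b, l.a * (l.k'.val / f.kq), l.L01 / f.ld,
      l.N0 / f.ld⟩ z1 z2 z3 z4)
    (F3 : ∀ z1 z2 z3 z4, 0 ≤ f.I.tm.form w ⟨l.a', l.b', l.a' * (l.k.val / f.kq), l.L10 / f.ld,
      l.N1 / f.ld⟩ z1 z2 z3 z4)
    (F4 : ∀ z1 z2 z3 z4, 0 ≤ f.I.tm.form w ⟨l.a', l.b', l.a' * (l.k'.val / f.kq), l.L11 / f.ld,
      l.N1 / f.ld⟩ z1 z2 z3 z4)
    (q1 : 0 ≤ zsV w (sel ((f.A00 l : ℕ) : ℝ) ((f.A01 l : ℕ) : ℝ) ((f.A02 l : ℕ) : ℝ))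
      (sel ((f.K0 : ℕ) : ℝ) ((f.K01 l).val : ℝ) ((K02 l).val : ℝ)) f.I.zs
      - ((Nat.mul (f.La0 l) l.b : ℕ) : ℝ) * w f.I.zl
      - ((Nat.mul l.M0 l.b : ℕ) : ℝ) * msV w (sel ((f.K0 : ℕ) : ℝ) ((f.K01 l).val : ℝ) ((K02 l).val : ℝ)) f.I.ms)
    (q2 : 0 ≤ zsV w (sel ((f.A00 l : ℕ) : ℝ) ((f.A01 l : ℕ) : ℝ) ((f.A02 l : ℕ) : ℝ))
      (sel ((f.K0 : ℕ) : ℝ) ((f.K11 l).val : ℝ) ((K12 l).val : ℝ)) f.I.zs
      - ((Nat.mul (f.La1 l) l.b : ℕ) : ℝ) * w f.I.zl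
      - ((Nat.mul l.M0 l.b : ℕ) : ℝ) * msV w (sel ((f.K0 : ℕ) : ℝ) ((f.K11 l).val : ℝ) ((K12 l).val : ℝ)) f.I.ms)
    (q3 : 0 ≤ zsV w (sel ((f.A00 l : ℕ) : ℝ) ((f.A01 l : ℕ) : ℝ) ((f.A02 l : ℕ) : ℝ))
      (sel ((f.K0 : ℕ) : ℝ) ((f.K21 l).val : ℝ) ((K22 l).val : ℝ)) f.I.zs
      - ((Nat.mul (f.La2 l) l.b : ℕ) : ℝ) * w f.I.zl
      - ((Nat.mul l.M0 l.b : ℕ) : ℝ) * msV w (sel ((f.K0 : ℕ) : ℝ) ((f.K21 l).val : ℝ) ((K22 l).val : ℝ)) f.I.ms)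
    (q4 : 0 ≤ zsV w (sel ((f.A20 l : ℕ) : ℝ) ((f.A21 l : ℕ) : ℝ) ((f.A22 l : ℕ) : ℝ))
      (sel ((f.K0 : ℕ) : ℝ) ((f.K01 l).val : ℝ) ((K02 l).val : ℝ)) f.I.zs
      - ((Nat.mul (f.Lb0 l) l.b' : ℕ) : ℝ) * w f.I.zl
      - ((Nat.mul l.M1 l.b' : ℕ) : ℝ) * msV w (sel ((f.K0 : ℕ) : ℝ) ((f.K01 l).val : ℝ) ((K02 l).val : ℝ)) f.I.ms)
    (q5 : 0 ≤ zsV w (sel ((f.A20 l : ℕ) : ℝ) ((f.A21 l : ℕ) : ℝ) ((f.A22 l : ℕ) : ℝ))
      (sel ((f.K0 : ℕ) : ℝ) ((f.K11 l).val : ℝ) ((K12 l).val : ℝ)) f.I.zs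
      - ((Nat.mul (f.Lb1 l) l.b' : ℕ) : ℝ) * w f.I.zl
      - ((Nat.mul l.M1 l.b' : ℕ) : ℝ) * msV w (sel ((f.K0 : ℕ) : ℝ) ((f.K11 l).val : ℝ) ((K12 l).val : ℝ)) f.I.ms)
    (q6 : 0 ≤ zsV w (sel ((f.A20 l : ℕ) : ℝ) ((f.A21 l : ℕ) : ℝ) ((f.A22 l : ℕ) : ℝ))
      (sel ((f.K0 : ℕ) : ℝ) ((f.K21 l).val : ℝ) ((K22 l).val : ℝ)) f.I.zs
      - ((Nat.mul (f.Lb2 l) l.b' : ℕ) : ℝ) * w f.I.zl
      - ((Nat.mul l.M1 l.b' : ℕ) : ℝ) * msV w (sel ((f.K0 : ℕ) : ℝ) ((f.K21 l).val : ℝ) ((K22 l).val : ℝ)) f.I.ms)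
    (q7 : 0 ≤ zsV w (sel ((f.A10 l : ℕ) : ℝ) ((f.A11 l : ℕ) : ℝ) ((f.A12 l : ℕ) : ℝ))
      (sel ((f.K0 : ℕ) : ℝ) ((f.K01 l).val : ℝ) ((K02 l).val : ℝ)) f.I.zs
      - ((Nat.add (Nat.mul (f.La0 l) l.b') (Nat.mul (f.Lb0 l) l.b) : ℕ) : ℝ) * w f.I.zl
      - ((Nat.add (Nat.mul l.M0 l.b') (Nat.mul l.M1 l.b) : ℕ) : ℝ) * msV w (sel ((f.K0 : ℕ) : ℝ) ((f.K01 l).val : ℝ) ((K02 l).val : ℝ)) f.I.ms)
    (q8 : 0 ≤ zsV w (sel ((f.A10 l : ℕ) : ℝ) ((f.A11 l : ℕ) : ℝ) ((f.A12 l : ℕ) : ℝ))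
      (sel ((f.K0 : ℕ) : ℝ) ((f.K11 l).val : ℝ) ((K12 l).val : ℝ)) f.I.zs
      - ((Nat.add (Nat.mul (f.La1 l) l.b') (Nat.mul (f.Lb1 l) l.b) : ℕ) : ℝ) * w f.I.zl
      - ((Nat.add (Nat.mul l.M0 l.b') (Nat.mul l.M1 l.b) : ℕ) : ℝ) * msV w (sel ((f.K0 : ℕ) : ℝ) ((f.K11 l).val : ℝ) ((K12 l).val : ℝ)) f.I.ms)
    (q9 : 0 ≤ zsV w (sel ((f.A10 l : ℕ) : ℝ) ((f.A11 l : ℕ) : ℝ) ((f.A12 l : ℕ) : ℝ))
      (sel ((f.K0 : ℕ) : ℝ) ((f.K21 l).val : ℝ) ((K22 l).val : ℝ)) f.I.zs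
      - ((Nat.add (Nat.mul (f.La2 l) l.b') (Nat.mul (f.Lb2 l) l.b) : ℕ) : ℝ) * w f.I.zl
      - ((Nat.add (Nat.mul l.M0 l.b') (Nat.mul l.M1 l.b) : ℕ) : ℝ) * msV w (sel ((f.K0 : ℕ) : ℝ) ((f.K21 l).val : ℝ) ((K22 l).val : ℝ)) f.I.ms)
    (p1 : 0 ≤ ((f.La0 l : ℕ) : ℝ) * w f.I.r0 + ((Sg.ofSub l.M0 l.N0).val : ℝ) *
      msV w (sel ((f.K0 : ℕ) : ℝ) ((f.K01 l).val : ℝ) ((K02 l).val : ℝ)) f.I.ss)
    (p2 : 0 ≤ ((f.La1 l : ℕ) : ℝ) * w f.I.r0 + ((Sg.ofSub l.M0 l.N0).val : ℝ) *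
      msV w (sel ((f.K0 : ℕ) : ℝ) ((f.K11 l).val : ℝ) ((K12 l).val : ℝ)) f.I.ss)
    (p3 : 0 ≤ ((f.La2 l : ℕ) : ℝ) * w f.I.r0 + ((Sg.ofSub l.M0 l.N0).val : ℝ) *
      msV w (sel ((f.K0 : ℕ) : ℝ) ((f.K21 l).val : ℝ) ((K22 l).val : ℝ)) f.I.ss)
    (p4 : 0 ≤ ((f.Lb0 l : ℕ) : ℝ) * w f.I.r0 + ((Sg.ofSub l.M1 l.N1).val : ℝ) *
      msV w (sel ((f.K0 : ℕ) : ℝ) ((f.K01 l).val : ℝ) ((K02 l).val : ℝ)) f.I.ss)
    (p5 : 0 ≤ ((f.Lb1 l : ℕ) : ℝ) * w f.I.r0 + ((Sg.ofSub l.M1 l.N1).val : ℝ) *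
      msV w (sel ((f.K0 : ℕ) : ℝ) ((f.K11 l).val : ℝ) ((K12 l).val : ℝ)) f.I.ss)
    (p6 : 0 ≤ ((f.Lb2 l : ℕ) : ℝ) * w f.I.r0 + ((Sg.ofSub l.M1 l.N1).val : ℝ) *
      msV w (sel ((f.K0 : ℕ) : ℝ) ((f.K21 l).val : ℝ) ((K22 l).val : ℝ)) f.I.ss)
    (s t u v p k : ℝ) (hs : 0 ≤ s) (ht : 0 ≤ t) (h1 : s * l.a + t * l.a' = 1)
    (hp : s * l.b + t * l.b' = p) (hu : 0 ≤ u) (hv : 0 ≤ v) (huv : u + v = 1)
    (hk : u * l.k.val + v * l.k'.val = f.kq * k) :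
    ∃ lam mu nu : ℝ, 0 ≤ lam ∧ 0 ≤ mu ∧ 0 ≤ nu ∧
      (∀ z1 z2 z3 z4, 0 ≤ f.I.tm.form w ⟨1, p, k, lam, nu⟩ z1 z2 z3 z4) ∧
      0 ≤ f.I.sc w p k lam mu ∧ 0 ≤ f.I.rel w k lam mu nu := by
  have Q : (0 : ℝ) < f.kq := by exact_mod_cast hkq
  have D : (0 : ℝ) < f.ld := by exact_mod_cast hld
  have hk' : k = (u * l.k.val + v * l.k'.val) / f.kq := by rw [hk]; field_simp
  -- real values of the weights
  have mulc : ∀ a b : ℕ, ((Nat.mul a b : ℕ) : ℝ) = a * b := fun a b => by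
    have : Nat.mul a b = a * b := rfl
    rw [this]; push_cast; ring
  have addc : ∀ a b : ℕ, ((Nat.add a b : ℕ) : ℝ) = a + b := fun a b => by
    have : Nat.add a b = a + b := rfl
    rw [this]; push_cast; ring
  have subc : ∀ a b : ℕ, ((Sg.ofSub a b).val : ℝ) = a - b := fun a b => by
    rw [Sg.val_ofSub]; push_cast; ring
  have e0 : ((f.K0 : ℕ) : ℝ) = 2 * f.kq ^ 2 := by unfold K0; rw [mulc, mulc]; push_cast; ring
  have e01 : ((f.K01 l).val : ℝ) = 2 * f.kq * l.k.val := by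
    unfold K01; rw [Sg.val_nmul]; push_cast; rw [mulc]; push_cast; ring
  have e02 : ((K02 l).val : ℝ) = 2 * l.k.val ^ 2 := by
    unfold K02; rw [Sg.val_nmul, Sg.val_mul]; push_cast; ring
  have e11 : ((f.K11 l).val : ℝ) = f.kq * (l.k.val + l.k'.val) := by
    unfold K11; rw [Sg.val_nmul]; push_cast; rw [hkk]
  have e12 : ((K12 l).val : ℝ) = 2 * (l.k.val * l.k'.val) := by
    unfold K12; rw [Sg.val_nmul, Sg.val_mul]; push_cast; ring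
  have e21 : ((f.K21 l).val : ℝ) = 2 * f.kq * l.k'.val := by
    unfold K21; rw [Sg.val_nmul]; push_cast; rw [mulc]; push_cast; ring
  have e22 : ((K22 l).val : ℝ) = 2 * l.k'.val ^ 2 := by
    unfold K22; rw [Sg.val_nmul, Sg.val_mul]; push_cast; ring
  unfold A00 A01 A02 La0 Q2 at q1
  unfold A00 A01 A02 La1 Q2 at q2
  unfold A00 A01 A02 La2 Q2 at q3
  unfold A20 A21 A22 Lb0 Q2 at q4
  unfold A20 A21 A22 Lb1 Q2 at q5
  unfold A20 A21 A22 Lb2 Q2 at q6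
  unfold A10 A11 A12 La0 Lb0 Q2 at q7
  unfold A10 A11 A12 La1 Lb1 Q2 at q8
  unfold A10 A11 A12 La2 Lb2 Q2 at q9
  unfold La0 Q2 at p1
  unfold La1 Q2 at p2
  unfold La2 Q2 at p3
  unfold Lb0 Q2 at p4
  unfold Lb1 Q2 at p5
  unfold Lb2 Q2 at p6
  simp only [mulc, addc, e0, e01, e02, e11, e12, e21, e22, subc, Nat.cast_ofNat] at q1 q2 q3
  simp only [mulc, addc, e0, e01, e02, e11, e12, e21, e22, subc, Nat.cast_ofNat] at q4 q5 q6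
  simp only [mulc, addc, e0, e01, e02, e11, e12, e21, e22, subc, Nat.cast_ofNat] at q7 q8 q9
  simp only [mulc, addc, e0, e01, e02, e11, e12, e21, e22, subc, Nat.cast_ofNat] at p1 p2 p3
  simp only [mulc, addc, e0, e01, e02, e11, e12, e21, e22, subc, Nat.cast_ofNat] at p4 p5 p6
  generalize (l.k.val : ℝ) = k0 at *
  generalize (l.k'.val : ℝ) = k1 at *
  generalize (l.kk.val : ℝ) = kk at *
  generalize hqq : (f.kq : ℝ) = q at *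
  generalize hdd : (f.ld : ℝ) = d at *
  generalize (l.a : ℝ) = a at *
  generalize (l.b : ℝ) = b at *
  generalize (l.a' : ℝ) = a' at *
  generalize (l.b' : ℝ) = b' at *
  have c1 : (0 : ℝ) ≤ l.L00 := Nat.cast_nonneg _
  have c2 : (0 : ℝ) ≤ l.L01 := Nat.cast_nonneg _
  have c3 : (0 : ℝ) ≤ l.L10 := Nat.cast_nonneg _
  have c4 : (0 : ℝ) ≤ l.L11 := Nat.cast_nonneg _
  have c5 : (0 : ℝ) ≤ l.M0 := Nat.cast_nonneg _
  have c6 : (0 : ℝ) ≤ l.M1 := Nat.cast_nonneg _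
  have c7 : (0 : ℝ) ≤ l.N0 := Nat.cast_nonneg _
  have c8 : (0 : ℝ) ≤ l.N1 := Nat.cast_nonneg _
  generalize (l.L00 : ℝ) = L00 at *
  generalize (l.L01 : ℝ) = L01 at *
  generalize (l.L10 : ℝ) = L10 at *
  generalize (l.L11 : ℝ) = L11 at *
  generalize (l.M0 : ℝ) = M0 at *
  generalize (l.M1 : ℝ) = M1 at *
  generalize (l.N0 : ℝ) = N0 at *
  generalize (l.N1 : ℝ) = N1 at *
  set lam : ℝ := s * (u * (L00 / d) + v * (L01 / d)) + t * (u * (L10 / d) + v * (L11 / d))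
    with hlam
  set mu : ℝ := s * (M0 / d) + t * (M1 / d) with hmu
  set nu : ℝ := s * (N0 / d) + t * (N1 / d) with hnu
  refine ⟨lam, mu, nu, by positivity, by positivity, by positivity, ?_, ?_, ?_⟩
  · intro z1 z2 z3 z4
    have G1 := F1 z1 z2 z3 z4
    have G2 := F2 z1 z2 z3 z4
    have G3 := F3 z1 z2 z3 z4
    have G4 := F4 z1 z2 z3 z4
    have E1 := form_lin f.I.tm w u v a b (a * (k0 / q)) (L00 / d) (N0 / d) a b (a * (k1 / q))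
      (L01 / d) (N0 / d) z1 z2 z3 z4
    have E2 := form_lin f.I.tm w u v a' b' (a' * (k0 / q)) (L10 / d) (N1 / d) a' b'
      (a' * (k1 / q)) (L11 / d) (N1 / d) z1 z2 z3 z4
    have E3 := form_lin f.I.tm w s t a b (a * k) (u * (L00 / d) + v * (L01 / d)) (N0 / d) a' b'
      (a' * k) (u * (L10 / d) + v * (L11 / d)) (N1 / d) z1 z2 z3 z4
    have x1 : u * a + v * a = a := by rw [← add_mul, huv, one_mul]
    have x2 : u * b + v * b = b := by rw [← add_mul, huv, one_mul]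
    have x3 : u * a' + v * a' = a' := by rw [← add_mul, huv, one_mul]
    have x4 : u * b' + v * b' = b' := by rw [← add_mul, huv, one_mul]
    have x5 : u * (a * (k0 / q)) + v * (a * (k1 / q)) = a * k := by rw [hk']; field_simp
    have x6 : u * (a' * (k0 / q)) + v * (a' * (k1 / q)) = a' * k := by rw [hk']; field_simp
    have x7 : u * (N0 / d) + v * (N0 / d) = N0 / d := by rw [← add_mul, huv, one_mul]
    have x8 : u * (N1 / d) + v * (N1 / d) = N1 / d := by rw [← add_mul, huv, one_mul]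
    have x9 : s * (a * k) + t * (a' * k) = k := by
      have : s * (a * k) + t * (a' * k) = (s * a + t * a') * k := by ring
      rw [this, h1, one_mul]
    rw [x1, x2, x5, x7] at E1
    rw [x3, x4, x6, x8] at E2
    rw [h1, hp, x9] at E3
    rw [← hlam, ← hnu] at E3
    rw [E3, E1, E2]
    positivity
  · have B := zsV_bilin w f.I.zs (s ^ 2) (s * t) (t ^ 2) (u ^ 2) (2 * u * v) (v ^ 2)
      (sel (d * (a * a)) (d * (a * b)) (d * (b * b)))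
      (sel (d * (2 * (a * a'))) (d * (a * b' + a' * b)) (d * (2 * (b * b'))))
      (sel (d * (a' * a')) (d * (a' * b')) (d * (b' * b')))
      (sel (2 * q ^ 2) (2 * q * k0) (2 * k0 ^ 2))
      (sel (2 * q ^ 2) (q * (k0 + k1)) (2 * (k0 * k1)))
      (sel (2 * q ^ 2) (2 * q * k1) (2 * k1 ^ 2))
    have Bm := msV_lin w f.I.ms (u ^ 2) (2 * u * v) (v ^ 2)
      (sel (2 * q ^ 2) (2 * q * k0) (2 * k0 ^ 2))
      (sel (2 * q ^ 2) (q * (k0 + k1)) (2 * (k0 * k1)))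
      (sel (2 * q ^ 2) (2 * q * k1) (2 * k1 ^ 2))
    rw [fun_sel, fun_sel] at B
    rw [fun_sel] at Bm
    have y1 : (s * a + t * a') * (s * a + t * a') = 1 := by rw [h1, one_mul]
    have y2 : (s * a + t * a') * (s * b + t * b') = p := by rw [h1, hp, one_mul]
    have y3 : (s * b + t * b') * (s * b + t * b') = p ^ 2 := by rw [hp]; ring
    have kq : q * k = u * k0 + v * k1 := hk.symm
    have z1 : s ^ 2 * (d * (a * a)) + s * t * (d * (2 * (a * a'))) + t ^ 2 * (d * (a' * a'))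
        = d * 1 := by rw [← y1]; ring
    have z2 : s ^ 2 * (d * (a * b)) + s * t * (d * (a * b' + a' * b)) + t ^ 2 * (d * (a' * b'))
        = d * p := by rw [← y2]; ring
    have z3 : s ^ 2 * (d * (b * b)) + s * t * (d * (2 * (b * b'))) + t ^ 2 * (d * (b' * b'))
        = d * p ^ 2 := by rw [← y3]; ring
    have uv2 : (u + v) * (u + v) = 1 := by rw [huv, one_mul]
    have w1 : u ^ 2 * (2 * q ^ 2) + 2 * u * v * (2 * q ^ 2) + v ^ 2 * (2 * q ^ 2)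
        = 2 * q ^ 2 * 1 := by rw [← uv2]; ring
    have w2 : u ^ 2 * (2 * q * k0) + 2 * u * v * (q * (k0 + k1)) + v ^ 2 * (2 * q * k1)
        = 2 * q ^ 2 * k := by
      have : 2 * q ^ 2 * k = 2 * q * ((u + v) * (q * k)) := by rw [huv]; ring
      rw [this, kq]; ring
    have w3 : u ^ 2 * (2 * k0 ^ 2) + 2 * u * v * (2 * (k0 * k1)) + v ^ 2 * (2 * k1 ^ 2)
        = 2 * q ^ 2 * k ^ 2 := by
      have : 2 * q ^ 2 * k ^ 2 = 2 * ((q * k) * (q * k)) := by ring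
      rw [this, kq]; ring
    rw [z1, z2, z3, w1, w2, w3, ← fun_selm, ← fun_selm, zsV_mul] at B
    rw [w1, w2, w3, ← fun_selm, msV_mul] at Bm
    have key : d * (2 * q ^ 2) * f.I.sc w p k lam mu =
        s ^ 2 * u ^ 2 * (zsV w (sel (d * (a * a)) (d * (a * b)) (d * (b * b)))
            (sel (2 * q ^ 2) (2 * q * k0) (2 * k0 ^ 2)) f.I.zs
          - 2 * (q * q) * L00 * b * w f.I.zl
          - M0 * b * msV w (sel (2 * q ^ 2) (2 * q * k0) (2 * k0 ^ 2)) f.I.ms)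
        + s ^ 2 * (2 * u * v) * (zsV w (sel (d * (a * a)) (d * (a * b)) (d * (b * b)))
            (sel (2 * q ^ 2) (q * (k0 + k1)) (2 * (k0 * k1))) f.I.zs
          - q * q * (L00 + L01) * b * w f.I.zl
          - M0 * b * msV w (sel (2 * q ^ 2) (q * (k0 + k1)) (2 * (k0 * k1))) f.I.ms)
        + s ^ 2 * v ^ 2 * (zsV w (sel (d * (a * a)) (d * (a * b)) (d * (b * b)))
            (sel (2 * q ^ 2) (2 * q * k1) (2 * k1 ^ 2)) f.I.zs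
          - 2 * (q * q) * L01 * b * w f.I.zl
          - M0 * b * msV w (sel (2 * q ^ 2) (2 * q * k1) (2 * k1 ^ 2)) f.I.ms)
        + t ^ 2 * u ^ 2 * (zsV w (sel (d * (a' * a')) (d * (a' * b')) (d * (b' * b')))
            (sel (2 * q ^ 2) (2 * q * k0) (2 * k0 ^ 2)) f.I.zs
          - 2 * (q * q) * L10 * b' * w f.I.zl
          - M1 * b' * msV w (sel (2 * q ^ 2) (2 * q * k0) (2 * k0 ^ 2)) f.I.ms)
        + t ^ 2 * (2 * u * v) * (zsV w (sel (d * (a' * a')) (d * (a' * b')) (d * (b' * b')))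
            (sel (2 * q ^ 2) (q * (k0 + k1)) (2 * (k0 * k1))) f.I.zs
          - q * q * (L10 + L11) * b' * w f.I.zl
          - M1 * b' * msV w (sel (2 * q ^ 2) (q * (k0 + k1)) (2 * (k0 * k1))) f.I.ms)
        + t ^ 2 * v ^ 2 * (zsV w (sel (d * (a' * a')) (d * (a' * b')) (d * (b' * b')))
            (sel (2 * q ^ 2) (2 * q * k1) (2 * k1 ^ 2)) f.I.zs
          - 2 * (q * q) * L11 * b' * w f.I.zl
          - M1 * b' * msV w (sel (2 * q ^ 2) (2 * q * k1) (2 * k1 ^ 2)) f.I.ms)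
        + s * t * u ^ 2 * (zsV w (sel (d * (2 * (a * a'))) (d * (a * b' + a' * b))
              (d * (2 * (b * b')))) (sel (2 * q ^ 2) (2 * q * k0) (2 * k0 ^ 2)) f.I.zs
          - (2 * (q * q) * L00 * b' + 2 * (q * q) * L10 * b) * w f.I.zl
          - (M0 * b' + M1 * b) * msV w (sel (2 * q ^ 2) (2 * q * k0) (2 * k0 ^ 2)) f.I.ms)
        + s * t * (2 * u * v) * (zsV w (sel (d * (2 * (a * a'))) (d * (a * b' + a' * b))
              (d * (2 * (b * b')))) (sel (2 * q ^ 2) (q * (k0 + k1)) (2 * (k0 * k1))) f.I.zs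
          - (q * q * (L00 + L01) * b' + q * q * (L10 + L11) * b) * w f.I.zl
          - (M0 * b' + M1 * b)
            * msV w (sel (2 * q ^ 2) (q * (k0 + k1)) (2 * (k0 * k1))) f.I.ms)
        + s * t * v ^ 2 * (zsV w (sel (d * (2 * (a * a'))) (d * (a * b' + a' * b))
              (d * (2 * (b * b')))) (sel (2 * q ^ 2) (2 * q * k1) (2 * k1 ^ 2)) f.I.zs
          - (2 * (q * q) * L01 * b' + 2 * (q * q) * L11 * b) * w f.I.zl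
          - (M0 * b' + M1 * b) * msV w (sel (2 * q ^ 2) (2 * q * k1) (2 * k1 ^ 2)) f.I.ms) := by
      have hsc : d * (2 * q ^ 2) * f.I.sc w p k lam mu =
          d * (2 * q ^ 2) * zsV w (sel 1 p (p ^ 2)) (sel 1 k (k ^ 2)) f.I.zs
          - (u + v) * (2 * q ^ 2) * (d * lam) * p * w f.I.zl
          - (d * mu) * p * (2 * q ^ 2 * msV w (sel 1 k (k ^ 2)) f.I.ms) := by
        unfold Id6.sc; rw [huv]; ring
      have dl : d * lam = s * (u * L00 + v * L01) + t * (u * L10 + v * L11) := by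
        rw [hlam]; field_simp
      have dm : d * mu = s * M0 + t * M1 := by rw [hmu]; field_simp
      rw [hsc, B, Bm, dl, dm, ← hp]
      ring
    have hpos : 0 ≤ d * (2 * q ^ 2) * f.I.sc w p k lam mu := by
      rw [key]
      push_cast at q1 q2 q3 q4 q5 q6 q7 q8 q9
      have hst := mul_nonneg hs ht
      have huv' := mul_nonneg hu hv
      positivity
    exact nonneg_of_mul_nonneg_right hpos (by positivity)
  · exact rel_key f.I w hs ht hu hv huv hk Q D hlam hmu hnu p1 p2 p3 p4 p5 p6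

end LF6

end Vale.Agent.P211.H237
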