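import Vale.Agent.P211.H237.Psd

/-!
Fast kernel evaluation: outputs are given by coefficient tables; all recursions use recursors.
-/

namespace Vale.Agent.P211.H237

open MvPolynomial

/-- signed natural numbers -/
inductive Sg
  | p (n : ℕ)
  | m (n : ℕ)

namespace Sg

def val : Sg → ℤ
  | p n => n
  | m n => -n

def abs : Sg → ℕ
  | p n => n
  | m n => n

theorem abs_val (s : Sg) : s.val.natAbs = s.abs := by cases s <;> simp [val, abs]

/-- `v` times the number, not reduced -/
noncomputable def mulN (W v : ℕ) (s : Sg) : ℕ :=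
  Sg.rec (fun n => Nat.mul v n) (fun n => Nat.mul (Nat.sub W v) n) s

theorem cast_mulN {W v : ℕ} (hv : v ≤ W) (s : Sg) :
    ((s.mulN W v : ℕ) : ZMod W) = (s.val : ZMod W) * v := by
  cases s with
  | p n =>
    show ((v * n : ℕ) : ZMod W) = ((n : ℤ) : ZMod W) * v
    push_cast; ring
  | m n =>
    show (((W - v) * n : ℕ) : ZMod W) = ((-(n : ℤ) : ℤ) : ZMod W) * v
    rw [Nat.cast_mul, Nat.cast_sub hv, ZMod.natCast_self]
    push_cast; ring

/-- product with a natural number -/
noncomputable def nmul (k : ℕ) (s : Sg) : Sg :=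
  Sg.rec (fun n => Sg.p (Nat.mul k n)) (fun n => Sg.m (Nat.mul k n)) s

@[simp] theorem val_nmul (k : ℕ) (s : Sg) : (s.nmul k).val = k * s.val := by
  cases s with
  | p n => show ((k * n : ℕ) : ℤ) = k * (n : ℤ); push_cast; ring
  | m n => show (-((k * n : ℕ) : ℤ)) = k * (-(n : ℤ)); push_cast; ring

/-- product -/
noncomputable def mul (a b : Sg) : Sg :=
  Sg.rec (fun n => Sg.nmul n b)
    (fun n => Sg.rec (fun k => Sg.m (Nat.mul n k)) (fun k => Sg.p (Nat.mul n k)) b) a

@[simp] theorem val_mul (a b : Sg) : (a.mul b).val = a.val * b.val := by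
  cases a with
  | p n => exact val_nmul n b
  | m n =>
    cases b with
    | p k => show (-((n * k : ℕ) : ℤ)) = -(n : ℤ) * k; push_cast; ring
    | m k => show (((n * k : ℕ) : ℤ)) = -(n : ℤ) * (-(k : ℤ)); push_cast; ring

/-- negation -/
noncomputable def neg (a : Sg) : Sg := Sg.rec (fun n => Sg.m n) (fun n => Sg.p n) a

@[simp] theorem val_neg (a : Sg) : a.neg.val = -a.val := by
  cases a with
  | p n => rfl
  | m n => show (n : ℤ) = -(-(n : ℤ)); ring

/-- absolute value by a recursor -/
noncomputable def absN (a : Sg) : ℕ := Sg.rec (fun n => n) (fun n => n) a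

@[simp] theorem absN_eq (a : Sg) : a.absN = a.abs := by cases a <;> rfl

/-- signed number of an integer -/
noncomputable def ofInt (z : ℤ) : Sg := Int.rec (fun n => Sg.p n) (fun n => Sg.m (Nat.succ n)) z

@[simp] theorem val_ofInt (z : ℤ) : (ofInt z).val = z := by
  cases z with
  | ofNat n => rfl
  | negSucc n =>
    show (-((n + 1 : ℕ) : ℤ)) = Int.negSucc n
    rw [Int.negSucc_eq]; push_cast; rfl

/-- signed number of a digit: last bit = sign -/
noncomputable def ofDigit (d : ℕ) : Sg :=
  Nat.rec (Sg.p (Nat.div d 2)) (fun _ _ => Sg.m (Nat.div d 2)) (Nat.mod d 2)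

theorem abs_ofDigit (d : ℕ) : (ofDigit d).abs = d / 2 := by
  unfold ofDigit
  cases Nat.mod d 2 <;> rfl

end Sg

/-! ### dot products -/

section generic

variable {S : Type*} [CommRing S]

/-- generic dot product -/
def dot : List Sg → List S → S
  | [], _ => 0
  | _ :: _, [] => 0
  | c :: cs, m :: ms => (c.val : S) * m + dot cs ms

def dot2 : List (List Sg) → List (List S) → S
  | [], _ => 0
  | _ :: _, [] => 0
  | c :: cs, m :: ms => dot c m + dot2 cs ms

/-- `[a, a y, a y^2, ..., a y^n]` -/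
def row (y : S) : ℕ → S → List S
  | 0, a => [a]
  | n + 1, a => a :: row y n (a * y)

/-- rows starting with `a, a x, ..., a x^D` -/
def rows (E : ℕ) (x y : S) : ℕ → S → List (List S)
  | 0, a => [row y E a]
  | n + 1, a => row y E a :: rows E x y n (a * x)

end generic

theorem map_dot {S S' : Type*} [CommRing S] [CommRing S'] (φ : S →+* S') :
    ∀ (cs : List Sg) (ms : List S), φ (dot cs ms) = dot cs (ms.map φ)
  | [], _ => by simp [dot]
  | _ :: _, [] => by simp [dot]
  | c :: cs, m :: ms => by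
    simp only [dot, List.map_cons, map_add, map_mul, map_intCast]
    rw [map_dot φ cs ms]

theorem map_dot2 {S S' : Type*} [CommRing S] [CommRing S'] (φ : S →+* S') :
    ∀ (cs : List (List Sg)) (ms : List (List S)), φ (dot2 cs ms) = dot2 cs (ms.map (List.map φ))
  | [], _ => by simp [dot2]
  | _ :: _, [] => by simp [dot2]
  | c :: cs, m :: ms => by
    simp only [dot2, List.map_cons, map_add]
    rw [map_dot2 φ cs ms, map_dot φ c m]

theorem map_row {S S' : Type*} [CommRing S] [CommRing S'] (φ : S →+* S') (y : S) :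
    ∀ (n : ℕ) (a : S), (row y n a).map φ = row (φ y) n (φ a)
  | 0, a => by simp [row]
  | n + 1, a => by
    simp only [row, List.map_cons]
    rw [map_row φ y n, map_mul]

theorem map_rows {S S' : Type*} [CommRing S] [CommRing S'] (φ : S →+* S') (E : ℕ) (x y : S) :
    ∀ (n : ℕ) (a : S), (rows E x y n a).map (List.map φ) = rows E (φ x) (φ y) n (φ a)
  | 0, a => by simp [rows, map_row]
  | n + 1, a => by
    simp only [rows, List.map_cons]
    rw [map_rows φ E x y n, map_mul, map_row]

/-! ### the same for residues -/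

noncomputable def dotN (W : ℕ) (cs : List Sg) : List ℕ → ℕ :=
  List.rec (motive := fun _ => List ℕ → ℕ) (fun _ => 0)
    (fun c _ ih ms => List.rec (motive := fun _ => ℕ) 0
      (fun m ms' _ => Nat.add (Sg.mulN W m c) (ih ms')) ms) cs

noncomputable def dot2N (W : ℕ) (cs : List (List Sg)) : List (List ℕ) → ℕ :=
  List.rec (motive := fun _ => List (List ℕ) → ℕ) (fun _ => 0)
    (fun c _ ih ms =>
      List.rec (motive := fun _ => ℕ) 0 (fun m ms' _ => Nat.add (dotN W c m) (ih ms')) ms) cs

noncomputable def rowN (W y : ℕ) (n : ℕ) : ℕ → List ℕ :=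
  Nat.rec (motive := fun _ => ℕ → List ℕ) (fun a => [a]) (fun _ ih a => a :: ih (Nat.mod (Nat.mul a y) W)) n

noncomputable def rowsN (W E x y : ℕ) (n : ℕ) : ℕ → List (List ℕ) :=
  Nat.rec (motive := fun _ => ℕ → List (List ℕ)) (fun a => [rowN W y E a])
    (fun _ ih a => rowN W y E a :: ih (Nat.mod (Nat.mul a x) W)) n

theorem cast_dotN {W : ℕ} (cs : List Sg) : ∀ ms : List ℕ, (∀ m ∈ ms, m ≤ W) →
    ((dotN W cs ms : ℕ) : ZMod W) = dot cs (ms.map (Nat.cast : ℕ → ZMod W)) := by
  induction cs with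
  | nil => intro ms _; show ((0 : ℕ) : ZMod W) = 0; simp
  | cons c cs ih =>
    intro ms hms
    cases ms with
    | nil => show ((0 : ℕ) : ZMod W) = 0; simp
    | cons m ms =>
      show ((c.mulN W m + dotN W cs ms : ℕ) : ZMod W) = (c.val : ZMod W) * m + dot cs _
      rw [Nat.cast_add, Sg.cast_mulN (hms m (List.mem_cons_self)), ih ms
        fun k hk => hms k (List.mem_cons_of_mem _ hk)]

theorem cast_dot2N {W : ℕ} (cs : List (List Sg)) : ∀ ms : List (List ℕ),
    (∀ r ∈ ms, ∀ m ∈ r, m ≤ W) →
    ((dot2N W cs ms : ℕ) : ZMod W) = dot2 cs (ms.map (List.map (Nat.cast : ℕ → ZMod W))) := by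
  induction cs with
  | nil => intro ms _; show ((0 : ℕ) : ZMod W) = 0; simp
  | cons c cs ih =>
    intro ms hms
    cases ms with
    | nil => show ((0 : ℕ) : ZMod W) = 0; simp
    | cons m ms =>
      show ((dotN W c m + dot2N W cs ms : ℕ) : ZMod W) = dot c _ + dot2 cs _
      rw [Nat.cast_add, cast_dotN c m (hms m (List.mem_cons_self)), ih ms
        fun k hk => hms k (List.mem_cons_of_mem _ hk)]

theorem rowN_spec {W y : ℕ} (hW : 0 < W) : ∀ (n a : ℕ), a ≤ W → (∀ m ∈ rowN W y n a, m ≤ W) ∧
    (rowN W y n a).map (Nat.cast : ℕ → ZMod W) = row (y : ZMod W) n a := by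
  intro n
  induction n with
  | zero =>
    intro a ha
    refine ⟨fun m hm => ?_, rfl⟩
    have : m = a := by
      have h : m ∈ [a] := hm
      simpa using h
    rw [this]; exact ha
  | succ n ih =>
    intro a ha
    obtain ⟨h1, h2⟩ := ih ((a * y) % W) (Nat.mod_lt _ hW).le
    refine ⟨fun m hm => ?_, ?_⟩
    · have h : m ∈ a :: rowN W y n ((a * y) % W) := hm
      rcases List.mem_cons.mp h with rfl | h
      · exact ha
      · exact h1 m h
    · show (a :: rowN W y n ((a * y) % W)).map _ = (a : ZMod W) :: row (y : ZMod W) n (a * y)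
      rw [List.map_cons, h2, ZMod.natCast_mod, Nat.cast_mul]

theorem rowsN_spec {W E x y : ℕ} (hW : 0 < W) : ∀ (n a : ℕ), a ≤ W →
    (∀ r ∈ rowsN W E x y n a, ∀ m ∈ r, m ≤ W) ∧
    (rowsN W E x y n a).map (List.map (Nat.cast : ℕ → ZMod W))
      = rows E (x : ZMod W) (y : ZMod W) n a := by
  intro n
  induction n with
  | zero =>
    intro a ha
    obtain ⟨h1, h2⟩ := rowN_spec (y := y) hW E a ha
    refine ⟨fun r hr => ?_, ?_⟩
    · have h : r ∈ [rowN W y E a] := hr
      rw [List.mem_singleton] at h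
      rw [h]; exact h1
    · show [rowN W y E a].map _ = [row (y : ZMod W) E a]
      rw [List.map_singleton, h2]
  | succ n ih =>
    intro a ha
    obtain ⟨h1, h2⟩ := rowN_spec (y := y) hW E a ha
    obtain ⟨h3, h4⟩ := ih ((a * x) % W) (Nat.mod_lt _ hW).le
    refine ⟨fun r hr => ?_, ?_⟩
    · have h : r ∈ rowN W y E a :: rowsN W E x y n ((a * x) % W) := hr
      rcases List.mem_cons.mp h with rfl | h
      · exact h1
      · exact h3 r h
    · show (rowN W y E a :: rowsN W E x y n ((a * x) % W)).map _ =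
        row (y : ZMod W) E a :: rows E (x : ZMod W) (y : ZMod W) n (a * x)
      rw [List.map_cons, h2, h4, ZMod.natCast_mod, Nat.cast_mul]

/-! ### bounds -/

def nrm : List Sg → ℕ
  | [] => 0
  | c :: cs => c.abs + nrm cs

def nrm2 : List (List Sg) → ℕ
  | [] => 0
  | c :: cs => nrm c + nrm2 cs

theorem row_bd {a : MP} {i : ℕ} : ∀ (n j : ℕ), Bd a 1 i j →
    ∀ cs : List Sg, Bd (dot cs (row (X 1) n a)) (nrm cs) i (j + n) := by
  intro n
  induction n generalizing a with
  | zero =>
    intro j ha cs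
    cases cs with
    | nil => exact Bd.zero.mono (Nat.zero_le _) (Nat.zero_le _) (Nat.zero_le _)
    | cons c cs =>
      show Bd ((c.val : MP) * a + dot cs []) _ _ _
      have h1 := ((Bd.C c.val).mul ha)
      rw [Sg.abs_val] at h1
      have h2 : dot cs ([] : List MP) = 0 := by cases cs <;> rfl
      rw [h2, add_zero]
      have e : (C c.val : MP) = (c.val : MP) := by simp
      rw [e] at h1
      exact h1.mono (by simp [nrm]) (by omega) (by omega)
  | succ n ih =>
    intro j ha cs
    cases cs with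
    | nil => exact Bd.zero.mono (Nat.zero_le _) (Nat.zero_le _) (Nat.zero_le _)
    | cons c cs =>
      show Bd ((c.val : MP) * a + dot cs (row (X 1) n (a * X 1))) _ _ _
      have h1 := ((Bd.C c.val).mul ha)
      rw [Sg.abs_val] at h1
      have e : (C c.val : MP) = (c.val : MP) := by simp
      rw [e] at h1
      have h2 := ih (j + 1) (a := a * X 1) ((ha.mul Bd.X1).mono (by omega) (by omega)
        (by omega)) cs
      exact (h1.add h2).mono (by simp [nrm]) (by omega) (by omega)

theorem rows_bd (E : ℕ) : ∀ (n : ℕ) {a : MP} (i : ℕ), Bd a 1 i 0 →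
    ∀ cs : List (List Sg), Bd (dot2 cs (rows E (X 0) (X 1) n a)) (nrm2 cs) (i + n) E := by
  intro n
  induction n with
  | zero =>
    intro a i ha cs
    cases cs with
    | nil => exact Bd.zero.mono (Nat.zero_le _) (Nat.zero_le _) (Nat.zero_le _)
    | cons c cs =>
      show Bd (dot c (row (X 1) E a) + dot2 cs []) _ _ _
      have h1 := row_bd E 0 ha c
      have h2 : dot2 cs ([] : List (List MP)) = 0 := by cases cs <;> rfl
      rw [h2, add_zero]
      exact h1.mono (by simp [nrm2]) (by omega) (by omega)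
  | succ n ih =>
    intro a i ha cs
    cases cs with
    | nil => exact Bd.zero.mono (Nat.zero_le _) (Nat.zero_le _) (Nat.zero_le _)
    | cons c cs =>
      show Bd (dot c (row (X 1) E a) + dot2 cs (rows E (X 0) (X 1) n (a * X 0))) _ _ _
      have h1 := row_bd E 0 ha c
      have h2 := ih (i + 1) (a := a * X 0) ((ha.mul Bd.X0).mono (by omega) (by omega)
        (by omega)) cs
      exact (h1.add h2).mono (by simp [nrm2]) (by omega) (by omega)

/-! ### families given by coefficient tables -/

/-- table based family -/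
structure Tab where
  cf : List (List (List Sg))
  β : ℕ
  D : ℕ
  E : ℕ
  nx : ℕ
  ny : ℕ
  n0 : ℕ

/-- the family without program -/
def Tab.fam (T : Tab) : Fam := ⟨[], T.β, T.D, T.E, T.nx, T.ny, T.n0⟩

/-- the output polynomials -/
noncomputable def Tab.pol (T : Tab) (i : ℕ) : MP :=
  dot2 (T.cf.getD i []) (rows T.E (X 0) (X 1) T.D 1)

/-- their real values -/
noncomputable def Tab.vals (T : Tab) (x y : ℝ) (i : ℕ) : ℝ :=
  dot2 (T.cf.getD i []) (rows T.E x y T.D 1)

theorem Tab.rev_pol (T : Tab) (x y : ℝ) (i : ℕ) : rev x y (T.pol i) = T.vals x y i := by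
  unfold rev Tab.pol Tab.vals
  have h1 := map_dot2 (eval₂Hom (Int.castRingHom ℝ) ![x, y]) (T.cf.getD i [])
    (rows T.E (X 0) (X 1) T.D 1)
  rw [map_rows] at h1
  simp only [coe_eval₂Hom, eval₂_X, eval₂_one, Matrix.cons_val_zero, Matrix.cons_val_one] at h1
  exact h1

/-- static check of the norms -/
def Tab.okB (T : Tab) : Bool := T.cf.all fun c => Nat.ble (nrm2 c) T.n0

theorem Tab.bd_pol (T : Tab) (h : T.okB = true) (i : ℕ) : Bd (T.pol i) T.n0 T.D T.E := by
  have h1 := rows_bd T.E T.D (a := 1) 0 (by simpa using (Bd.C 1)) (T.cf.getD i [])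
  rw [Nat.zero_add] at h1
  refine h1.mono ?_ le_rfl le_rfl
  by_cases hi : i < T.cf.length
  · unfold Tab.okB at h
    rw [List.all_eq_true] at h
    have := h _ (List.getElem_mem hi)
    rw [Nat.ble_eq] at this
    rwa [List.getD_eq_getElem _ _ hi]
  · rw [List.getD_eq_default _ _ (not_lt.mp hi)]
    exact Nat.zero_le _

/-- scaled outputs -/
noncomputable def mapO (W s0 : ℕ) (ms : List (List ℕ)) (cf : List (List (List Sg))) : List ℕ :=
  List.rec [] (fun c _ ih => Nat.mod (Nat.mul (Nat.mod (dot2N W c ms) W) s0) W :: ih) cf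

theorem mapO_getD (W s0 : ℕ) (ms : List (List ℕ)) (cf : List (List (List Sg))) (i : ℕ) :
    (mapO W s0 ms cf).getD i 0 = (dot2N W (cf.getD i []) ms % W) * s0 % W := by
  induction cf generalizing i with
  | nil =>
    show ([] : List ℕ).getD i 0 = (dot2N W (([] : List (List (List Sg))).getD i []) ms % W) * s0 % W
    simp only [List.getD_nil]
    show 0 = (0 % W) * s0 % W
    simp
  | cons c cf ih =>
    cases i with
    | zero => rfl
    | succ i =>
      show (((dot2N W c ms % W) * s0 % W) :: mapO W s0 ms cf).getD (i + 1) 0 = _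
      rw [List.getD_cons_succ, ih i]
      rfl

/-- all outputs on a cell -/
noncomputable def Tab.outs (T : Tab) (W : ℕ) (c : CellP) : List ℕ :=
  mapO W (T.fam.s0 c) (rowsN W T.E (T.fam.xr c) (T.fam.yr c) T.D 1) T.cf

variable {T : Tab} {c : CellP}

theorem Tab.rep_outs (hF : T.okB = true) (h : T.fam.okC c = true) (i : ℕ) :
    Rep (T.fam.ctx c h) ((T.outs T.fam.W c).getD i 0) (T.pol i) T.n0 := by
  have hW := T.fam.W_pos
  obtain ⟨h1, h2⟩ := rowsN_spec (W := T.fam.W) (E := T.E) (x := T.fam.xr c) (y := T.fam.yr c) hW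
    T.D 1 hW
  refine ⟨T.bd_pol hF i, ?_, ?_⟩
  · unfold Tab.outs
    rw [mapO_getD]
    exact (Nat.mod_lt _ hW).le
  · unfold Tab.outs
    rw [mapO_getD, ZMod.natCast_mod, Nat.cast_mul, ZMod.natCast_mod, cast_dot2N _ _ h1, h2,
      mul_comm]
    congr 1
    unfold Tab.pol
    have h3 := map_dot2 (eval₂Hom (Int.castRingHom (ZMod T.fam.W))
      ![(T.fam.xr c : ZMod T.fam.W), (T.fam.yr c : ZMod T.fam.W)]) (T.cf.getD i [])
      (rows T.E (X 0) (X 1) T.D 1)
    rw [map_rows] at h3
    simp only [coe_eval₂Hom, eval₂_X, eval₂_one, Matrix.cons_val_zero, Matrix.cons_val_one] at h3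
    rw [Nat.cast_one]
    exact h3.symm

end Vale.Agent.P211.H237
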