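import Vale.Agent.P211.H237.Tree
import Vale.Agent.P211.H129.Red

/-!
The check of one leaf: 3x3 forms at the two ends of the `p`-range and at the vertices of a polygon
for `(κ, σ)`, and the scalar part by Bernstein coefficients in `p`.
-/

namespace Vale.Agent.P211.H237

open MvPolynomial
open H129 (q3 Hull)

/-! ### weighted sums with product weights -/

/-- weighted sum: entries `(index, a, k)` with weight `a (k - o)` -/
noncomputable def lw (W o : ℕ) (outs : List ℕ) (l : List (ℕ × ℕ × ℕ)) : ℕ :=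
  List.foldr (fun t acc => (sm W o (sm W 0 (outs.getD t.1 0) t.2.1) t.2.2 + acc) % W) 0 l

/-- polynomial of a weighted sum -/
noncomputable def lwP (o : ℕ) (vals : List MP) (l : List (ℕ × ℕ × ℕ)) : MP :=
  List.foldr (fun t acc => MvPolynomial.C ((t.2.2 : ℤ) - o) *
    (MvPolynomial.C ((t.2.1 : ℤ) - (0 : ℕ)) * vals.getD t.1 0) + acc) 0 l

/-- real value of a weighted sum -/
noncomputable def lwR (o : ℕ) (w : ℕ → ℝ) (l : List (ℕ × ℕ × ℕ)) : ℝ :=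
  List.foldr (fun t acc => ((t.2.2 : ℝ) - o) * ((t.2.1 : ℝ) * w t.1) + acc) 0 l

/-- norm of a weighted sum -/
def lwB (o n0 : ℕ) (l : List (ℕ × ℕ × ℕ)) : ℕ :=
  List.foldr (fun t acc => (t.2.2 + o) * (t.2.1 * n0) + acc) 0 l

variable {F : Fam} {c : CellP}

theorem rep_lw (hF : F.okB = true) (h : F.okC c = true) (o : ℕ) (l : List (ℕ × ℕ × ℕ)) :
    Rep (F.ctx c h) (lw F.W o (F.outs c) l) (lwP o (run F.prog [X 0, X 1]) l)
      (lwB o F.n0 l) := by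
  induction l with
  | nil =>
    refine ⟨Bd.zero.mono (Nat.zero_le _) (Nat.zero_le _) (Nat.zero_le _), Nat.zero_le _, ?_⟩
    show ((0 : ℕ) : ZMod F.W) = _ * eval₂ _ _ 0
    simp
  | cons t l ih => exact (((rep_outs hF h t.1).sm 0 t.2.1).sm o t.2.2).add ih

/-- the values of the outputs at a point -/
noncomputable def valsAt (F : Fam) (x y : ℝ) (i : ℕ) : ℝ := (run F.prog [x, y]).getD i 0

theorem rev_lw (x y : ℝ) (o : ℕ) (l : List (ℕ × ℕ × ℕ)) :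
    rev x y (lwP o (run F.prog [X 0, X 1]) l) = lwR o (valsAt F x y) l := by
  induction l with
  | nil => exact rev_zero x y
  | cons t l ih =>
    show rev x y (_ * _ + lwP o _ l) = _ * _ + lwR o _ l
    rw [rev_add, rev_mul, rev_mul, rev_C, rev_C, ih, rev_getD]
    push_cast
    rw [sub_zero]
    rfl

/-! ### the forms -/

/-- indices of the outputs -/
structure Idx where
  hh0 : ℕ
  hh1 : ℕ
  gg0 : ℕ
  gg1 : ℕ
  ggk : ℕ
  hg0 : ℕ
  hg1 : ℕ
  hgk : ℕ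
  hz : ℕ
  gz : ℕ
  l2 : ℕ
  l3 : ℕ
  zpp : ℕ
  zl : ℕ
  n3 : ℕ
  up0 : ℕ
  up1 : ℕ
  lo : List (ℕ × ℕ × ℕ)

/-- homogeneous form: `a` and `b` are the coefficients of the constant and of the `p` part -/
noncomputable def Idx.form (I : Idx) (w : ℕ → ℝ) (a b lam κ σ X Y Z : ℝ) : ℝ :=
  q3 (a * w I.hh0 + b * w I.hh1)
    (a * w I.gg0 + b * w I.gg1 + a * κ * w I.ggk + lam * w I.l2)
    (lam * w I.l3)
    (a * w I.hg0 + b * w I.hg1 + a * κ * w I.hgk)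
    (a * σ * w I.hz) (a * σ * w I.gz) X Y Z

/-- homogeneous scalar part for the indices `(z0, z1)` -/
noncomputable def Idx.sc (I : Idx) (w : ℕ → ℝ) (z0 z1 : ℕ) (a b lam : ℝ) : ℝ :=
  a ^ 2 * w z0 + a * b * w z1 + b ^ 2 * w I.zpp - lam * b * w I.zl

/-- the conclusion of a leaf -/
def Idx.Good (I : Idx) (w : ℕ → ℝ) (p : ℝ) : Prop :=
  ∃ lam : ℝ, 0 ≤ lam ∧
    (∀ κ σ : ℝ, κ ^ 2 + σ ^ 2 = 1 → 0 ≤ σ → 0 < w I.n3 → (∀ c ∈ I.lo, w c.1 ≤ κ * w I.n3) →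
      ∀ X Y Z, 0 ≤ I.form w 1 p lam κ σ X Y Z) ∧
    (∃ c ∈ I.lo, 0 ≤ I.sc w c.2.1 c.2.2 1 p lam) ∧ 0 ≤ I.sc w I.up0 I.up1 1 p lam

/-- polygons: vertices as digits, lower bound of `κ` as a digit -/
structure PolyD where
  vs : List (ℕ × ℕ)
  k0 : ℕ

/-- format of the leaves -/
structure LFmt where
  F : Fam
  I : Idx
  xq : ℕ
  yq : ℕ
  pq : ℕ
  /-- offset -/
  o : ℕ
  /-- bits of a digit -/
  kb : ℕ
  /-- denominator of the polygon vertices -/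
  kd : ℕ
  /-- denominator of the multipliers -/
  ld : ℕ
  polys : List PolyD

namespace LFmt

/-- real number of a digit -/
noncomputable def dr (f : LFmt) (k : ℕ) : ℝ := ((k : ℝ) - f.o) / f.kd

/-- validity of the polygons -/
def Valid (f : LFmt) : Prop :=
  0 < f.kd ∧ 0 < f.ld ∧ 0 < f.pq ∧ f.F.okB = true ∧
  ∀ P ∈ f.polys, ∀ κ σ : ℝ, κ ^ 2 + σ ^ 2 = 1 → 0 ≤ σ → f.dr P.k0 ≤ κ →
    Hull (P.vs.map fun v => (f.dr v.1, f.dr v.2)) κ σ

/-- the six entries of twice the form (times `kd * ld`) -/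
def e11 (f : LFmt) (a b : ℕ) : List (ℕ × ℕ × ℕ) :=
  [(f.I.hh0, 2 * f.kd * f.ld * a, f.o + 1), (f.I.hh1, 2 * f.kd * f.ld * b, f.o + 1)]
def e12 (f : LFmt) (a b k : ℕ) : List (ℕ × ℕ × ℕ) :=
  [(f.I.hg0, f.kd * f.ld * a, f.o + 1), (f.I.hg1, f.kd * f.ld * b, f.o + 1),
    (f.I.hgk, f.ld * a, k)]
def e13 (f : LFmt) (a s : ℕ) : List (ℕ × ℕ × ℕ) := [(f.I.hz, f.ld * a, s)]
def e22 (f : LFmt) (a b L k : ℕ) : List (ℕ × ℕ × ℕ) :=
  [(f.I.gg0, 2 * f.kd * f.ld * a, f.o + 1), (f.I.gg1, 2 * f.kd * f.ld * b, f.o + 1),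
    (f.I.ggk, 2 * f.ld * a, k), (f.I.l2, 2 * f.kd * L, f.o + 1)]
def e23 (f : LFmt) (a s : ℕ) : List (ℕ × ℕ × ℕ) := [(f.I.gz, f.ld * a, s)]
def e33 (f : LFmt) (L : ℕ) : List (ℕ × ℕ × ℕ) := [(f.I.l3, 2 * f.kd * L, f.o + 1)]

/-- the matrix at a vertex -/
noncomputable def mat (f : LFmt) (W : ℕ) (outs : List ℕ) (a b L k s : ℕ) : Q3 :=
  ⟨lw W f.o outs (f.e11 a b), lw W f.o outs (f.e12 a b k), lw W f.o outs (f.e13 a s),
    lw W f.o outs (f.e22 a b L k), lw W f.o outs (f.e23 a s), lw W f.o outs (f.e33 L)⟩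

/-- `T` number `i` of the packed data -/
def tOf (f : LFmt) (d i : ℕ) : T3 :=
  ⟨dgt f.kb d (4 + 6 * i), dgt f.kb d (5 + 6 * i), dgt f.kb d (6 + 6 * i), dgt f.kb d (7 + 6 * i),
    dgt f.kb d (8 + 6 * i), dgt f.kb d (9 + 6 * i)⟩

/-- all vertices at one end -/
noncomputable def vertsOK (f : LFmt) (W m : ℕ) (outs : List ℕ) (a b L d : ℕ)
    (vs : List (ℕ × ℕ)) : ℕ → Bool :=
  List.rec (motive := fun _ => ℕ → Bool) (fun _ => true)
    (fun v _ ih i => psd3 W m f.o (f.mat W outs a b L v.1 v.2) (f.tOf d i) && ih (i + 1)) vs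

/-- scalar lists -/
def s00 (f : LFmt) (z0 z1 a b L : ℕ) : List (ℕ × ℕ × ℕ) :=
  [(z0, f.ld * a * a, f.o + 1), (z1, f.ld * a * b, f.o + 1), (f.I.zpp, f.ld * b * b, f.o + 1),
    (f.I.zl, L * b, f.o - 1)]
def s01 (f : LFmt) (z0 z1 a b L a' b' L' : ℕ) : List (ℕ × ℕ × ℕ) :=
  [(z0, 2 * f.ld * a * a', f.o + 1), (z1, f.ld * (a * b' + a' * b), f.o + 1),
    (f.I.zpp, 2 * f.ld * b * b', f.o + 1), (f.I.zl, L * b' + L' * b, f.o - 1)]

/-- bound of the weights -/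
def wB (f : LFmt) (o n : ℕ) (l : List (ℕ × ℕ × ℕ)) : Bool :=
  Nat.ble (lwB o f.F.n0 l) n

/-- linear check -/
noncomputable def linC (f : LFmt) (W m : ℕ) (outs : List ℕ) (l : List (ℕ × ℕ × ℕ)) : Bool :=
  Nat.blt (lwB f.o f.F.n0 l * (f.F.nx ^ f.F.D * f.F.ny ^ f.F.E)) (2 ^ f.F.β) &&
    chk W m (lw W f.o outs l)

theorem linC_sound (f : LFmt) (hF : f.F.okB = true) (h : f.F.okC c = true)
    (l : List (ℕ × ℕ × ℕ)) (hl : f.linC f.F.W f.F.msk (f.F.outs c) l = true) (x y : ℝ)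
    (hxy : c.In x y) : 0 ≤ lwR f.o (valsAt f.F x y) l := by
  unfold linC at hl
  rw [Bool.and_eq_true, Nat.blt_eq] at hl
  rw [← rev_lw]
  exact (rep_lw hF h f.o l).nonneg hl.1 hl.2 x y hxy

/-- a global bound for the matrix entries: `n` bounds all the norms of the entries -/
def bndOK (f : LFmt) (n a b L k s : ℕ) : Bool :=
  f.wB f.o n (f.e11 a b) && f.wB f.o n (f.e12 a b k) && f.wB f.o n (f.e13 a s) &&
  f.wB f.o n (f.e22 a b L k) && f.wB f.o n (f.e23 a s) && f.wB f.o n (f.e33 L) &&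
  Nat.blt (27 * ((2 ^ f.kb + f.o) * (2 ^ f.kb + f.o) * n) * (f.F.nx ^ f.F.D * f.F.ny ^ f.F.E))
    (2 ^ f.F.β)

theorem mat_sound (f : LFmt) (hF : f.F.okB = true) (h : f.F.okC c = true) (n a b L k s d i : ℕ)
    (hkd : 0 < f.kd) (hld : 0 < f.ld)
    (hb : f.bndOK n a b L k s = true)
    (hp : psd3 f.F.W f.F.msk f.o (f.mat f.F.W (f.F.outs c) a b L k s) (f.tOf d i) = true)
    (x y : ℝ) (hxy : c.In x y) (X Y Z : ℝ) :
    0 ≤ f.I.form (valsAt f.F x y) a b ((L : ℝ) / f.ld) (f.dr k) (f.dr s) X Y Z := by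
  unfold bndOK wB at hb
  simp only [Bool.and_eq_true, Nat.ble_eq, Nat.blt_eq] at hb
  obtain ⟨⟨⟨⟨⟨⟨b1, b2⟩, b3⟩, b4⟩, b5⟩, b6⟩, b7⟩ := hb
  have key := psd3_sound (C := f.F.ctx c h) (o := f.o) (M := 2 ^ f.kb + f.o) (n := n)
    ((rep_lw hF h f.o _).mono b1) ((rep_lw hF h f.o _).mono b2) ((rep_lw hF h f.o _).mono b3)
    ((rep_lw hF h f.o _).mono b4) ((rep_lw hF h f.o _).mono b5) ((rep_lw hF h f.o _).mono b6)
    (t := f.tOf d i) (by
      unfold T3.le tOf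
      have := fun j => (dgt_lt f.kb d j).le
      refine ⟨?_, ?_, ?_, ?_, ?_, ?_⟩ <;> exact Nat.add_le_add_right (this _) _) b7 hp x y hxy X Y Z
  simp only [rev_lw] at key
  unfold e11 e12 e13 e22 e23 e33 lwR at key
  simp only [List.foldr] at key
  push_cast at key
  have hkd' : (0 : ℝ) < f.kd := by exact_mod_cast hkd
  have hld' : (0 : ℝ) < f.ld := by exact_mod_cast hld
  have hprod : (0 : ℝ) < 2 * f.kd * f.ld := by positivity
  refine nonneg_of_mul_nonneg_right (a := (2 * f.kd * f.ld : ℝ)) ?_ hprod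
  refine key.trans (le_of_eq ?_)
  unfold Idx.form q3 dr
  field_simp
  ring

/-- all vertices of a polygon at one end -/
theorem vertsOK_sound (f : LFmt) (hF : f.F.okB = true) (h : f.F.okC c = true) (n a b L d : ℕ)
    (hkd : 0 < f.kd) (hld : 0 < f.ld) (vs : List (ℕ × ℕ))
    (hb : (vs.all fun v => f.bndOK n a b L v.1 v.2) = true) :
    ∀ i, f.vertsOK f.F.W f.F.msk (f.F.outs c) a b L d vs i = true →
    ∀ x y : ℝ, c.In x y → ∀ v ∈ vs, ∀ X Y Z,
      0 ≤ f.I.form (valsAt f.F x y) a b ((L : ℝ) / f.ld) (f.dr v.1) (f.dr v.2) X Y Z := by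
  induction vs with
  | nil => intro i _ x y _ v hv; simp at hv
  | cons u vs ih =>
    intro i hi x y hxy v hv X Y Z
    have hi' : (psd3 f.F.W f.F.msk f.o (f.mat f.F.W (f.F.outs c) a b L u.1 u.2) (f.tOf d i) &&
      f.vertsOK f.F.W f.F.msk (f.F.outs c) a b L d vs (i + 1)) = true := hi
    rw [Bool.and_eq_true] at hi'
    rw [List.all_cons, Bool.and_eq_true] at hb
    rcases List.mem_cons.mp hv with rfl | hv
    · exact mat_sound f hF h n a b L v.1 v.2 d i hkd hld hb.1 hi'.1 x y hxy X Y Z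
    · exact ih hb.2 (i + 1) hi'.2 x y hxy v hv X Y Z

/-- the form is affine in `(κ, σ)` -/
theorem form_hull (I : Idx) (w : ℕ → ℝ) (a b lam : ℝ) (P : List (ℝ × ℝ)) (κ σ : ℝ)
    (hP : Hull P κ σ) (X Y Z : ℝ) (h : ∀ v ∈ P, 0 ≤ I.form w a b lam v.1 v.2 X Y Z) :
    0 ≤ I.form w a b lam κ σ X Y Z := by
  have e : ∀ k s : ℝ, I.form w a b lam k s X Y Z = I.form w a b lam 0 0 X Y Z +
      (a * w I.ggk * Y ^ 2 + a * w I.hgk * (X * Y)) * k +
      (a * w I.hz * (X * Z) + a * w I.gz * (Y * Z)) * s := by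
    intro k s
    unfold Idx.form q3
    ring
  rw [e]
  apply hP
  intro v hv
  rw [← e]
  exact h v hv

/-- linear combination of the two ends -/
theorem form_ends (I : Idx) (w : ℕ → ℝ) (a b L a' b' L' s t κ σ X Y Z : ℝ) :
    I.form w (s * a + t * a') (s * b + t * b') (s * L + t * L') κ σ X Y Z =
      s * I.form w a b L κ σ X Y Z + t * I.form w a' b' L' κ σ X Y Z := by
  unfold Idx.form q3
  ring

/-- the leaf check for the ends `(a, b)` and `(a', b')` -/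
noncomputable def leafE (f : LFmt) (n : ℕ) (W m : ℕ) (outs : List ℕ) (a b a' b' d : ℕ)
    (P : PolyD) (lo : ℕ × ℕ × ℕ) : Bool :=
  let L := dgt f.kb d 2
  let L' := dgt f.kb d 3
  (P.vs.all fun v => f.bndOK n a b L v.1 v.2 && f.bndOK n a' b' L' v.1 v.2) &&
  (Nat.beq (P.k0 + f.kd) f.o || f.linC W m outs [(lo.1, f.kd, f.o + 1),
    (f.I.n3, 1, 2 * f.o - P.k0)]) &&
  f.linC W m outs (f.s00 lo.2.1 lo.2.2 a b L) &&
  f.linC W m outs (f.s00 lo.2.1 lo.2.2 a' b' L') &&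
  f.linC W m outs (f.s01 lo.2.1 lo.2.2 a b L a' b' L') &&
  f.linC W m outs (f.s00 f.I.up0 f.I.up1 a b L) &&
  f.linC W m outs (f.s00 f.I.up0 f.I.up1 a' b' L') &&
  f.linC W m outs (f.s01 f.I.up0 f.I.up1 a b L a' b' L') &&
  f.vertsOK W m outs a b L d P.vs 0 && f.vertsOK W m outs a' b' L' d P.vs (P.vs.length)

theorem s00_val (f : LFmt) (w : ℕ → ℝ) (ho : 0 < f.o) (z0 z1 a b L : ℕ) :
    lwR f.o w (f.s00 z0 z1 a b L) = f.ld * (a ^ 2 * w z0 + a * b * w z1 + b ^ 2 * w f.I.zpp)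
      - L * b * w f.I.zl := by
  unfold s00 lwR
  simp only [List.foldr]
  rw [Nat.cast_sub ho]
  push_cast
  ring

theorem s01_val (f : LFmt) (w : ℕ → ℝ) (ho : 0 < f.o) (z0 z1 a b L a' b' L' : ℕ) :
    lwR f.o w (f.s01 z0 z1 a b L a' b' L') = f.ld * (2 * a * a' * w z0 + (a * b' + a' * b) * w z1
      + 2 * b * b' * w f.I.zpp) - (L * b' + L' * b) * w f.I.zl := by
  unfold s01 lwR
  simp only [List.foldr]
  rw [Nat.cast_sub ho]
  push_cast
  ring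

/-- scalar part on a segment -/
theorem sc_ends (f : LFmt) (w : ℕ → ℝ) (ho : 0 < f.o) (hld : 0 < f.ld)
    (z0 z1 a b L a' b' L' : ℕ)
    (h0 : 0 ≤ lwR f.o w (f.s00 z0 z1 a b L)) (h1 : 0 ≤ lwR f.o w (f.s00 z0 z1 a' b' L'))
    (h2 : 0 ≤ lwR f.o w (f.s01 z0 z1 a b L a' b' L')) (s t : ℝ) (hs : 0 ≤ s) (ht : 0 ≤ t) :
    0 ≤ f.I.sc w z0 z1 (s * a + t * a') (s * b + t * b')
      (s * ((L : ℝ) / f.ld) + t * ((L' : ℝ) / f.ld)) := by
  rw [s00_val f w ho] at h0 h1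
  rw [s01_val f w ho] at h2
  have hld' : (0 : ℝ) < f.ld := by exact_mod_cast hld
  have e : f.ld * f.I.sc w z0 z1 (s * a + t * a') (s * b + t * b')
      (s * ((L : ℝ) / f.ld) + t * ((L' : ℝ) / f.ld)) =
      s ^ 2 * (f.ld * (a ^ 2 * w z0 + a * b * w z1 + b ^ 2 * w f.I.zpp) - L * b * w f.I.zl) +
      t ^ 2 * (f.ld * (a' ^ 2 * w z0 + a' * b' * w z1 + b' ^ 2 * w f.I.zpp)
        - L' * b' * w f.I.zl) +
      s * t * (f.ld * (2 * a * a' * w z0 + (a * b' + a' * b) * w z1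
      + 2 * b * b' * w f.I.zpp) - (L * b' + L' * b) * w f.I.zl) := by
    unfold Idx.sc
    field_simp
    ring
  have h3 : 0 ≤ f.ld * f.I.sc w z0 z1 (s * a + t * a') (s * b + t * b')
      (s * ((L : ℝ) / f.ld) + t * ((L' : ℝ) / f.ld)) := by
    rw [e]; positivity
  exact nonneg_of_mul_nonneg_right h3 hld'

theorem leafE_sound (f : LFmt) (hF : f.F.okB = true) (h : f.F.okC c = true) (ho : 0 < f.o)
    (hkd : 0 < f.kd) (hld : 0 < f.ld) (n a b a' b' d : ℕ) (P : PolyD) (lo : ℕ × ℕ × ℕ)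
    (hlo : lo ∈ f.I.lo) (hk0 : P.k0 ≤ 2 * f.o)
    (hP : ∀ κ σ : ℝ, κ ^ 2 + σ ^ 2 = 1 → 0 ≤ σ → f.dr P.k0 ≤ κ →
      Hull (P.vs.map fun v => (f.dr v.1, f.dr v.2)) κ σ)
    (hl : f.leafE n f.F.W f.F.msk (f.F.outs c) a b a' b' d P lo = true) (x y : ℝ)
    (hxy : c.In x y) (s t p : ℝ) (hs : 0 ≤ s) (ht : 0 ≤ t) (h1 : s * a + t * a' = 1)
    (hp : s * b + t * b' = p) : f.I.Good (valsAt f.F x y) p := by
  unfold leafE at hl
  simp only [Bool.and_eq_true, Bool.or_eq_true, List.all_eq_true] at hl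
  obtain ⟨⟨⟨⟨⟨⟨⟨⟨⟨g1, g2⟩, g3⟩, g4⟩, g5⟩, g6⟩, g7⟩, g8⟩, g9⟩, g10⟩ := hl
  set L := dgt f.kb d 2
  set L' := dgt f.kb d 3
  have hld' : (0 : ℝ) < f.ld := by exact_mod_cast hld
  have hkd' : (0 : ℝ) < f.kd := by exact_mod_cast hkd
  have lin := fun l hl => linC_sound f hF h l hl x y hxy
  refine ⟨s * ((L : ℝ) / f.ld) + t * ((L' : ℝ) / f.ld), by positivity, ?_, ⟨lo, hlo, ?_⟩, ?_⟩
  · intro κ σ hκσ hσ hn3 hκ X Y Z
    have hκ0 : f.dr P.k0 ≤ κ := by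
      rcases g2 with g2 | g2
      · have e : P.k0 + f.kd = f.o := Nat.eq_of_beq_eq_true g2
        have : f.dr P.k0 = -1 := by
          unfold dr
          rw [← e]; push_cast; field_simp; ring
        rw [this]; nlinarith
      · have k1 := lin _ g2
        unfold lwR at k1
        simp only [List.foldr] at k1
        rw [Nat.cast_sub hk0] at k1
        push_cast at k1
        have k2 := hκ lo hlo
        unfold dr
        rw [div_le_iff₀ hkd']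
        have k3 : ((P.k0 : ℝ) - f.o) * valsAt f.F x y f.I.n3 ≤
            f.kd * (κ * valsAt f.F x y f.I.n3) := by
          have := mul_le_mul_of_nonneg_left k2 hkd'.le
          linarith
        have k4 : ((P.k0 : ℝ) - f.o) * valsAt f.F x y f.I.n3 ≤
            (κ * f.kd) * valsAt f.F x y f.I.n3 := by linarith
        exact le_of_mul_le_mul_right k4 hn3
    have hH := hP κ σ hκσ hσ hκ0
    have A0 := vertsOK_sound f hF h n a b L d hkd hld P.vs (by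
      rw [List.all_eq_true]; exact fun v hv => (g1 v hv).1) 0 g9 x y hxy
    have A1 := vertsOK_sound f hF h n a' b' L' d hkd hld P.vs (by
      rw [List.all_eq_true]; exact fun v hv => (g1 v hv).2) _ g10 x y hxy
    have B0 := form_hull f.I (valsAt f.F x y) a b ((L : ℝ) / f.ld) _ κ σ hH X Y Z (by
      intro v hv
      obtain ⟨u, hu, rfl⟩ := List.mem_map.mp hv
      exact A0 u hu X Y Z)
    have B1 := form_hull f.I (valsAt f.F x y) a' b' ((L' : ℝ) / f.ld) _ κ σ hH X Y Z (by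
      intro v hv
      obtain ⟨u, hu, rfl⟩ := List.mem_map.mp hv
      exact A1 u hu X Y Z)
    have e := form_ends f.I (valsAt f.F x y) a b ((L : ℝ) / f.ld) a' b' ((L' : ℝ) / f.ld) s t
      κ σ X Y Z
    rw [h1, hp] at e
    rw [e]
    positivity
  · have := sc_ends f (valsAt f.F x y) ho hld lo.2.1 lo.2.2 a b L a' b' L' (lin _ g3) (lin _ g4)
      (lin _ g5) s t hs ht
    rwa [h1, hp] at this
  · have := sc_ends f (valsAt f.F x y) ho hld f.I.up0 f.I.up1 a b L a' b' L' (lin _ g6)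
      (lin _ g7) (lin _ g8) s t hs ht
    rwa [h1, hp] at this

/-- the whole leaf: packed digits: 0 = polygon, 1 = lower candidate, 2, 3 = multipliers at the two
ends, then the matrices `T` -/
noncomputable def leafOK (f : LFmt) (n : ℕ) (b : Box) (d : ℕ) : Bool :=
  let c := b.cell f.xq f.yq
  let P := f.polys.getD (dgt f.kb d 0) ⟨[], 0⟩
  let lo := f.I.lo.getD (dgt f.kb d 1) (0, 0, 0)
  f.F.okC c && Nat.blt (dgt f.kb d 0) f.polys.length && Nat.blt (dgt f.kb d 1) f.I.lo.length &&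
  Nat.ble P.k0 (2 * f.o) && decide (0 ≤ b.pa) &&
  ((decide (b.pb < 0) && f.leafE n f.F.W f.F.msk (f.F.outs c) f.pq b.pa.toNat 0 1 d P lo) ||
   (decide (b.pa < b.pb) &&
    f.leafE n f.F.W f.F.msk (f.F.outs c) f.pq b.pa.toNat f.pq b.pb.toNat d P lo))

theorem leafOK_sound (f : LFmt) (hV : f.Valid) (ho : 0 < f.o) (n : ℕ) (b : Box) (d : ℕ)
    (h : f.leafOK n b d = true) (x y p : ℝ) (hb : b.In f.xq f.yq f.pq x y p) :
    f.I.Good (valsAt f.F x y) p := by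
  obtain ⟨hkd, hld, hpq, hF, hP⟩ := hV
  unfold leafOK at h
  simp only [Bool.and_eq_true, Bool.or_eq_true, decide_eq_true_eq, Nat.blt_eq, Nat.ble_eq] at h
  obtain ⟨⟨⟨⟨⟨h1, h2⟩, h3⟩, h4⟩, h5⟩, h6⟩ := h
  have hPm : f.polys.getD (dgt f.kb d 0) ⟨[], 0⟩ ∈ f.polys := by
    rw [List.getD_eq_getElem _ _ h2]; exact List.getElem_mem h2
  have hlo : f.I.lo.getD (dgt f.kb d 1) (0, 0, 0) ∈ f.I.lo := by
    rw [List.getD_eq_getElem _ _ h3]; exact List.getElem_mem h3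
  have hpq' : (0 : ℝ) < f.pq := by exact_mod_cast hpq
  have hpa : ((b.pa.toNat : ℕ) : ℝ) = (b.pa : ℝ) := by
    have : ((b.pa.toNat : ℕ) : ℤ) = b.pa := Int.toNat_of_nonneg h5
    exact_mod_cast this
  obtain ⟨hx1, hx2, hy1, hy2, hp1, hp2⟩ := id hb
  rcases h6 with ⟨h6, h7⟩ | ⟨h6, h7⟩
  · refine leafE_sound f hF h1 ho hkd hld n _ _ _ _ d _ _ hlo h4 (hP _ hPm) h7 x y hb.cell
      (1 / f.pq) (p - b.pa / f.pq) p (by positivity) ?_ ?_ ?_
    · have : (b.pa : ℝ) / f.pq ≤ p := by rw [div_le_iff₀ hpq']; linarith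
      linarith
    · push_cast; field_simp; ring
    · rw [hpa]; push_cast; field_simp; ring
  · have h8 : ((b.pb.toNat : ℕ) : ℝ) = (b.pb : ℝ) := by
      have : ((b.pb.toNat : ℕ) : ℤ) = b.pb := Int.toNat_of_nonneg (by omega)
      exact_mod_cast this
    have h9 : (f.pq : ℝ) * p ≤ b.pb := by
      rcases hp2 with hp2 | hp2
      · omega
      · exact hp2
    have h10 : (b.pa : ℝ) < b.pb := by exact_mod_cast h6
    have h11 : (0 : ℝ) < b.pb - b.pa := by linarith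
    refine leafE_sound f hF h1 ho hkd hld n _ _ _ _ d _ _ hlo h4 (hP _ hPm) h7 x y hb.cell
      ((b.pb - f.pq * p) / (f.pq * (b.pb - b.pa))) ((f.pq * p - b.pa) / (f.pq * (b.pb - b.pa))) p
      (div_nonneg (by linarith) (by positivity)) (div_nonneg (by linarith) (by positivity)) ?_ ?_
    · field_simp; ring
    · rw [hpa, h8]; field_simp; ring

/-- **tree check** -/
theorem tree_sound (f : LFmt) (hV : f.Valid) (ho : 0 < f.o) (n : ℕ) (t : Tr) (b : Box)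
    (h : t.ok (f.leafOK n) b = true) (x y p : ℝ) (hb : b.In f.xq f.yq f.pq x y p) :
    f.I.Good (valsAt f.F x y) p :=
  Tr.ok_sound (f.leafOK n) (fun x y p => f.I.Good (valsAt f.F x y) p) f.xq f.yq f.pq
    (fun b d hl x y p hin => leafOK_sound f hV ho n b d hl x y p hin) t b h x y p hb

end LFmt

end Vale.Agent.P211.H237
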