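import Vale.Agent.P211.H237.Lz

/-!
Subdivision trees and leaf checks in four variables `(x, y, p, κ)`.

At a leaf the `3 × 3` form is affine in `p` and in `κ` (bilinear through the multiplier), the
scalar part is a polynomial of bidegree `(2, 2)` in `(p, κ)`.
-/

namespace Vale.Agent.P211.H237

/-- a box; a negative `pb` means that there is no upper bound for `p` -/
structure Box4 where
  xa : ℤ
  xb : ℤ
  ya : ℤ
  yb : ℤ
  pa : ℤ
  pb : ℤ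
  ka : ℤ
  kb : ℤ

namespace Box4

def In (b : Box4) (xq yq pq kq : ℕ) (x y p k : ℝ) : Prop :=
  (b.xa : ℝ) ≤ xq * x ∧ xq * x ≤ b.xb ∧ (b.ya : ℝ) ≤ yq * y ∧ yq * y ≤ b.yb ∧
    (b.pa : ℝ) ≤ pq * p ∧ (b.pb < 0 ∨ pq * p ≤ b.pb) ∧ (b.ka : ℝ) ≤ kq * k ∧ kq * k ≤ b.kb

/-- the cell of a box -/
def cell (b : Box4) (xq yq : ℕ) : CellP := ⟨b.xa, b.xb, xq, b.ya, b.yb, yq⟩

theorem In.cell {b : Box4} {xq yq pq kq : ℕ} {x y p k : ℝ} (h : b.In xq yq pq kq x y p k) :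
    (b.cell xq yq).In x y := ⟨h.1, h.2.1, h.2.2.1, h.2.2.2.1⟩

end Box4

/-- subdivision trees -/
inductive Tr4
  | leaf (d : ℕ)
  | sx (m : ℤ) (a b : Tr4)
  | sy (m : ℤ) (a b : Tr4)
  | sp (m : ℤ) (a b : Tr4)
  | sk (m : ℤ) (a b : Tr4)

namespace Tr4

/-- the check of a tree -/
noncomputable def ok (lf : Box4 → ℕ → Bool) (t : Tr4) : Box4 → Bool :=
  Tr4.rec (motive := fun _ => Box4 → Bool) (fun d b => lf b d)
    (fun m _ _ ia ib b => (ia ⟨b.xa, m, b.ya, b.yb, b.pa, b.pb, b.ka, b.kb⟩) &&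
      (ib ⟨m, b.xb, b.ya, b.yb, b.pa, b.pb, b.ka, b.kb⟩))
    (fun m _ _ ia ib b => (ia ⟨b.xa, b.xb, b.ya, m, b.pa, b.pb, b.ka, b.kb⟩) &&
      (ib ⟨b.xa, b.xb, m, b.yb, b.pa, b.pb, b.ka, b.kb⟩))
    (fun m _ _ ia ib b => (ia ⟨b.xa, b.xb, b.ya, b.yb, b.pa, m, b.ka, b.kb⟩) &&
      (ib ⟨b.xa, b.xb, b.ya, b.yb, m, b.pb, b.ka, b.kb⟩))
    (fun m _ _ ia ib b => (ia ⟨b.xa, b.xb, b.ya, b.yb, b.pa, b.pb, b.ka, m⟩) &&
      (ib ⟨b.xa, b.xb, b.ya, b.yb, b.pa, b.pb, m, b.kb⟩)) t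

theorem ok_sound (lf : Box4 → ℕ → Bool) (Good : ℝ → ℝ → ℝ → ℝ → Prop) (xq yq pq kq : ℕ)
    (hlf : ∀ b d, lf b d = true → ∀ x y p k, b.In xq yq pq kq x y p k → Good x y p k)
    (t : Tr4) :
    ∀ b : Box4, t.ok lf b = true → ∀ x y p k, b.In xq yq pq kq x y p k → Good x y p k := by
  induction t with
  | leaf d => exact fun b h => hlf b d h
  | sx m a b iha ihb =>
    intro c h x y p k hc
    have h' : (a.ok lf ⟨c.xa, m, c.ya, c.yb, c.pa, c.pb, c.ka, c.kb⟩ &&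
      b.ok lf ⟨m, c.xb, c.ya, c.yb, c.pa, c.pb, c.ka, c.kb⟩) = true := h
    rw [Bool.and_eq_true] at h'
    obtain ⟨h1, h2, h3⟩ := hc
    rcases le_total (xq * x : ℝ) m with hm | hm
    · exact iha _ h'.1 x y p k ⟨h1, hm, h3⟩
    · exact ihb _ h'.2 x y p k ⟨hm, h2, h3⟩
  | sy m a b iha ihb =>
    intro c h x y p k hc
    have h' : (a.ok lf ⟨c.xa, c.xb, c.ya, m, c.pa, c.pb, c.ka, c.kb⟩ &&
      b.ok lf ⟨c.xa, c.xb, m, c.yb, c.pa, c.pb, c.ka, c.kb⟩) = true := h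
    rw [Bool.and_eq_true] at h'
    obtain ⟨h1, h2, h3, h4, h5⟩ := hc
    rcases le_total (yq * y : ℝ) m with hm | hm
    · exact iha _ h'.1 x y p k ⟨h1, h2, h3, hm, h5⟩
    · exact ihb _ h'.2 x y p k ⟨h1, h2, hm, h4, h5⟩
  | sp m a b iha ihb =>
    intro c h x y p k hc
    have h' : (a.ok lf ⟨c.xa, c.xb, c.ya, c.yb, c.pa, m, c.ka, c.kb⟩ &&
      b.ok lf ⟨c.xa, c.xb, c.ya, c.yb, m, c.pb, c.ka, c.kb⟩) = true := h
    rw [Bool.and_eq_true] at h'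
    obtain ⟨h1, h2, h3, h4, h5, h6, h7⟩ := hc
    rcases le_total (pq * p : ℝ) m with hm | hm
    · exact iha _ h'.1 x y p k ⟨h1, h2, h3, h4, h5, Or.inr hm, h7⟩
    · exact ihb _ h'.2 x y p k ⟨h1, h2, h3, h4, hm, h6, h7⟩
  | sk m a b iha ihb =>
    intro c h x y p k hc
    have h' : (a.ok lf ⟨c.xa, c.xb, c.ya, c.yb, c.pa, c.pb, c.ka, m⟩ &&
      b.ok lf ⟨c.xa, c.xb, c.ya, c.yb, c.pa, c.pb, m, c.kb⟩) = true := h
    rw [Bool.and_eq_true] at h'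
    obtain ⟨h1, h2, h3, h4, h5, h6, h7, h8⟩ := hc
    rcases le_total (kq * k : ℝ) m with hm | hm
    · exact iha _ h'.1 x y p k ⟨h1, h2, h3, h4, h5, h6, h7, hm⟩
    · exact ihb _ h'.2 x y p k ⟨h1, h2, h3, h4, h5, h6, hm, h8⟩

end Tr4

/-- digit number `i` in base `2^k` of the packed data -/
def dg (k d i : ℕ) : ℕ := (d / 2 ^ (k * i)) % 2 ^ k

theorem dg_lt (k d i : ℕ) : dg k d i < 2 ^ k := Nat.mod_lt _ (Nat.two_pow_pos k)

/-- indices of one matrix entry: constant, `p`, `κ`, first and second multiplier -/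
structure EI where
  i0 : ℕ
  i1 : ℕ
  ik : ℕ
  il : ℕ
  im : ℕ

/-- all indices; `z i j` = index of the coefficient of `p^i κ^j` of the scalar part;
`zl`, `m0 + κ m1 + κ^2 m2` = factors of the multipliers; `r0`, `s0 + κ s1 + κ^2 s2`: factors in
the condition `0 ≤ lam r0 + (mu - nu) (s0 + κ s1 + κ^2 s2)`; constraints: `c0 + p c1 + κ c2 ≥ 0`;
`one` = index of the constant `1` -/
structure Idx4 where
  a : EI
  b : EI
  c : EI
  d : EI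
  e : EI
  f : EI
  z00 : ℕ
  z01 : ℕ
  z02 : ℕ
  z10 : ℕ
  z11 : ℕ
  z12 : ℕ
  z20 : ℕ
  z21 : ℕ
  z22 : ℕ
  zl : ℕ
  m0 : ℕ
  m1 : ℕ
  m2 : ℕ
  r0 : ℕ
  s0 : ℕ
  s1 : ℕ
  s2 : ℕ
  one : ℕ
  cons : List (ℕ × ℕ × ℕ)

/-- value of an entry: `a`, `b` homogeneous coordinates of `p`, `k = κ` -/
noncomputable def EI.val (i : EI) (w : ℕ → ℝ) (a b k lam mu : ℝ) : ℝ :=
  a * w i.i0 + b * w i.i1 + a * k * w i.ik + lam * w i.il + mu * w i.im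

/-- the form -/
noncomputable def Idx4.form (I : Idx4) (w : ℕ → ℝ) (a b k lam mu X Y Z : ℝ) : ℝ :=
  I.a.val w a b k lam mu * X ^ 2 + 2 * I.b.val w a b k lam mu * X * Y
    + 2 * I.c.val w a b k lam mu * X * Z + I.d.val w a b k lam mu * Y ^ 2
    + 2 * I.e.val w a b k lam mu * Y * Z + I.f.val w a b k lam mu * Z ^ 2

/-- the scalar part -/
noncomputable def Idx4.sc (I : Idx4) (w : ℕ → ℝ) (p k lam mu : ℝ) : ℝ :=
  (w I.z00 + k * w I.z01 + k ^ 2 * w I.z02) + p * (w I.z10 + k * w I.z11 + k ^ 2 * w I.z12)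
    + p ^ 2 * (w I.z20 + k * w I.z21 + k ^ 2 * w I.z22) - lam * p * w I.zl
    - mu * p * (w I.m0 + k * w I.m1 + k ^ 2 * w I.m2)

/-- the relation between the three multipliers -/
noncomputable def Idx4.rel (I : Idx4) (w : ℕ → ℝ) (k lam mu nu : ℝ) : ℝ :=
  lam * w I.r0 + (mu - nu) * (w I.s0 + k * w I.s1 + k ^ 2 * w I.s2)

/-- the conclusion of a leaf -/
def Idx4.Good (I : Idx4) (w : ℕ → ℝ) (p k : ℝ) : Prop :=
  (∀ c ∈ I.cons, 0 ≤ w c.1 + p * w c.2.1 + k * w c.2.2) →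
  ∃ lam mu nu : ℝ, 0 ≤ lam ∧ 0 ≤ mu ∧ 0 ≤ nu ∧
    (∀ X Y Z, 0 ≤ I.form w 1 p k lam nu X Y Z) ∧
    0 ≤ I.sc w p k lam mu ∧ 0 ≤ I.rel w k lam mu nu

/-- format of the leaves -/
structure LF4 where
  F : Fam
  I : Idx4
  xq : ℕ
  yq : ℕ
  pq : ℕ
  kq : ℕ
  /-- offset of the digits of `T` -/
  o : ℕ
  /-- bits of a digit -/
  kb : ℕ
  /-- denominator of the multipliers -/
  ld : ℕ
  /-- bounds of the weights -/
  nw : ℕ
  nm : ℕ
  /-- a small rational `1/ce` for exclusions -/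
  ce : ℕ

namespace LF4

/-- weights of an entry (times `kq * ld`) -/
def ent (f : LF4) (i : EI) (a b k L M : ℤ) : List (ℕ × ℤ) :=
  [(i.i0, f.kq * f.ld * a), (i.i1, f.kq * f.ld * b), (i.ik, f.ld * a * k), (i.il, f.kq * L),
    (i.im, f.kq * M)]

def l6 (f : LF4) (a b k L M : ℤ) : L6 :=
  ⟨f.ent f.I.a a b k L M, f.ent f.I.b a b k L M, f.ent f.I.c a b k L M, f.ent f.I.d a b k L M,
    f.ent f.I.e a b k L M, f.ent f.I.f a b k L M⟩

/-- `T` number `i` of the packed data -/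
def tOf (f : LF4) (d i : ℕ) : T3 :=
  ⟨dg f.kb d (9 + 6 * i), dg f.kb d (10 + 6 * i), dg f.kb d (11 + 6 * i), dg f.kb d (12 + 6 * i),
    dg f.kb d (13 + 6 * i), dg f.kb d (14 + 6 * i)⟩

/-- scalar weights (times `2 kq^2 ld`) for the quadratic weights `A, AB, B` in `(a, b)`,
`K0, K1, K2` in `κ`, the multiplier weights `L` (times `2 kq^2`) and `M` -/
def scl (f : LF4) (A AB B K0 K1 K2 L M : ℤ) : List (ℕ × ℤ) :=
  [(f.I.z00, f.ld * A * K0), (f.I.z01, f.ld * A * K1), (f.I.z02, f.ld * A * K2),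
   (f.I.z10, f.ld * AB * K0), (f.I.z11, f.ld * AB * K1), (f.I.z12, f.ld * AB * K2),
   (f.I.z20, f.ld * B * K0), (f.I.z21, f.ld * B * K1), (f.I.z22, f.ld * B * K2),
   (f.I.zl, -L), (f.I.m0, -(M * K0)), (f.I.m1, -(M * K1)), (f.I.m2, -(M * K2))]

/-- weights of the relation (times `2 kq^2 ld`); `L` is already multiplied by `2 kq^2` -/
def rel (f : LF4) (K0 K1 K2 L M : ℤ) : List (ℕ × ℤ) :=
  [(f.I.r0, L), (f.I.s0, M * K0), (f.I.s1, M * K1), (f.I.s2, M * K2)]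

theorem rel_val (f : LF4) (w : ℕ → ℝ) (K0 K1 K2 L M : ℤ) :
    lzR w (f.rel K0 K1 K2 L M) =
      L * w f.I.r0 + M * (K0 * w f.I.s0 + K1 * w f.I.s1 + K2 * w f.I.s2) := by
  unfold rel lzR
  simp only [List.foldr]
  push_cast
  ring

variable {c : CellP}

theorem ent_val (f : LF4) (w : ℕ → ℝ) (i : EI) (hkq : 0 < f.kq) (hld : 0 < f.ld)
    (a b k L M : ℤ) :
    lzR w (f.ent i a b k L M) = f.kq * f.ld * i.val w a b (k / f.kq) (L / f.ld) (M / f.ld) := by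
  have h1 : (0 : ℝ) < f.kq := by exact_mod_cast hkq
  have h2 : (0 : ℝ) < f.ld := by exact_mod_cast hld
  unfold ent lzR EI.val
  simp only [List.foldr]
  push_cast
  field_simp
  ring

theorem l6_form (f : LF4) (w : ℕ → ℝ) (hkq : 0 < f.kq) (hld : 0 < f.ld) (a b k L M : ℤ)
    (X Y Z : ℝ) :
    (f.l6 a b k L M).form w X Y Z
      = f.kq * f.ld * f.I.form w a b (k / f.kq) (L / f.ld) (M / f.ld) X Y Z := by
  unfold l6 L6.form Idx4.form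
  simp only [ent_val f w _ hkq hld]
  ring

/-- the form is bilinear in (p-end, κ) and in the multipliers -/
theorem form_p (I : Idx4) (w : ℕ → ℝ) (a b a' b' s t k L L' M M' X Y Z : ℝ) :
    I.form w (s * a + t * a') (s * b + t * b') k (s * L + t * L') (s * M + t * M') X Y Z =
      s * I.form w a b k L M X Y Z + t * I.form w a' b' k L' M' X Y Z := by
  unfold Idx4.form EI.val
  ring

theorem form_k (I : Idx4) (w : ℕ → ℝ) (a b k k' s t L L' M X Y Z : ℝ) (hst : s + t = 1) :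
    I.form w a b (s * k + t * k') (s * L + t * L') M X Y Z =
      s * I.form w a b k L M X Y Z + t * I.form w a b k' L' M X Y Z := by
  have ht : t = 1 - s := by linarith
  subst ht
  unfold Idx4.form EI.val
  ring

/-- data of a leaf: ends of `p` (homogeneous), ends of `κ`, multipliers -/
structure LD where
  a : ℤ
  b : ℤ
  a' : ℤ
  b' : ℤ
  k : ℤ
  k' : ℤ
  L00 : ℤ
  L01 : ℤ
  L10 : ℤ
  L11 : ℤ
  M0 : ℤ
  M1 : ℤ
  N0 : ℤ
  N1 : ℤ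

/-- the six conditions on the multipliers -/
noncomputable def relE (f : LF4) (W m : ℕ) (outs : List ℕ) (l : LD) : Bool :=
  let Q : ℤ := f.kq
  zlin W m f.nw outs (f.rel (2 * Q * Q) (2 * Q * l.k) (2 * l.k * l.k) (2 * Q * Q * l.L00)
    (l.M0 - l.N0)) &&
  zlin W m f.nw outs (f.rel (2 * Q * Q) (Q * (l.k + l.k')) (2 * l.k * l.k')
    (Q * Q * (l.L00 + l.L01)) (l.M0 - l.N0)) &&
  zlin W m f.nw outs (f.rel (2 * Q * Q) (2 * Q * l.k') (2 * l.k' * l.k') (2 * Q * Q * l.L01)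
    (l.M0 - l.N0)) &&
  zlin W m f.nw outs (f.rel (2 * Q * Q) (2 * Q * l.k) (2 * l.k * l.k) (2 * Q * Q * l.L10)
    (l.M1 - l.N1)) &&
  zlin W m f.nw outs (f.rel (2 * Q * Q) (Q * (l.k + l.k')) (2 * l.k * l.k')
    (Q * Q * (l.L10 + l.L11)) (l.M1 - l.N1)) &&
  zlin W m f.nw outs (f.rel (2 * Q * Q) (2 * Q * l.k') (2 * l.k' * l.k') (2 * Q * Q * l.L11)
    (l.M1 - l.N1))

/-- the nine scalar lists and four matrices -/
noncomputable def leafE (f : LF4) (W m : ℕ) (outs : List ℕ) (l : LD) (d : ℕ) : Bool :=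
  let Q : ℤ := f.kq
  zlin W m f.nw outs (f.scl (l.a * l.a) (l.a * l.b) (l.b * l.b) (2 * Q * Q) (2 * Q * l.k)
    (2 * l.k * l.k) (2 * Q * Q * (l.L00 * l.b)) (l.M0 * l.b)) &&
  zlin W m f.nw outs (f.scl (l.a * l.a) (l.a * l.b) (l.b * l.b) (2 * Q * Q) (Q * (l.k + l.k'))
    (2 * l.k * l.k') (Q * Q * ((l.L00 + l.L01) * l.b)) (l.M0 * l.b)) &&
  zlin W m f.nw outs (f.scl (l.a * l.a) (l.a * l.b) (l.b * l.b) (2 * Q * Q) (2 * Q * l.k')
    (2 * l.k' * l.k') (2 * Q * Q * (l.L01 * l.b)) (l.M0 * l.b)) &&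
  zlin W m f.nw outs (f.scl (l.a' * l.a') (l.a' * l.b') (l.b' * l.b') (2 * Q * Q) (2 * Q * l.k)
    (2 * l.k * l.k) (2 * Q * Q * (l.L10 * l.b')) (l.M1 * l.b')) &&
  zlin W m f.nw outs (f.scl (l.a' * l.a') (l.a' * l.b') (l.b' * l.b') (2 * Q * Q)
    (Q * (l.k + l.k')) (2 * l.k * l.k') (Q * Q * ((l.L10 + l.L11) * l.b')) (l.M1 * l.b')) &&
  zlin W m f.nw outs (f.scl (l.a' * l.a') (l.a' * l.b') (l.b' * l.b') (2 * Q * Q) (2 * Q * l.k')
    (2 * l.k' * l.k') (2 * Q * Q * (l.L11 * l.b')) (l.M1 * l.b')) &&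
  zlin W m f.nw outs (f.scl (2 * l.a * l.a') (l.a * l.b' + l.a' * l.b) (2 * l.b * l.b')
    (2 * Q * Q) (2 * Q * l.k) (2 * l.k * l.k) (2 * Q * Q * (l.L00 * l.b' + l.L10 * l.b))
    (l.M0 * l.b' + l.M1 * l.b)) &&
  zlin W m f.nw outs (f.scl (2 * l.a * l.a') (l.a * l.b' + l.a' * l.b) (2 * l.b * l.b')
    (2 * Q * Q) (Q * (l.k + l.k')) (2 * l.k * l.k')
    (Q * Q * ((l.L00 + l.L01) * l.b' + (l.L10 + l.L11) * l.b))
    (l.M0 * l.b' + l.M1 * l.b)) &&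
  zlin W m f.nw outs (f.scl (2 * l.a * l.a') (l.a * l.b' + l.a' * l.b) (2 * l.b * l.b')
    (2 * Q * Q) (2 * Q * l.k') (2 * l.k' * l.k') (2 * Q * Q * (l.L01 * l.b' + l.L11 * l.b))
    (l.M0 * l.b' + l.M1 * l.b)) &&
  zpsd W m f.nm f.o outs (f.l6 l.a l.b l.k l.L00 l.N0) (f.tOf d 0) &&
  zpsd W m f.nm f.o outs (f.l6 l.a l.b l.k' l.L01 l.N0) (f.tOf d 1) &&
  zpsd W m f.nm f.o outs (f.l6 l.a' l.b' l.k l.L10 l.N1) (f.tOf d 2) &&
  zpsd W m f.nm f.o outs (f.l6 l.a' l.b' l.k' l.L11 l.N1) (f.tOf d 3) && f.relE W m outs l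

/-- value of a scalar list -/
theorem scl_val (f : LF4) (w : ℕ → ℝ) (A AB B K0 K1 K2 L M : ℤ) :
    lzR w (f.scl A AB B K0 K1 K2 L M) =
      f.ld * (A * (K0 * w f.I.z00 + K1 * w f.I.z01 + K2 * w f.I.z02)
        + AB * (K0 * w f.I.z10 + K1 * w f.I.z11 + K2 * w f.I.z12)
        + B * (K0 * w f.I.z20 + K1 * w f.I.z21 + K2 * w f.I.z22))
      - L * w f.I.zl - M * (K0 * w f.I.m0 + K1 * w f.I.m1 + K2 * w f.I.m2) := by
  unfold scl lzR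
  simp only [List.foldr]
  push_cast
  ring

/-- validity of a format -/
def Valid (f : LF4) : Prop :=
  0 < f.kq ∧ 0 < f.ld ∧ 0 < f.pq ∧ 0 < f.ce ∧ f.F.okB = true ∧ f.F.okW f.nw = true ∧
    f.F.okM f.nm f.kb f.o = true

theorem leafE_sound (f : LF4) (hV : f.Valid) (h : f.F.okC c = true) (l : LD) (d : ℕ)
    (hL : 0 ≤ l.L00 ∧ 0 ≤ l.L01 ∧ 0 ≤ l.L10 ∧ 0 ≤ l.L11 ∧ 0 ≤ l.M0 ∧ 0 ≤ l.M1 ∧ 0 ≤ l.N0 ∧
      0 ≤ l.N1)
    (hl : f.leafE f.F.W f.F.msk (f.F.outs c) l d = true) (x y : ℝ) (hxy : c.In x y)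
    (s t u v p k : ℝ) (hs : 0 ≤ s) (ht : 0 ≤ t) (h1 : s * l.a + t * l.a' = 1)
    (hp : s * l.b + t * l.b' = p) (hu : 0 ≤ u) (hv : 0 ≤ v) (huv : u + v = 1)
    (hk : u * l.k + v * l.k' = f.kq * k) :
    ∃ lam mu nu : ℝ, 0 ≤ lam ∧ 0 ≤ mu ∧ 0 ≤ nu ∧
      (∀ X Y Z, 0 ≤ f.I.form (valsAt f.F x y) 1 p k lam nu X Y Z) ∧
      0 ≤ f.I.sc (valsAt f.F x y) p k lam mu ∧ 0 ≤ f.I.rel (valsAt f.F x y) k lam mu nu := by
  obtain ⟨hkq, hld, hpq, hce, hF, hw, hm⟩ := hV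
  obtain ⟨hL00, hL01, hL10, hL11, hM0, hM1, hN0, hN1⟩ := hL
  unfold leafE relE at hl
  simp only [Bool.and_eq_true] at hl
  obtain ⟨⟨⟨⟨⟨⟨⟨⟨⟨⟨⟨⟨⟨g1, g2⟩, g3⟩, g4⟩, g5⟩, g6⟩, g7⟩, g8⟩, g9⟩, g10⟩, g11⟩, g12⟩, g13⟩,
    ⟨⟨⟨⟨r1, r2⟩, r3⟩, r4⟩, r5⟩, r6⟩ := hl
  have h1q : (0 : ℝ) < f.kq := by exact_mod_cast hkq
  have h2q : (0 : ℝ) < f.ld := by exact_mod_cast hld
  have lin := fun l hl => zlin_sound hF h hw l hl x y hxy
  have tlt : ∀ i, (f.tOf d i).lt f.kb := by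
    intro i
    unfold tOf T3.lt
    exact ⟨dg_lt _ _ _, dg_lt _ _ _, dg_lt _ _ _, dg_lt _ _ _, dg_lt _ _ _, dg_lt _ _ _⟩
  have mat := fun l t ht hl => zpsd_sound hF h hm l t ht hl x y hxy
  have M1 := mat _ _ (tlt 0) g10
  have M2 := mat _ _ (tlt 1) g11
  have M3 := mat _ _ (tlt 2) g12
  have M4 := mat _ _ (tlt 3) g13
  have q1 := lin _ g1
  have q2 := lin _ g2
  have q3 := lin _ g3
  have q4 := lin _ g4
  have q5 := lin _ g5
  have q6 := lin _ g6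
  have q7 := lin _ g7
  have q8 := lin _ g8
  have q9 := lin _ g9
  rw [scl_val] at q1 q2 q3 q4 q5 q6 q7 q8 q9
  have R1 := lin _ r1
  have R2 := lin _ r2
  have R3 := lin _ r3
  have R4 := lin _ r4
  have R5 := lin _ r5
  have R6 := lin _ r6
  rw [rel_val] at R1 R2 R3 R4 R5 R6
  clear g1 g2 g3 g4 g5 g6 g7 g8 g9 g10 g11 g12 g13 lin mat r1 r2 r3 r4 r5 r6
  set w := valsAt f.F x y
  have hk' : k = (u * l.k + v * l.k') / f.kq := by rw [hk]; field_simp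
  -- the multipliers
  set lam : ℝ := s * (u * (l.L00 / f.ld) + v * (l.L01 / f.ld))
    + t * (u * (l.L10 / f.ld) + v * (l.L11 / f.ld)) with hlam
  set mu : ℝ := s * (l.M0 / f.ld) + t * (l.M1 / f.ld) with hmu
  set nu : ℝ := s * (l.N0 / f.ld) + t * (l.N1 / f.ld) with hnu
  have c1 : (0 : ℝ) ≤ l.L00 := by exact_mod_cast hL00
  have c2 : (0 : ℝ) ≤ l.L01 := by exact_mod_cast hL01
  have c3 : (0 : ℝ) ≤ l.L10 := by exact_mod_cast hL10
  have c4 : (0 : ℝ) ≤ l.L11 := by exact_mod_cast hL11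
  have c5 : (0 : ℝ) ≤ l.M0 := by exact_mod_cast hM0
  have c6 : (0 : ℝ) ≤ l.M1 := by exact_mod_cast hM1
  have c7 : (0 : ℝ) ≤ l.N0 := by exact_mod_cast hN0
  have c8 : (0 : ℝ) ≤ l.N1 := by exact_mod_cast hN1
  refine ⟨lam, mu, nu, by positivity, by positivity, by positivity, ?_, ?_, ?_⟩
  · intro X Y Z
    have key : ∀ (a b k L M : ℤ), 0 ≤ (f.l6 a b k L M).form w X Y Z →
        0 ≤ f.I.form w a b (k / f.kq) (L / f.ld) (M / f.ld) X Y Z := by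
      intro a b k L M h0
      rw [l6_form f w hkq hld] at h0
      exact nonneg_of_mul_nonneg_right h0 (by positivity)
    have n1 := key _ _ _ _ _ (M1 X Y Z)
    have n2 := key _ _ _ _ _ (M2 X Y Z)
    have n3 := key _ _ _ _ _ (M3 X Y Z)
    have n4 := key _ _ _ _ _ (M4 X Y Z)
    have ek : k = u * (l.k / f.kq) + v * (l.k' / f.kq) := by rw [hk']; field_simp
    have e := form_p f.I w l.a l.b l.a' l.b' s t k (u * (l.L00 / f.ld) + v * (l.L01 / f.ld))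
      (u * (l.L10 / f.ld) + v * (l.L11 / f.ld)) (l.N0 / f.ld) (l.N1 / f.ld) X Y Z
    rw [h1, hp] at e
    rw [hlam, hnu, e, ek, form_k f.I w _ _ _ _ u v _ _ _ X Y Z huv,
      form_k f.I w _ _ _ _ u v _ _ _ X Y Z huv]
    positivity
  · have key : 2 * f.kq ^ 2 * f.ld * f.I.sc w p k lam mu =
        s ^ 2 * u ^ 2 * (f.ld * ((l.a * l.a : ℤ) * ((2 * f.kq * f.kq : ℤ) * w f.I.z00 +
            (2 * f.kq * l.k : ℤ) * w f.I.z01 + (2 * l.k * l.k : ℤ) * w f.I.z02)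
          + (l.a * l.b : ℤ) * ((2 * f.kq * f.kq : ℤ) * w f.I.z10 +
            (2 * f.kq * l.k : ℤ) * w f.I.z11 + (2 * l.k * l.k : ℤ) * w f.I.z12)
          + (l.b * l.b : ℤ) * ((2 * f.kq * f.kq : ℤ) * w f.I.z20 +
            (2 * f.kq * l.k : ℤ) * w f.I.z21 + (2 * l.k * l.k : ℤ) * w f.I.z22))
          - (2 * f.kq * f.kq * (l.L00 * l.b) : ℤ) * w f.I.zl
          - (l.M0 * l.b : ℤ) * ((2 * f.kq * f.kq : ℤ) * w f.I.m0 + (2 * f.kq * l.k : ℤ) * w f.I.m1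
            + (2 * l.k * l.k : ℤ) * w f.I.m2))
        + s ^ 2 * (2 * u * v) * (f.ld * ((l.a * l.a : ℤ) * ((2 * f.kq * f.kq : ℤ) * w f.I.z00 +
            (f.kq * (l.k + l.k') : ℤ) * w f.I.z01 + (2 * l.k * l.k' : ℤ) * w f.I.z02)
          + (l.a * l.b : ℤ) * ((2 * f.kq * f.kq : ℤ) * w f.I.z10 +
            (f.kq * (l.k + l.k') : ℤ) * w f.I.z11 + (2 * l.k * l.k' : ℤ) * w f.I.z12)
          + (l.b * l.b : ℤ) * ((2 * f.kq * f.kq : ℤ) * w f.I.z20 +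
            (f.kq * (l.k + l.k') : ℤ) * w f.I.z21 + (2 * l.k * l.k' : ℤ) * w f.I.z22))
          - (f.kq * f.kq * ((l.L00 + l.L01) * l.b) : ℤ) * w f.I.zl
          - (l.M0 * l.b : ℤ) * ((2 * f.kq * f.kq : ℤ) * w f.I.m0 + (f.kq * (l.k + l.k') : ℤ) * w f.I.m1
            + (2 * l.k * l.k' : ℤ) * w f.I.m2))
        + s ^ 2 * v ^ 2 * (f.ld * ((l.a * l.a : ℤ) * ((2 * f.kq * f.kq : ℤ) * w f.I.z00 +
            (2 * f.kq * l.k' : ℤ) * w f.I.z01 + (2 * l.k' * l.k' : ℤ) * w f.I.z02)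
          + (l.a * l.b : ℤ) * ((2 * f.kq * f.kq : ℤ) * w f.I.z10 +
            (2 * f.kq * l.k' : ℤ) * w f.I.z11 + (2 * l.k' * l.k' : ℤ) * w f.I.z12)
          + (l.b * l.b : ℤ) * ((2 * f.kq * f.kq : ℤ) * w f.I.z20 +
            (2 * f.kq * l.k' : ℤ) * w f.I.z21 + (2 * l.k' * l.k' : ℤ) * w f.I.z22))
          - (2 * f.kq * f.kq * (l.L01 * l.b) : ℤ) * w f.I.zl
          - (l.M0 * l.b : ℤ) * ((2 * f.kq * f.kq : ℤ) * w f.I.m0 + (2 * f.kq * l.k' : ℤ) * w f.I.m1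
            + (2 * l.k' * l.k' : ℤ) * w f.I.m2))
        + t ^ 2 * u ^ 2 * (f.ld * ((l.a' * l.a' : ℤ) * ((2 * f.kq * f.kq : ℤ) * w f.I.z00 +
            (2 * f.kq * l.k : ℤ) * w f.I.z01 + (2 * l.k * l.k : ℤ) * w f.I.z02)
          + (l.a' * l.b' : ℤ) * ((2 * f.kq * f.kq : ℤ) * w f.I.z10 +
            (2 * f.kq * l.k : ℤ) * w f.I.z11 + (2 * l.k * l.k : ℤ) * w f.I.z12)
          + (l.b' * l.b' : ℤ) * ((2 * f.kq * f.kq : ℤ) * w f.I.z20 +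
            (2 * f.kq * l.k : ℤ) * w f.I.z21 + (2 * l.k * l.k : ℤ) * w f.I.z22))
          - (2 * f.kq * f.kq * (l.L10 * l.b') : ℤ) * w f.I.zl
          - (l.M1 * l.b' : ℤ) * ((2 * f.kq * f.kq : ℤ) * w f.I.m0 + (2 * f.kq * l.k : ℤ) * w f.I.m1
            + (2 * l.k * l.k : ℤ) * w f.I.m2))
        + t ^ 2 * (2 * u * v) * (f.ld * ((l.a' * l.a' : ℤ) * ((2 * f.kq * f.kq : ℤ) * w f.I.z00 +
            (f.kq * (l.k + l.k') : ℤ) * w f.I.z01 + (2 * l.k * l.k' : ℤ) * w f.I.z02)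
          + (l.a' * l.b' : ℤ) * ((2 * f.kq * f.kq : ℤ) * w f.I.z10 +
            (f.kq * (l.k + l.k') : ℤ) * w f.I.z11 + (2 * l.k * l.k' : ℤ) * w f.I.z12)
          + (l.b' * l.b' : ℤ) * ((2 * f.kq * f.kq : ℤ) * w f.I.z20 +
            (f.kq * (l.k + l.k') : ℤ) * w f.I.z21 + (2 * l.k * l.k' : ℤ) * w f.I.z22))
          - (f.kq * f.kq * ((l.L10 + l.L11) * l.b') : ℤ) * w f.I.zl
          - (l.M1 * l.b' : ℤ) * ((2 * f.kq * f.kq : ℤ) * w f.I.m0 + (f.kq * (l.k + l.k') : ℤ) * w f.I.m1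
            + (2 * l.k * l.k' : ℤ) * w f.I.m2))
        + t ^ 2 * v ^ 2 * (f.ld * ((l.a' * l.a' : ℤ) * ((2 * f.kq * f.kq : ℤ) * w f.I.z00 +
            (2 * f.kq * l.k' : ℤ) * w f.I.z01 + (2 * l.k' * l.k' : ℤ) * w f.I.z02)
          + (l.a' * l.b' : ℤ) * ((2 * f.kq * f.kq : ℤ) * w f.I.z10 +
            (2 * f.kq * l.k' : ℤ) * w f.I.z11 + (2 * l.k' * l.k' : ℤ) * w f.I.z12)
          + (l.b' * l.b' : ℤ) * ((2 * f.kq * f.kq : ℤ) * w f.I.z20 +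
            (2 * f.kq * l.k' : ℤ) * w f.I.z21 + (2 * l.k' * l.k' : ℤ) * w f.I.z22))
          - (2 * f.kq * f.kq * (l.L11 * l.b') : ℤ) * w f.I.zl
          - (l.M1 * l.b' : ℤ) * ((2 * f.kq * f.kq : ℤ) * w f.I.m0 + (2 * f.kq * l.k' : ℤ) * w f.I.m1
            + (2 * l.k' * l.k' : ℤ) * w f.I.m2))
        + s * t * u ^ 2 * (f.ld * ((2 * l.a * l.a' : ℤ) * ((2 * f.kq * f.kq : ℤ) * w f.I.z00 +
            (2 * f.kq * l.k : ℤ) * w f.I.z01 + (2 * l.k * l.k : ℤ) * w f.I.z02)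
          + (l.a * l.b' + l.a' * l.b : ℤ) * ((2 * f.kq * f.kq : ℤ) * w f.I.z10 +
            (2 * f.kq * l.k : ℤ) * w f.I.z11 + (2 * l.k * l.k : ℤ) * w f.I.z12)
          + (2 * l.b * l.b' : ℤ) * ((2 * f.kq * f.kq : ℤ) * w f.I.z20 +
            (2 * f.kq * l.k : ℤ) * w f.I.z21 + (2 * l.k * l.k : ℤ) * w f.I.z22))
          - (2 * f.kq * f.kq * (l.L00 * l.b' + l.L10 * l.b) : ℤ) * w f.I.zl
          - (l.M0 * l.b' + l.M1 * l.b : ℤ) * ((2 * f.kq * f.kq : ℤ) * w f.I.m0 + (2 * f.kq * l.k : ℤ) * w f.I.m1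
            + (2 * l.k * l.k : ℤ) * w f.I.m2))
        + s * t * (2 * u * v) * (f.ld * ((2 * l.a * l.a' : ℤ) * ((2 * f.kq * f.kq : ℤ) * w f.I.z00 +
            (f.kq * (l.k + l.k') : ℤ) * w f.I.z01 + (2 * l.k * l.k' : ℤ) * w f.I.z02)
          + (l.a * l.b' + l.a' * l.b : ℤ) * ((2 * f.kq * f.kq : ℤ) * w f.I.z10 +
            (f.kq * (l.k + l.k') : ℤ) * w f.I.z11 + (2 * l.k * l.k' : ℤ) * w f.I.z12)
          + (2 * l.b * l.b' : ℤ) * ((2 * f.kq * f.kq : ℤ) * w f.I.z20 +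
            (f.kq * (l.k + l.k') : ℤ) * w f.I.z21 + (2 * l.k * l.k' : ℤ) * w f.I.z22))
          - (f.kq * f.kq * ((l.L00 + l.L01) * l.b' + (l.L10 + l.L11) * l.b) : ℤ) * w f.I.zl
          - (l.M0 * l.b' + l.M1 * l.b : ℤ) * ((2 * f.kq * f.kq : ℤ) * w f.I.m0 + (f.kq * (l.k + l.k') : ℤ) * w f.I.m1
            + (2 * l.k * l.k' : ℤ) * w f.I.m2))
        + s * t * v ^ 2 * (f.ld * ((2 * l.a * l.a' : ℤ) * ((2 * f.kq * f.kq : ℤ) * w f.I.z00 +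
            (2 * f.kq * l.k' : ℤ) * w f.I.z01 + (2 * l.k' * l.k' : ℤ) * w f.I.z02)
          + (l.a * l.b' + l.a' * l.b : ℤ) * ((2 * f.kq * f.kq : ℤ) * w f.I.z10 +
            (2 * f.kq * l.k' : ℤ) * w f.I.z11 + (2 * l.k' * l.k' : ℤ) * w f.I.z12)
          + (2 * l.b * l.b' : ℤ) * ((2 * f.kq * f.kq : ℤ) * w f.I.z20 +
            (2 * f.kq * l.k' : ℤ) * w f.I.z21 + (2 * l.k' * l.k' : ℤ) * w f.I.z22))
          - (2 * f.kq * f.kq * (l.L01 * l.b' + l.L11 * l.b) : ℤ) * w f.I.zl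
          - (l.M0 * l.b' + l.M1 * l.b : ℤ) * ((2 * f.kq * f.kq : ℤ) * w f.I.m0 + (2 * f.kq * l.k' : ℤ) * w f.I.m1
            + (2 * l.k' * l.k' : ℤ) * w f.I.m2)) := by
      have hsc : f.I.sc w p k lam mu =
          ((s * l.a + t * l.a') ^ 2 * ((u + v) ^ 2 * w f.I.z00 + (u + v) * k * w f.I.z01
            + k ^ 2 * w f.I.z02)
          + (s * l.a + t * l.a') * p * ((u + v) ^ 2 * w f.I.z10 + (u + v) * k * w f.I.z11
            + k ^ 2 * w f.I.z12)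
          + p ^ 2 * ((u + v) ^ 2 * w f.I.z20 + (u + v) * k * w f.I.z21 + k ^ 2 * w f.I.z22)
          - (u + v) * lam * p * w f.I.zl - mu * p * ((u + v) ^ 2 * w f.I.m0
            + (u + v) * k * w f.I.m1 + k ^ 2 * w f.I.m2)) := by
        rw [h1, huv]; unfold Idx4.sc; ring
      rw [hsc, hk', ← hp, hlam, hmu]
      push_cast
      field_simp
      ring
    have hpos : 0 ≤ 2 * (f.kq : ℝ) ^ 2 * f.ld * f.I.sc w p k lam mu := by
      rw [key]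
      positivity
    exact nonneg_of_mul_nonneg_right hpos (by positivity)
  · have key : 2 * f.kq ^ 2 * f.ld * f.I.rel w k lam mu nu =
        s * u ^ 2 * ((2 * f.kq * f.kq * l.L00 : ℤ) * w f.I.r0 + (l.M0 - l.N0 : ℤ) *
            ((2 * f.kq * f.kq : ℤ) * w f.I.s0 + (2 * f.kq * l.k : ℤ) * w f.I.s1
              + (2 * l.k * l.k : ℤ) * w f.I.s2))
        + s * (2 * u * v) * ((f.kq * f.kq * (l.L00 + l.L01) : ℤ) * w f.I.r0
            + (l.M0 - l.N0 : ℤ) *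
            ((2 * f.kq * f.kq : ℤ) * w f.I.s0 + (f.kq * (l.k + l.k') : ℤ) * w f.I.s1
              + (2 * l.k * l.k' : ℤ) * w f.I.s2))
        + s * v ^ 2 * ((2 * f.kq * f.kq * l.L01 : ℤ) * w f.I.r0 + (l.M0 - l.N0 : ℤ) *
            ((2 * f.kq * f.kq : ℤ) * w f.I.s0 + (2 * f.kq * l.k' : ℤ) * w f.I.s1
              + (2 * l.k' * l.k' : ℤ) * w f.I.s2))
        + t * u ^ 2 * ((2 * f.kq * f.kq * l.L10 : ℤ) * w f.I.r0 + (l.M1 - l.N1 : ℤ) *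
            ((2 * f.kq * f.kq : ℤ) * w f.I.s0 + (2 * f.kq * l.k : ℤ) * w f.I.s1
              + (2 * l.k * l.k : ℤ) * w f.I.s2))
        + t * (2 * u * v) * ((f.kq * f.kq * (l.L10 + l.L11) : ℤ) * w f.I.r0
            + (l.M1 - l.N1 : ℤ) *
            ((2 * f.kq * f.kq : ℤ) * w f.I.s0 + (f.kq * (l.k + l.k') : ℤ) * w f.I.s1
              + (2 * l.k * l.k' : ℤ) * w f.I.s2))
        + t * v ^ 2 * ((2 * f.kq * f.kq * l.L11 : ℤ) * w f.I.r0 + (l.M1 - l.N1 : ℤ) *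
            ((2 * f.kq * f.kq : ℤ) * w f.I.s0 + (2 * f.kq * l.k' : ℤ) * w f.I.s1
              + (2 * l.k' * l.k' : ℤ) * w f.I.s2)) := by
      have hsc : f.I.rel w k lam mu nu =
          (u + v) * lam * w f.I.r0 + (mu - nu) * ((u + v) ^ 2 * w f.I.s0
            + (u + v) * k * w f.I.s1 + k ^ 2 * w f.I.s2) := by
        rw [huv]; unfold Idx4.rel; ring
      rw [hsc, hk', hlam, hmu, hnu]
      push_cast
      field_simp
      ring
    have hpos : 0 ≤ 2 * (f.kq : ℝ) ^ 2 * f.ld * f.I.rel w k lam mu nu := by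
      rw [key]
      positivity
    exact nonneg_of_mul_nonneg_right hpos (by positivity)

/-- weights of an exclusion at one corner -/
def exl (f : LF4) (i : ℕ × ℕ × ℕ) (a b k : ℤ) : List (ℕ × ℤ) :=
  [(i.1, -(f.kq * a * f.ce)), (i.2.1, -(f.kq * b * f.ce)), (i.2.2, -(a * k * f.ce)),
    (f.I.one, -a)]

theorem exl_val (f : LF4) (w : ℕ → ℝ) (i : ℕ × ℕ × ℕ) (a b k : ℤ) :
    lzR w (f.exl i a b k) =
      -(f.ce * (f.kq * a * w i.1 + f.kq * b * w i.2.1 + a * k * w i.2.2)) - a * w f.I.one := by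
  unfold exl lzR
  simp only [List.foldr]
  push_cast
  ring

/-- exclusion by a constraint -/
noncomputable def exclE (f : LF4) (W m : ℕ) (outs : List ℕ) (a b a' b' k k' : ℤ)
    (i : ℕ × ℕ × ℕ) : Bool :=
  zlin W m f.nw outs (f.exl i a b k) && zlin W m f.nw outs (f.exl i a b k') &&
  zlin W m f.nw outs (f.exl i a' b' k) && zlin W m f.nw outs (f.exl i a' b' k')

theorem exclE_sound (f : LF4) (hV : f.Valid) (h : f.F.okC c = true) (a b a' b' k0 k1 : ℤ)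
    (i : ℕ × ℕ × ℕ)
    (hl : f.exclE f.F.W f.F.msk (f.F.outs c) a b a' b' k0 k1 i = true) (x y : ℝ)
    (hxy : c.In x y) (hone : valsAt f.F x y f.I.one = 1)
    (s t u v p k : ℝ) (hs : 0 ≤ s) (ht : 0 ≤ t) (h1 : s * a + t * a' = 1)
    (hp : s * b + t * b' = p) (hu : 0 ≤ u) (hv : 0 ≤ v) (huv : u + v = 1)
    (hk : u * k0 + v * k1 = f.kq * k) :
    valsAt f.F x y i.1 + p * valsAt f.F x y i.2.1 + k * valsAt f.F x y i.2.2 < 0 := by
  obtain ⟨hkq, hld, hpq, hce, hF, hw, hm⟩ := hV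
  unfold exclE at hl
  simp only [Bool.and_eq_true] at hl
  obtain ⟨⟨⟨g1, g2⟩, g3⟩, g4⟩ := hl
  have h1q : (0 : ℝ) < f.kq := by exact_mod_cast hkq
  have h2q : (0 : ℝ) < f.ce := by exact_mod_cast hce
  have lin := fun l hl => zlin_sound hF h hw l hl x y hxy
  have q1 := lin _ g1
  have q2 := lin _ g2
  have q3 := lin _ g3
  have q4 := lin _ g4
  rw [exl_val, hone] at q1 q2 q3 q4
  set w := valsAt f.F x y
  have e : f.kq * f.ce * (w i.1 + p * w i.2.1 + k * w i.2.2) + 1 =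
      -(s * u * (-(f.ce * (f.kq * a * w i.1 + f.kq * b * w i.2.1 + a * k0 * w i.2.2)) - a * 1)
      + s * v * (-(f.ce * (f.kq * a * w i.1 + f.kq * b * w i.2.1 + a * k1 * w i.2.2)) - a * 1)
      + t * u * (-(f.ce * (f.kq * a' * w i.1 + f.kq * b' * w i.2.1 + a' * k0 * w i.2.2)) - a' * 1)
      + t * v * (-(f.ce * (f.kq * a' * w i.1 + f.kq * b' * w i.2.1 + a' * k1 * w i.2.2))
        - a' * 1)) := by
    have e1 : f.kq * f.ce * (w i.1 + p * w i.2.1 + k * w i.2.2) + 1 =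
      f.kq * f.ce * ((s * a + t * a') * (u + v) * w i.1 + p * (u + v) * w i.2.1) +
        f.ce * (s * a + t * a') * (f.kq * k) * w i.2.2 + (s * a + t * a') * (u + v) := by
      rw [h1, huv]; ring
    rw [e1, ← hk, ← hp]
    ring
  have h5 : f.kq * f.ce * (w i.1 + p * w i.2.1 + k * w i.2.2) + 1 ≤ 0 := by
    rw [e]
    have : 0 ≤ s * u * (-(f.ce * (f.kq * a * w i.1 + f.kq * b * w i.2.1 + a * k0 * w i.2.2))
        - a * 1)
      + s * v * (-(f.ce * (f.kq * a * w i.1 + f.kq * b * w i.2.1 + a * k1 * w i.2.2)) - a * 1)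
      + t * u * (-(f.ce * (f.kq * a' * w i.1 + f.kq * b' * w i.2.1 + a' * k0 * w i.2.2)) - a' * 1)
      + t * v * (-(f.ce * (f.kq * a' * w i.1 + f.kq * b' * w i.2.1 + a' * k1 * w i.2.2))
        - a' * 1) := by positivity
    linarith
  have h6 : 0 < (f.kq : ℝ) * f.ce := by positivity
  by_contra hc
  push Not at hc
  have := mul_nonneg h6.le hc
  linarith

/-- finite `p`-range -/
def fin (b : Box4) : Bool := decide (b.pa < b.pb) && decide (0 ≤ b.pb)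

/-- the second end of the `p`-range -/
def ea (f : LF4) (b : Box4) : ℤ := if fin b = true then f.pq else 0
def eb (b : Box4) : ℤ := if fin b = true then b.pb else 1

theorem weights_p (f : LF4) (hpq : 0 < f.pq) (b : Box4) (p : ℝ) (hp1 : (b.pa : ℝ) ≤ f.pq * p) (hp2 : b.pb < 0 ∨ f.pq * p ≤ b.pb) :
    ∃ s t : ℝ, 0 ≤ s ∧ 0 ≤ t ∧ s * ((f.pq : ℤ) : ℝ) + t * (f.ea b : ℝ) = 1 ∧
      s * (b.pa : ℝ) + t * (eb b : ℝ) = p := by
  have hpq' : (0 : ℝ) < f.pq := by exact_mod_cast hpq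
  unfold ea eb
  by_cases hf : fin b = true
  · rw [if_pos hf, if_pos hf]
    unfold fin at hf
    simp only [Bool.and_eq_true, decide_eq_true_eq] at hf
    have h10 : (b.pa : ℝ) < b.pb := by exact_mod_cast hf.1
    have h11 : (0 : ℝ) < b.pb - b.pa := by linarith
    have h12 : f.pq * p ≤ b.pb := by
      rcases hp2 with hp2 | hp2
      · omega
      · exact hp2
    refine ⟨(b.pb - f.pq * p) / (f.pq * (b.pb - b.pa)),
      (f.pq * p - b.pa) / (f.pq * (b.pb - b.pa)),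
      div_nonneg (by linarith) (by positivity), div_nonneg (by linarith) (by positivity),
      ?_, ?_⟩
    · push_cast; field_simp; ring
    · field_simp; ring
  · rw [if_neg hf, if_neg hf]
    refine ⟨1 / f.pq, p - b.pa / f.pq, by positivity, ?_, ?_, ?_⟩
    · have : (b.pa : ℝ) / f.pq ≤ p := by rw [div_le_iff₀ hpq']; linarith
      linarith
    · push_cast; field_simp; ring
    · push_cast; field_simp; ring

theorem weights_k (f : LF4) (b : Box4) (hkk : b.ka < b.kb) (k : ℝ)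
    (hk1 : (b.ka : ℝ) ≤ f.kq * k) (hk2 : f.kq * k ≤ b.kb) :
    ∃ u v : ℝ, 0 ≤ u ∧ 0 ≤ v ∧ u + v = 1 ∧ u * b.ka + v * b.kb = f.kq * k := by
  have hkk' : (b.ka : ℝ) < b.kb := by exact_mod_cast hkk
  have hkd : (0 : ℝ) < b.kb - b.ka := by linarith
  refine ⟨(b.kb - f.kq * k) / (b.kb - b.ka), (f.kq * k - b.ka) / (b.kb - b.ka),
    div_nonneg (by linarith) hkd.le, div_nonneg (by linarith) hkd.le, ?_, ?_⟩
  · field_simp; ring
  · field_simp; ring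

/-- the data of a normal leaf -/
def ldOf (f : LF4) (b : Box4) (d : ℕ) : LD :=
  ⟨f.pq, b.pa, f.ea b, eb b, b.ka, b.kb, dg f.kb d 1, dg f.kb d 2, dg f.kb d 3,
      dg f.kb d 4, dg f.kb d 5, dg f.kb d 6, dg f.kb d 7, dg f.kb d 8⟩

/-- the whole leaf. Digit 0: type (0 = exclusion by the constraint given by digit 1, otherwise
normal); digits 1-4: `L00 L01 L10 L11`; digits 5, 6: `M0 M1`; digits 7, 8: `N0 N1`; then the four
matrices `T`. -/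
noncomputable def leafOK (f : LF4) (b : Box4) (d : ℕ) : Bool :=
  f.F.okC (b.cell f.xq f.yq) && decide (b.ka < b.kb) &&
  ((Nat.beq (dg f.kb d 0) 0 && Nat.blt (dg f.kb d 1) f.I.cons.length &&
    f.exclE f.F.W f.F.msk (f.F.outs (b.cell f.xq f.yq)) f.pq b.pa (f.ea b) (eb b) b.ka b.kb
      (f.I.cons.getD (dg f.kb d 1) (0, 0, 0))) ||
    (Nat.beq (dg f.kb d 0) 1 &&
    f.leafE f.F.W f.F.msk (f.F.outs (b.cell f.xq f.yq)) (f.ldOf b d) d))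

theorem leafOK_sound (f : LF4) (hV : f.Valid) (hone : ∀ x y, valsAt f.F x y f.I.one = 1)
    (b : Box4) (d : ℕ) (h : f.leafOK b d = true) (x y p k : ℝ)
    (hb : b.In f.xq f.yq f.pq f.kq x y p k) : f.I.Good (valsAt f.F x y) p k := by
  have hV' := hV
  obtain ⟨hkq, hld, hpq, hce, -, -, -⟩ := hV'
  unfold leafOK at h
  rw [Bool.and_eq_true, Bool.and_eq_true, decide_eq_true_eq, Bool.or_eq_true] at h
  obtain ⟨⟨h1, h2⟩, h4⟩ := h
  obtain ⟨hx1, hx2, hy1, hy2, hp1, hp2, hk1, hk2⟩ := id hb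
  obtain ⟨u, v, hu, hv, huv, hk⟩ := weights_k f b h2 k hk1 hk2
  obtain ⟨s, t, hs, ht, hs1, hsp⟩ := weights_p f hpq b p hp1 hp2
  intro hcons
  rcases h4 with h4 | h4
  · rw [Bool.and_eq_true, Bool.and_eq_true, Nat.blt_eq] at h4
    obtain ⟨⟨-, h5⟩, h6⟩ := h4
    have hm : f.I.cons.getD (dg f.kb d 1) (0, 0, 0) ∈ f.I.cons := by
      rw [List.getD_eq_getElem _ _ h5]; exact List.getElem_mem h5
    have := exclE_sound f hV h1 f.pq b.pa (f.ea b) (eb b) b.ka b.kb _ h6 x y hb.cell (hone x y)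
      s t u v p k hs ht hs1 hsp hu hv huv hk
    exact absurd (hcons _ hm) (not_le.mpr this)
  · rw [Bool.and_eq_true] at h4
    exact leafE_sound f hV h1 (f.ldOf b d) d
      ⟨Int.natCast_nonneg _, Int.natCast_nonneg _, Int.natCast_nonneg _, Int.natCast_nonneg _,
        Int.natCast_nonneg _, Int.natCast_nonneg _, Int.natCast_nonneg _,
        Int.natCast_nonneg _⟩ h4.2 x y hb.cell s t u v p k hs ht hs1 hsp
      hu hv huv hk

/-- **tree check** -/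
theorem tree_sound (f : LF4) (hV : f.Valid) (hone : ∀ x y, valsAt f.F x y f.I.one = 1)
    (t : Tr4) (b : Box4)
    (h : t.ok f.leafOK b = true) (x y p k : ℝ) (hb : b.In f.xq f.yq f.pq f.kq x y p k) :
    f.I.Good (valsAt f.F x y) p k :=
  Tr4.ok_sound f.leafOK (fun x y p k => f.I.Good (valsAt f.F x y) p k) f.xq f.yq f.pq f.kq
    (fun b d hl x y p k hin => leafOK_sound f hV hone b d hl x y p k hin) t b h x y p k hb

end LF4

/-! ### covering by parts -/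

/-- the conclusion on a box -/
def LF4.Cov (f : LF4) (b : Box4) : Prop :=
  ∀ x y p k, b.In f.xq f.yq f.pq f.kq x y p k → f.I.Good (valsAt f.F x y) p k

theorem LF4.Cov.sx {f : LF4} {xa xb ya yb pa pb ka kb : ℤ} (m : ℤ)
    (h1 : f.Cov ⟨xa, m, ya, yb, pa, pb, ka, kb⟩) (h2 : f.Cov ⟨m, xb, ya, yb, pa, pb, ka, kb⟩) :
    f.Cov ⟨xa, xb, ya, yb, pa, pb, ka, kb⟩ := by
  intro x y p k hb
  obtain ⟨g1, g2, g3⟩ := hb
  rcases le_total (f.xq * x : ℝ) m with hm | hm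
  · exact h1 x y p k ⟨g1, hm, g3⟩
  · exact h2 x y p k ⟨hm, g2, g3⟩

theorem LF4.Cov.sy {f : LF4} {xa xb ya yb pa pb ka kb : ℤ} (m : ℤ)
    (h1 : f.Cov ⟨xa, xb, ya, m, pa, pb, ka, kb⟩) (h2 : f.Cov ⟨xa, xb, m, yb, pa, pb, ka, kb⟩) :
    f.Cov ⟨xa, xb, ya, yb, pa, pb, ka, kb⟩ := by
  intro x y p k hb
  obtain ⟨g1, g2, g3, g4, g5⟩ := hb
  rcases le_total (f.yq * y : ℝ) m with hm | hm
  · exact h1 x y p k ⟨g1, g2, g3, hm, g5⟩
  · exact h2 x y p k ⟨g1, g2, hm, g4, g5⟩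

theorem LF4.Cov.sp {f : LF4} {xa xb ya yb pa pb ka kb : ℤ} (m : ℤ)
    (h1 : f.Cov ⟨xa, xb, ya, yb, pa, m, ka, kb⟩) (h2 : f.Cov ⟨xa, xb, ya, yb, m, pb, ka, kb⟩) :
    f.Cov ⟨xa, xb, ya, yb, pa, pb, ka, kb⟩ := by
  intro x y p k hb
  obtain ⟨g1, g2, g3, g4, g5, g6, g7⟩ := hb
  rcases le_total (f.pq * p : ℝ) m with hm | hm
  · exact h1 x y p k ⟨g1, g2, g3, g4, g5, Or.inr hm, g7⟩
  · exact h2 x y p k ⟨g1, g2, g3, g4, hm, g6, g7⟩

theorem LF4.Cov.sk {f : LF4} {xa xb ya yb pa pb ka kb : ℤ} (m : ℤ)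
    (h1 : f.Cov ⟨xa, xb, ya, yb, pa, pb, ka, m⟩) (h2 : f.Cov ⟨xa, xb, ya, yb, pa, pb, m, kb⟩) :
    f.Cov ⟨xa, xb, ya, yb, pa, pb, ka, kb⟩ := by
  intro x y p k hb
  obtain ⟨g1, g2, g3, g4, g5, g6, g7, g8⟩ := hb
  rcases le_total (f.kq * k : ℝ) m with hm | hm
  · exact h1 x y p k ⟨g1, g2, g3, g4, g5, g6, g7, hm⟩
  · exact h2 x y p k ⟨g1, g2, g3, g4, g5, g6, hm, g8⟩

end Vale.Agent.P211.H237
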