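import Vale.Agent.P211.H237.Psd4

/-!
Subdivision trees and leaf checks in four variables `(x, y, p, κ)` with `4 × 4` forms.
-/

namespace Vale.Agent.P211.H237

open MvPolynomial

/-! ### templates -/

/-- kinds of weights: constant, `p`, `κ`, first and third multiplier -/
inductive Kd
  | c
  | p
  | k
  | l
  | n

/-- the five weights -/
structure Wt (α : Type) where
  c : α
  p : α
  k : α
  l : α
  n : α

noncomputable def Wt.get {α : Type} (w : Wt α) (i : Kd) : α :=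
  Kd.rec w.c w.p w.k w.l w.n i

/-- value of an entry -/
noncomputable def entV (w : ℕ → ℝ) (wt : Wt ℝ) (l : List (Kd × ℕ)) : ℝ :=
  List.foldr (fun t acc => wt.get t.1 * w t.2 + acc) 0 l

/-- the ten entries -/
structure Tm where
  a11 : List (Kd × ℕ)
  a12 : List (Kd × ℕ)
  a13 : List (Kd × ℕ)
  a14 : List (Kd × ℕ)
  a22 : List (Kd × ℕ)
  a23 : List (Kd × ℕ)
  a24 : List (Kd × ℕ)
  a33 : List (Kd × ℕ)
  a34 : List (Kd × ℕ)
  a44 : List (Kd × ℕ)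

noncomputable def Tm.form (t : Tm) (w : ℕ → ℝ) (wt : Wt ℝ) (z1 z2 z3 z4 : ℝ) : ℝ :=
  form4 (entV w wt t.a11) (entV w wt t.a12) (entV w wt t.a13) (entV w wt t.a14)
    (entV w wt t.a22) (entV w wt t.a23) (entV w wt t.a24) (entV w wt t.a33) (entV w wt t.a34)
    (entV w wt t.a44) z1 z2 z3 z4

/-- selection of one of three -/
noncomputable def sel {α : Type} (x0 x1 x2 : α) (i : ℕ) : α :=
  Nat.rec (motive := fun _ => α) x0
    (fun i' _ => Nat.rec (motive := fun _ => α) x1 (fun _ _ => x2) i') i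

/-- the scalar templates -/
structure Id6 where
  tm : Tm
  zs : List (ℕ × ℕ × ℕ)
  zl : ℕ
  ms : List (ℕ × ℕ)
  r0 : ℕ
  ss : List (ℕ × ℕ)
  one : ℕ
  cons : List (ℕ × ℕ × ℕ)

noncomputable def zsV (w : ℕ → ℝ) (A K : ℕ → ℝ) (l : List (ℕ × ℕ × ℕ)) : ℝ :=
  List.foldr (fun t acc => A t.1 * K t.2.1 * w t.2.2 + acc) 0 l

noncomputable def msV (w : ℕ → ℝ) (K : ℕ → ℝ) (l : List (ℕ × ℕ)) : ℝ :=
  List.foldr (fun t acc => K t.1 * w t.2 + acc) 0 l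

noncomputable def Id6.sc (I : Id6) (w : ℕ → ℝ) (p k lam mu : ℝ) : ℝ :=
  zsV w (sel 1 p (p ^ 2)) (sel 1 k (k ^ 2)) I.zs - lam * p * w I.zl
    - mu * p * msV w (sel 1 k (k ^ 2)) I.ms

noncomputable def Id6.rel (I : Id6) (w : ℕ → ℝ) (k lam mu nu : ℝ) : ℝ :=
  lam * w I.r0 + (mu - nu) * msV w (sel 1 k (k ^ 2)) I.ss

/-- the conclusion of a leaf -/
def Id6.Good (I : Id6) (w : ℕ → ℝ) (p k : ℝ) : Prop :=
  (∀ c ∈ I.cons, 0 ≤ w c.1 + p * w c.2.1 + k * w c.2.2) →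
  ∃ lam mu nu : ℝ, 0 ≤ lam ∧ 0 ≤ mu ∧ 0 ≤ nu ∧
    (∀ z1 z2 z3 z4, 0 ≤ I.tm.form w ⟨1, p, k, lam, nu⟩ z1 z2 z3 z4) ∧
    0 ≤ I.sc w p k lam mu ∧ 0 ≤ I.rel w k lam mu nu

/-! ### linearity -/

theorem zsV_cons (w : ℕ → ℝ) (A K : ℕ → ℝ) (h : ℕ × ℕ × ℕ) (l : List (ℕ × ℕ × ℕ)) :
    zsV w A K (h :: l) = A h.1 * K h.2.1 * w h.2.2 + zsV w A K l := rfl

theorem msV_cons (w : ℕ → ℝ) (K : ℕ → ℝ) (h : ℕ × ℕ) (l : List (ℕ × ℕ)) :
    msV w K (h :: l) = K h.1 * w h.2 + msV w K l := rfl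

theorem entV_lin (w : ℕ → ℝ) (l : List (Kd × ℕ)) (s t a b c d e a' b' c' d' e' : ℝ) :
    entV w ⟨s * a + t * a', s * b + t * b', s * c + t * c', s * d + t * d', s * e + t * e'⟩ l =
      s * entV w ⟨a, b, c, d, e⟩ l + t * entV w ⟨a', b', c', d', e'⟩ l := by
  induction l with
  | nil => simp [entV]
  | cons h l ih =>
    show _ * _ + entV w _ l = s * (_ * _ + entV w _ l) + t * (_ * _ + entV w _ l)
    rw [ih]
    obtain ⟨k, i⟩ := h
    cases k <;> simp only [Wt.get] <;> ring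

theorem form_lin (tm : Tm) (w : ℕ → ℝ) (s t a b c d e a' b' c' d' e' z1 z2 z3 z4 : ℝ) :
    tm.form w ⟨s * a + t * a', s * b + t * b', s * c + t * c', s * d + t * d', s * e + t * e'⟩
      z1 z2 z3 z4 =
      s * tm.form w ⟨a, b, c, d, e⟩ z1 z2 z3 z4
        + t * tm.form w ⟨a', b', c', d', e'⟩ z1 z2 z3 z4 := by
  unfold Tm.form
  simp only [entV_lin]
  unfold form4
  ring

theorem zsV_bilin (w : ℕ → ℝ) (l : List (ℕ × ℕ × ℕ)) (c0 c1 c2 d0 d1 d2 : ℝ)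
    (A0 A1 A2 K0 K1 K2 : ℕ → ℝ) :
    zsV w (fun i => c0 * A0 i + c1 * A1 i + c2 * A2 i)
      (fun j => d0 * K0 j + d1 * K1 j + d2 * K2 j) l =
    c0 * d0 * zsV w A0 K0 l + c0 * d1 * zsV w A0 K1 l + c0 * d2 * zsV w A0 K2 l
    + c1 * d0 * zsV w A1 K0 l + c1 * d1 * zsV w A1 K1 l + c1 * d2 * zsV w A1 K2 l
    + c2 * d0 * zsV w A2 K0 l + c2 * d1 * zsV w A2 K1 l + c2 * d2 * zsV w A2 K2 l := by
  induction l with
  | nil => simp [zsV]
  | cons h l ih =>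
    simp only [zsV_cons]
    rw [ih]
    ring

theorem msV_lin (w : ℕ → ℝ) (l : List (ℕ × ℕ)) (d0 d1 d2 : ℝ) (K0 K1 K2 : ℕ → ℝ) :
    msV w (fun j => d0 * K0 j + d1 * K1 j + d2 * K2 j) l =
    d0 * msV w K0 l + d1 * msV w K1 l + d2 * msV w K2 l := by
  induction l with
  | nil => simp [msV]
  | cons h l ih =>
    simp only [msV_cons]
    rw [ih]
    ring

theorem zsV_mul (w : ℕ → ℝ) (l : List (ℕ × ℕ × ℕ)) (c d : ℝ) (A K : ℕ → ℝ) :
    zsV w (fun i => c * A i) (fun j => d * K j) l = c * d * zsV w A K l := by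
  induction l with
  | nil => simp [zsV]
  | cons h l ih =>
    simp only [zsV_cons]
    rw [ih]; ring

theorem msV_mul (w : ℕ → ℝ) (l : List (ℕ × ℕ)) (d : ℝ) (K : ℕ → ℝ) :
    msV w (fun j => d * K j) l = d * msV w K l := by
  induction l with
  | nil => simp [msV]
  | cons h l ih =>
    simp only [msV_cons]
    rw [ih]; ring

theorem sel_map (x0 x1 x2 : ℝ) (f : ℝ → ℝ) (i : ℕ) :
    sel (f x0) (f x1) (f x2) i = f (sel x0 x1 x2 i) := by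
  match i with
  | 0 => rfl
  | 1 => rfl
  | _ + 2 => rfl

/-! ### kernel functions -/

/-- entry with signed weights, unreduced -/
noncomputable def entN0 (W : ℕ) (outs : List ℕ) (wt : Wt Sg) (l : List (Kd × ℕ)) : ℕ :=
  List.rec 0 (fun t _ acc => Nat.add (Sg.mulN W (nth outs t.2) (Wt.get wt t.1)) acc) l

theorem entN0_eq (W : ℕ) (outs : List ℕ) (wt : Wt Sg) (l : List (Kd × ℕ)) :
    entN0 W outs wt l = ls0 W outs (l.map fun t => (t.2, wt.get t.1)) := by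
  induction l with
  | nil => rfl
  | cons t l ih =>
    show Nat.add _ (entN0 W outs wt l) = Nat.add _ (ls0 W outs _)
    rw [ih]

noncomputable def entN (W : ℕ) (outs : List ℕ) (wt : Wt Sg) (l : List (Kd × ℕ)) : ℕ :=
  Nat.mod (entN0 W outs wt l) W

noncomputable def Tm.mat (t : Tm) (W : ℕ) (outs : List ℕ) (wt : Wt Sg) : Q4 :=
  ⟨entN W outs wt t.a11, entN W outs wt t.a12, entN W outs wt t.a13, entN W outs wt t.a14,
    entN W outs wt t.a22, entN W outs wt t.a23, entN W outs wt t.a24, entN W outs wt t.a33,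
    entN W outs wt t.a34, entN W outs wt t.a44⟩

/-- all entries have at most 8 terms -/
def Tm.short (t : Tm) : Bool :=
  Nat.ble t.a11.length 8 && Nat.ble t.a12.length 8 && Nat.ble t.a13.length 8 &&
  Nat.ble t.a14.length 8 && Nat.ble t.a22.length 8 && Nat.ble t.a23.length 8 &&
  Nat.ble t.a24.length 8 && Nat.ble t.a33.length 8 && Nat.ble t.a34.length 8 &&
  Nat.ble t.a44.length 8

/-- sum of the absolute values of the five weights -/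
noncomputable def wtB (wt : Wt Sg) : ℕ :=
  Nat.add (Sg.absN wt.c) (Nat.add (Sg.absN wt.p) (Nat.add (Sg.absN wt.k)
    (Nat.add (Sg.absN wt.l) (Sg.absN wt.n))))

theorem wt_le (wt : Wt Sg) (kk : Kd) : (wt.get kk).abs ≤ wtB wt := by
  have e : wtB wt = wt.c.abs + (wt.p.abs + (wt.k.abs + (wt.l.abs + wt.n.abs))) := by
    unfold wtB
    simp only [Sg.absN_eq]
    rfl
  rw [e]
  cases kk <;> simp only [Wt.get] <;> omega

theorem lsB_ent (wt : Wt Sg) (l : List (Kd × ℕ)) :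
    lsB (l.map fun t => (t.2, wt.get t.1)) ≤ l.length * wtB wt := by
  induction l with
  | nil => exact Nat.zero_le _
  | cons t l ih =>
    show Nat.add (Sg.absN (wt.get t.1)) (lsB (l.map fun t => (t.2, wt.get t.1))) ≤ _
    have := wt_le wt t.1
    rw [Sg.absN_eq, List.length_cons, Nat.succ_mul]
    have e : Nat.add (wt.get t.1).abs (lsB (l.map fun t => (t.2, wt.get t.1))) =
      (wt.get t.1).abs + lsB (l.map fun t => (t.2, wt.get t.1)) := rfl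
    rw [e]
    omega

theorem lsR_ent (w : ℕ → ℝ) (wt : Wt Sg) (l : List (Kd × ℕ)) :
    lsR w (l.map fun t => (t.2, wt.get t.1)) =
      entV w ⟨wt.c.val, wt.p.val, wt.k.val, wt.l.val, wt.n.val⟩ l := by
  induction l with
  | nil => rfl
  | cons t l ih =>
    show _ * _ + lsR w _ = _ * _ + entV w _ l
    rw [ih]
    obtain ⟨k, i⟩ := t
    cases k <;> rfl

variable {F : Fam} {c : CellP} {C : Ctx F c}

theorem rep_entN {outs : List ℕ} {pol : ℕ → MP} {n0 : ℕ}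
    (ho : ∀ i, Rep C (outs.getD i 0) (pol i) n0) (wt : Wt Sg) (l : List (Kd × ℕ)) {nm : ℕ}
    (hl : l.length ≤ 8) (hb : wtB wt ≤ nm) :
    Rep C (entN F.W outs wt l) (lsP pol (l.map fun t => (t.2, wt.get t.1))) (8 * nm * n0) := by
  unfold entN
  rw [entN0_eq]
  refine (rep_ls0 ho _).red.mono (Nat.mul_le_mul_right _ ?_)
  exact (lsB_ent wt l).trans (Nat.mul_le_mul hl hb)

/-- the matrix check with its bound -/
noncomputable def Tm.chk (t : Tm) (W m nm : ℕ) (outs : List ℕ) (wt : Wt Sg) (T : T4) (acc : ℕ) :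
    ℕ := Nat.land (psd4N W m (t.mat W outs wt) T) acc

theorem tm_sound {outs : List ℕ} {pol : ℕ → MP} {n0 nm M : ℕ}
    (ho : ∀ i, Rep C (outs.getD i 0) (pol i) n0)
    (hn : 64 * (M * (M * (8 * nm * n0))) * (F.nx ^ F.D * F.ny ^ F.E) < 2 ^ F.β)
    {w : ℕ → ℝ} {x y : ℝ} (hw : ∀ i, rev x y (pol i) = w i) (t : Tm) (hs : t.short = true)
    (wt : Wt Sg) (hb : wtB wt ≤ nm) (T : T4) (hT : T.le M) (hz : T.nz = true)
    (h : Ok F.msk (psd4N F.W F.msk (t.mat F.W outs wt) T)) (hxy : c.In x y)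
    (z1 z2 z3 z4 : ℝ) :
    0 ≤ t.form w ⟨wt.c.val, wt.p.val, wt.k.val, wt.l.val, wt.n.val⟩ z1 z2 z3 z4 := by
  unfold Tm.short at hs
  simp only [Bool.and_eq_true, Nat.ble_eq] at hs
  obtain ⟨⟨⟨⟨⟨⟨⟨⟨⟨l1, l2⟩, l3⟩, l4⟩, l5⟩, l6⟩, l7⟩, l8⟩, l9⟩, l10⟩ := hs
  have key := psd4_sound (C := C) (M := M) (n := 8 * nm * n0)
    (rep_entN ho wt t.a11 l1 hb) (rep_entN ho wt t.a12 l2 hb) (rep_entN ho wt t.a13 l3 hb)
    (rep_entN ho wt t.a14 l4 hb) (rep_entN ho wt t.a22 l5 hb) (rep_entN ho wt t.a23 l6 hb)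
    (rep_entN ho wt t.a24 l7 hb) (rep_entN ho wt t.a33 l8 hb) (rep_entN ho wt t.a34 l9 hb)
    (rep_entN ho wt t.a44 l10 hb) hT hn hz h x y hxy z1 z2 z3 z4
  simp only [rev_ls hw, lsR_ent] at key
  exact key

/-- scalar check: sums with product weights -/
noncomputable def zsN (W : ℕ) (outs : List ℕ) (A : ℕ → ℕ) (K : ℕ → Sg)
    (l : List (ℕ × ℕ × ℕ)) (acc : ℕ) : ℕ :=
  List.rec acc (fun t _ acc =>
    Nat.add (Sg.mulN W (nth outs t.2.2) (Sg.nmul (A t.1) (K t.2.1))) acc) l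

noncomputable def msN (W : ℕ) (outs : List ℕ) (M : Sg) (K : ℕ → Sg)
    (l : List (ℕ × ℕ)) (acc : ℕ) : ℕ :=
  List.rec acc (fun t _ acc =>
    Nat.add (Sg.mulN W (nth outs t.2) (Sg.mul M (K t.1))) acc) l

theorem zsN_spec {outs : List ℕ} {pol : ℕ → MP} {n0 : ℕ} {w : ℕ → ℝ} {x y : ℝ}
    (ho : ∀ i, Rep C (outs.getD i 0) (pol i) n0) (hw : ∀ i, rev x y (pol i) = w i)
    (A : ℕ → ℕ) (K : ℕ → Sg) {a k : ℕ} (hA : ∀ i, A i ≤ a) (hK : ∀ i, (K i).abs ≤ k)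
    {v0 : ℕ} {P0 : MP} {b0 : ℕ} (h0 : Rep' C v0 P0 (b0 * n0)) (l : List (ℕ × ℕ × ℕ)) :
    ∃ P : MP, Rep' C (zsN F.W outs A K l v0) P ((l.length * (a * k) + b0) * n0) ∧
      rev x y P = zsV w (fun i => (A i : ℝ)) (fun j => ((K j).val : ℝ)) l + rev x y P0 := by
  induction l with
  | nil =>
    refine ⟨P0, ?_, ?_⟩
    · show Rep' C v0 P0 _
      simpa using h0
    · simp [zsV]
  | cons t l ih =>
    obtain ⟨P, hP, hr⟩ := ih
    have h1 : Rep C (nth outs t.2.2) (pol t.2.2) n0 := by rw [nth_eq]; exact ho t.2.2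
    have h2 := (h1.mulS (Sg.nmul (A t.1) (K t.2.1))).add hP
    refine ⟨_, ⟨h2.1.mono ?_ le_rfl le_rfl, h2.2⟩, ?_⟩
    · rw [List.length_cons, Nat.succ_mul, ← Nat.add_mul]
      refine Nat.mul_le_mul_right _ ?_
      have : (Sg.nmul (A t.1) (K t.2.1)).abs ≤ a * k := by
        rw [← Sg.abs_val, Sg.val_nmul, Int.natAbs_mul, Int.natAbs_natCast, Sg.abs_val]
        exact Nat.mul_le_mul (hA _) (hK _)
      omega
    · rw [rev_add, rev_mul, rev_C, hw, hr, Sg.val_nmul]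
      rw [zsV_cons]
      push_cast
      ring

theorem msN_spec {outs : List ℕ} {pol : ℕ → MP} {n0 : ℕ} {w : ℕ → ℝ} {x y : ℝ}
    (ho : ∀ i, Rep C (outs.getD i 0) (pol i) n0) (hw : ∀ i, rev x y (pol i) = w i)
    (M : Sg) (K : ℕ → Sg) {k : ℕ} (hK : ∀ i, (K i).abs ≤ k)
    {v0 : ℕ} {P0 : MP} {b0 : ℕ} (h0 : Rep' C v0 P0 (b0 * n0)) (l : List (ℕ × ℕ)) :
    ∃ P : MP, Rep' C (msN F.W outs M K l v0) P ((l.length * (M.abs * k) + b0) * n0) ∧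
      rev x y P = M.val * msV w (fun j => ((K j).val : ℝ)) l + rev x y P0 := by
  induction l with
  | nil =>
    refine ⟨P0, ?_, ?_⟩
    · show Rep' C v0 P0 _
      simpa using h0
    · simp [msV]
  | cons t l ih =>
    obtain ⟨P, hP, hr⟩ := ih
    have h1 : Rep C (nth outs t.2) (pol t.2) n0 := by rw [nth_eq]; exact ho t.2
    have h2 := (h1.mulS (Sg.mul M (K t.1))).add hP
    refine ⟨_, ⟨h2.1.mono ?_ le_rfl le_rfl, h2.2⟩, ?_⟩
    · rw [List.length_cons, Nat.succ_mul, ← Nat.add_mul]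
      refine Nat.mul_le_mul_right _ ?_
      have : (Sg.mul M (K t.1)).abs ≤ M.abs * k := by
        rw [← Sg.abs_val, Sg.val_mul, Int.natAbs_mul, Sg.abs_val, Sg.abs_val]
        exact Nat.mul_le_mul_left _ (hK _)
      omega
    · rw [rev_add, rev_mul, rev_C, hw, hr, Sg.val_mul]
      rw [msV_cons]
      push_cast
      ring

/-- one scalar check: `A` = weights of `1, p, p^2` (times `ld`), `K` = weights of `1, κ, κ^2`,
`L`, `M` = weights of the multipliers -/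
noncomputable def scN (I : Id6) (W m : ℕ) (outs : List ℕ) (A0 A1 A2 : ℕ) (K0 : ℕ) (K1 K2 : Sg)
    (L M : ℕ) : ℕ :=
  Nat.mod (Nat.add (zsN W outs (sel A0 A1 A2) (sel (Sg.p K0) K1 K2) I.zs
    (msN W outs (Sg.m M) (sel (Sg.p K0) K1 K2) I.ms
      (Sg.mulN W (nth outs I.zl) (Sg.m L)))) m) W

/-- its bound -/
noncomputable def scB (A0 A1 A2 : ℕ) (K0 : ℕ) (K1 K2 : Sg) (L M : ℕ) : ℕ :=
  Nat.add (Nat.mul 16 (Nat.mul (Nat.add A0 (Nat.add A1 A2))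
    (Nat.add K0 (Nat.add (Sg.absN K1) (Sg.absN K2)))))
    (Nat.add (Nat.mul 16 (Nat.mul M (Nat.add K0 (Nat.add (Sg.absN K1) (Sg.absN K2))))) L)

theorem sel_le (a b c : ℕ) (i : ℕ) : sel a b c i ≤ Nat.add a (Nat.add b c) := by
  show _ ≤ a + (b + c)
  match i with
  | 0 => show a ≤ _; omega
  | 1 => show b ≤ _; omega
  | _ + 2 => show c ≤ _; omega

theorem sel_abs_le (a : ℕ) (b c : Sg) (i : ℕ) :
    (sel (Sg.p a) b c i).abs ≤ Nat.add a (Nat.add (Sg.absN b) (Sg.absN c)) := by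
  rw [Sg.absN_eq, Sg.absN_eq]
  show _ ≤ a + (b.abs + c.abs)
  match i with
  | 0 => show a ≤ _; omega
  | 1 => show b.abs ≤ _; omega
  | _ + 2 => show c.abs ≤ _; omega

theorem sel_cast (a b c i : ℕ) : ((sel a b c i : ℕ) : ℝ) = sel (a : ℝ) b c i := by
  match i with
  | 0 => rfl
  | 1 => rfl
  | _ + 2 => rfl

theorem sel_val (a b c : Sg) (i : ℕ) :
    ((sel a b c i).val : ℝ) = sel (a.val : ℝ) (b.val : ℝ) (c.val : ℝ) i := by
  match i with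
  | 0 => rfl
  | 1 => rfl
  | _ + 2 => rfl

theorem scN_sound {outs : List ℕ} {pol : ℕ → MP} {n0 nw : ℕ} {w : ℕ → ℝ} {x y : ℝ}
    (ho : ∀ i, Rep C (outs.getD i 0) (pol i) n0)
    (hn : nw * n0 * (F.nx ^ F.D * F.ny ^ F.E) < 2 ^ F.β)
    (hw : ∀ i, rev x y (pol i) = w i) (hxy : c.In x y) (I : Id6) (hz : I.zs.length ≤ 16)
    (hm : I.ms.length ≤ 16) (A0 A1 A2 K0 : ℕ) (K1 K2 : Sg) (L M : ℕ)
    (hb : scB A0 A1 A2 K0 K1 K2 L M ≤ nw)
    (h : Ok F.msk (scN I F.W F.msk outs A0 A1 A2 K0 K1 K2 L M)) :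
    0 ≤ zsV w (sel (A0 : ℝ) A1 A2) (sel (K0 : ℝ) (K1.val : ℝ) (K2.val : ℝ)) I.zs
      - L * w I.zl - M * msV w (sel (K0 : ℝ) (K1.val : ℝ) (K2.val : ℝ)) I.ms := by
  have h1 : Rep C (nth outs I.zl) (pol I.zl) n0 := by rw [nth_eq]; exact ho I.zl
  obtain ⟨P, hP, hr⟩ := msN_spec ho hw (Sg.m M) (sel (Sg.p K0) K1 K2) (sel_abs_le K0 K1 K2)
    (h1.mulS (Sg.m L)) I.ms
  obtain ⟨Q, hQ, hs⟩ := zsN_spec ho hw (sel A0 A1 A2) (sel (Sg.p K0) K1 K2) (sel_le A0 A1 A2)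
    (sel_abs_le K0 K1 K2) hP I.zs
  have h2 := hQ.nonneg (lt_of_le_of_lt (Nat.mul_le_mul_right _ (Nat.mul_le_mul_right _ ?_)) hn)
    (show Nat.add _ _ = _ + _ from rfl) h x y hxy
  · rw [hs, hr, rev_mul, rev_C, hw] at h2
    have e1 : (fun i => ((sel A0 A1 A2 i : ℕ) : ℝ)) = sel (A0 : ℝ) A1 A2 :=
      funext fun i => sel_cast A0 A1 A2 i
    have e2 : (fun i => ((sel (Sg.p K0) K1 K2 i).val : ℝ))
        = sel (K0 : ℝ) (K1.val : ℝ) (K2.val : ℝ) := by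
      funext i
      rw [sel_val]
      have : (((Sg.p K0).val : ℤ) : ℝ) = (K0 : ℝ) := by simp [Sg.val]
      rw [this]
    have e3 : (((Sg.m M).val : ℤ) : ℝ) = -(M : ℝ) := by simp [Sg.val]
    have e4 : (((Sg.m L).val : ℤ) : ℝ) = -(L : ℝ) := by simp [Sg.val]
    rw [e1, e2, e3, e4] at h2
    linarith
  · refine le_trans ?_ hb
    unfold scB
    show _ ≤ 16 * ((A0 + (A1 + A2)) * (K0 + (Sg.absN K1 + Sg.absN K2)))
      + (16 * (M * (K0 + (Sg.absN K1 + Sg.absN K2))) + L)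
    have g1 := Nat.mul_le_mul_right ((A0 + (A1 + A2)) * (K0 + (Sg.absN K1 + Sg.absN K2))) hz
    have g2 := Nat.mul_le_mul_right (M * (K0 + (Sg.absN K1 + Sg.absN K2))) hm
    have g3 : (Sg.m M).abs = M := rfl
    have g4 : (Sg.m L).abs = L := rfl
    rw [g3, g4]
    exact Nat.add_le_add g1 (Nat.add_le_add g2 le_rfl)

/-- the relation check -/
noncomputable def relN (I : Id6) (W m : ℕ) (outs : List ℕ) (K0 : ℕ) (K1 K2 : Sg)
    (L : ℕ) (S : Sg) : ℕ :=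
  Nat.mod (Nat.add (msN W outs S (sel (Sg.p K0) K1 K2) I.ss
      (Sg.mulN W (nth outs I.r0) (Sg.p L))) m) W

noncomputable def relB (K0 : ℕ) (K1 K2 : Sg) (L : ℕ) (S : Sg) : ℕ :=
  Nat.add (Nat.mul 16 (Nat.mul (Sg.absN S) (Nat.add K0 (Nat.add (Sg.absN K1) (Sg.absN K2))))) L

theorem relN_sound {outs : List ℕ} {pol : ℕ → MP} {n0 nw : ℕ} {w : ℕ → ℝ} {x y : ℝ}
    (ho : ∀ i, Rep C (outs.getD i 0) (pol i) n0)
    (hn : nw * n0 * (F.nx ^ F.D * F.ny ^ F.E) < 2 ^ F.β)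
    (hw : ∀ i, rev x y (pol i) = w i) (hxy : c.In x y) (I : Id6) (hs : I.ss.length ≤ 16)
    (K0 : ℕ) (K1 K2 : Sg) (L : ℕ) (S : Sg) (hb : relB K0 K1 K2 L S ≤ nw)
    (h : Ok F.msk (relN I F.W F.msk outs K0 K1 K2 L S)) :
    0 ≤ L * w I.r0 + S.val * msV w (sel (K0 : ℝ) (K1.val : ℝ) (K2.val : ℝ)) I.ss := by
  have h1 : Rep C (nth outs I.r0) (pol I.r0) n0 := by rw [nth_eq]; exact ho I.r0
  obtain ⟨P, hP, hr⟩ := msN_spec ho hw S (sel (Sg.p K0) K1 K2) (sel_abs_le K0 K1 K2)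
    (h1.mulS (Sg.p L)) I.ss
  have h2 := hP.nonneg (lt_of_le_of_lt (Nat.mul_le_mul_right _ (Nat.mul_le_mul_right _ ?_)) hn)
    (show Nat.add _ _ = _ + _ from rfl) h x y hxy
  · rw [hr, rev_mul, rev_C, hw] at h2
    have e2 : (fun i => ((sel (Sg.p K0) K1 K2 i).val : ℝ))
        = sel (K0 : ℝ) (K1.val : ℝ) (K2.val : ℝ) := by
      funext i
      rw [sel_val]
      have : (((Sg.p K0).val : ℤ) : ℝ) = (K0 : ℝ) := by simp [Sg.val]
      rw [this]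
    have e4 : (((Sg.p L).val : ℤ) : ℝ) = (L : ℝ) := by simp [Sg.val]
    rw [e2, e4] at h2
    linarith
  · refine le_trans ?_ hb
    unfold relB
    show _ ≤ 16 * (Sg.absN S * (K0 + (Sg.absN K1 + Sg.absN K2))) + L
    rw [Sg.absN_eq S]
    have g2 := Nat.mul_le_mul_right (S.abs * (K0 + (Sg.absN K1 + Sg.absN K2))) hs
    have g4 : (Sg.p L).abs = L := rfl
    rw [g4]
    exact Nat.add_le_add g2 le_rfl

/-- difference of two natural numbers -/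
noncomputable def Sg.ofSub (a b : ℕ) : Sg :=
  Nat.rec (Sg.m (Nat.sub b a)) (fun _ _ => Sg.p (Nat.sub a b)) (Nat.sub a b)

theorem Sg.val_ofSub (a b : ℕ) : (Sg.ofSub a b).val = (a : ℤ) - b := by
  unfold Sg.ofSub
  cases h : Nat.sub a b with
  | zero =>
    have h' : a - b = 0 := h
    show -((b - a : ℕ) : ℤ) = _
    omega
  | succ k =>
    have h' : a - b = k + 1 := h
    show ((k + 1 : ℕ) : ℤ) = _
    omega

/-- formats -/
structure LF6 where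
  T : Tab
  I : Id6
  xq : ℕ
  yq : ℕ
  pq : ℕ
  kq : ℕ
  /-- bits of a digit -/
  kb : ℕ
  /-- denominator of the multipliers -/
  ld : ℕ
  /-- bounds of the weights -/
  nw : ℕ
  nm : ℕ
  /-- a small rational `1/ce` for exclusions -/
  ce : ℕ

/-- data of a leaf -/
structure L6D where
  a : ℕ
  b : ℕ
  a' : ℕ
  b' : ℕ
  k : Sg
  k' : Sg
  /-- `k + k'` -/
  kk : Sg
  L00 : ℕ
  L01 : ℕ
  L10 : ℕ
  L11 : ℕ
  M0 : ℕ
  M1 : ℕ
  N0 : ℕ
  N1 : ℕ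
  T0 : T4
  T1 : T4
  T2 : T4
  T3 : T4

namespace LF6

/-- the weights of a matrix -/
noncomputable def wt (f : LF6) (a b : ℕ) (k : Sg) (L N : ℕ) : Wt Sg :=
  ⟨Sg.p (Nat.mul f.kq (Nat.mul f.ld a)), Sg.p (Nat.mul f.kq (Nat.mul f.ld b)),
    Sg.nmul (Nat.mul f.ld a) k, Sg.p (Nat.mul f.kq L), Sg.p (Nat.mul f.kq N)⟩

theorem wt_form (f : LF6) (w : ℕ → ℝ) (a b : ℕ) (k : Sg) (L N : ℕ) (hkq : 0 < f.kq)
    (hld : 0 < f.ld) (z1 z2 z3 z4 : ℝ) :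
    f.I.tm.form w ⟨(f.wt a b k L N).c.val, (f.wt a b k L N).p.val, (f.wt a b k L N).k.val,
      (f.wt a b k L N).l.val, (f.wt a b k L N).n.val⟩ z1 z2 z3 z4 =
    f.kq * f.ld * f.I.tm.form w ⟨a, b, a * (k.val / f.kq), L / f.ld, N / f.ld⟩ z1 z2 z3 z4 := by
  have h1 : (0 : ℝ) < f.kq := by exact_mod_cast hkq
  have h2 : (0 : ℝ) < f.ld := by exact_mod_cast hld
  have e := form_lin f.I.tm w (f.kq * f.ld) 0 a b (a * (k.val / f.kq)) (L / f.ld) (N / f.ld)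
    0 0 0 0 0 z1 z2 z3 z4
  rw [zero_mul, add_zero, zero_mul, add_zero, add_zero, add_zero, add_zero, add_zero] at e
  rw [← e]
  have c1 : ((f.wt a b k L N).c.val : ℝ) = f.kq * f.ld * a := by
    show (((Nat.mul f.kq (Nat.mul f.ld a) : ℕ) : ℤ) : ℝ) = _
    have : Nat.mul f.kq (Nat.mul f.ld a) = f.kq * (f.ld * a) := rfl
    rw [this]; push_cast; ring
  have c2 : ((f.wt a b k L N).p.val : ℝ) = f.kq * f.ld * b := by
    show (((Nat.mul f.kq (Nat.mul f.ld b) : ℕ) : ℤ) : ℝ) = _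
    have : Nat.mul f.kq (Nat.mul f.ld b) = f.kq * (f.ld * b) := rfl
    rw [this]; push_cast; ring
  have c3 : ((f.wt a b k L N).k.val : ℝ) = f.kq * f.ld * (a * (k.val / f.kq)) := by
    show (((Sg.nmul (Nat.mul f.ld a) k).val : ℤ) : ℝ) = _
    rw [Sg.val_nmul]
    have : Nat.mul f.ld a = f.ld * a := rfl
    rw [this]; push_cast; field_simp
  have c4 : ((f.wt a b k L N).l.val : ℝ) = f.kq * f.ld * (L / f.ld) := by
    show (((Nat.mul f.kq L : ℕ) : ℤ) : ℝ) = _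
    have : Nat.mul f.kq L = f.kq * L := rfl
    rw [this]; push_cast; field_simp
  have c5 : ((f.wt a b k L N).n.val : ℝ) = f.kq * f.ld * (N / f.ld) := by
    show (((Nat.mul f.kq N : ℕ) : ℤ) : ℝ) = _
    have : Nat.mul f.kq N = f.kq * N := rfl
    rw [this]; push_cast; field_simp
  rw [c1, c2, c3, c4, c5]

/-- one matrix with its side conditions -/
noncomputable def matB (f : LF6) (a b : ℕ) (k : Sg) (L N : ℕ) (T : T4) : Bool :=
  Bool.rec false (T.nz) (Nat.ble (wtB (f.wt a b k L N)) f.nm)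

noncomputable def matN (f : LF6) (W m : ℕ) (outs : List ℕ) (a b : ℕ) (k : Sg) (L N : ℕ)
    (T : T4) : ℕ := psd4N W m (f.I.tm.mat W outs (f.wt a b k L N)) T

/-- validity -/
def Valid (f : LF6) : Prop :=
  0 < f.kq ∧ 0 < f.ld ∧ 0 < f.pq ∧ 0 < f.ce ∧ f.T.okB = true ∧
    f.nw * f.T.n0 * (f.T.nx ^ f.T.D * f.T.ny ^ f.T.E) < 2 ^ f.T.β ∧
    64 * (2 ^ f.kb * (2 ^ f.kb * (8 * f.nm * f.T.n0))) * (f.T.nx ^ f.T.D * f.T.ny ^ f.T.E)
      < 2 ^ f.T.β ∧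
    f.I.tm.short = true ∧ f.I.zs.length ≤ 16 ∧ f.I.ms.length ≤ 16 ∧ f.I.ss.length ≤ 16

theorem mat_sound (f : LF6) (hV : f.Valid) (h : f.T.fam.okC c = true) (a b : ℕ) (k : Sg)
    (L N : ℕ) (T : T4) (hT : T.le (2 ^ f.kb)) (hB : f.matB a b k L N T = true)
    (hN : Ok f.T.fam.msk (f.matN f.T.fam.W f.T.fam.msk (f.T.outs f.T.fam.W c) a b k L N T))
    (x y : ℝ) (hxy : c.In x y) (z1 z2 z3 z4 : ℝ) :
    0 ≤ f.I.tm.form (f.T.vals x y) ⟨a, b, a * (k.val / f.kq), L / f.ld, N / f.ld⟩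
      z1 z2 z3 z4 := by
  obtain ⟨hkq, hld, hpq, hce, hF, hw, hm, hs, -, -, -⟩ := hV
  unfold matB at hB
  have hb : wtB (f.wt a b k L N) ≤ f.nm ∧ T.nz = true := by
    cases hc : Nat.ble (wtB (f.wt a b k L N)) f.nm with
    | false => rw [hc] at hB; exact absurd hB (by simp)
    | true =>
      rw [hc] at hB
      exact ⟨Nat.le_of_ble_eq_true hc, hB⟩
  have key := tm_sound (C := f.T.fam.ctx c h) (fun i => Tab.rep_outs hF h i) hm
    (fun i => f.T.rev_pol x y i) f.I.tm hs (f.wt a b k L N) hb.1 T hT hb.2 hN hxy z1 z2 z3 z4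
  rw [wt_form f _ a b k L N hkq hld] at key
  have h1 : (0 : ℝ) < f.kq := by exact_mod_cast hkq
  have h2 : (0 : ℝ) < f.ld := by exact_mod_cast hld
  exact nonneg_of_mul_nonneg_right key (by positivity)

/-- scalar check number `(e, g)` as values: A-weights times `ld` -/
noncomputable def scW (f : LF6) (W m : ℕ) (outs : List ℕ) (A0 A1 A2 K0 : ℕ) (K1 K2 : Sg)
    (L M : ℕ) (acc : ℕ) : ℕ :=
  Nat.land (scN f.I W m outs A0 A1 A2 K0 K1 K2 L M) acc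

/-- the `A`-weights -/
noncomputable def A00 (f : LF6) (l : L6D) : ℕ := Nat.mul f.ld (Nat.mul l.a l.a)
noncomputable def A01 (f : LF6) (l : L6D) : ℕ := Nat.mul f.ld (Nat.mul l.a l.b)
noncomputable def A02 (f : LF6) (l : L6D) : ℕ := Nat.mul f.ld (Nat.mul l.b l.b)
noncomputable def A10 (f : LF6) (l : L6D) : ℕ := Nat.mul f.ld (Nat.mul 2 (Nat.mul l.a l.a'))
noncomputable def A11 (f : LF6) (l : L6D) : ℕ :=
  Nat.mul f.ld (Nat.add (Nat.mul l.a l.b') (Nat.mul l.a' l.b))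
noncomputable def A12 (f : LF6) (l : L6D) : ℕ := Nat.mul f.ld (Nat.mul 2 (Nat.mul l.b l.b'))
noncomputable def A20 (f : LF6) (l : L6D) : ℕ := Nat.mul f.ld (Nat.mul l.a' l.a')
noncomputable def A21 (f : LF6) (l : L6D) : ℕ := Nat.mul f.ld (Nat.mul l.a' l.b')
noncomputable def A22 (f : LF6) (l : L6D) : ℕ := Nat.mul f.ld (Nat.mul l.b' l.b')

/-- the `κ`-weights -/
noncomputable def K0 (f : LF6) : ℕ := Nat.mul 2 (Nat.mul f.kq f.kq)
noncomputable def K01 (f : LF6) (l : L6D) : Sg := Sg.nmul (Nat.mul 2 f.kq) l.k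
noncomputable def K02 (l : L6D) : Sg := Sg.nmul 2 (Sg.mul l.k l.k)
noncomputable def K11 (f : LF6) (l : L6D) : Sg := Sg.nmul f.kq l.kk
noncomputable def K12 (l : L6D) : Sg := Sg.nmul 2 (Sg.mul l.k l.k')
noncomputable def K21 (f : LF6) (l : L6D) : Sg := Sg.nmul (Nat.mul 2 f.kq) l.k'
noncomputable def K22 (l : L6D) : Sg := Sg.nmul 2 (Sg.mul l.k' l.k')

/-- the `L`-weights: at the ends `e` (0, 2) the numbers `2 Q^2 L_{e0}, Q^2 (L_{e0} + L_{e1}),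
2 Q^2 L_{e1}` -/
noncomputable def Q2 (f : LF6) : ℕ := Nat.mul f.kq f.kq
noncomputable def La0 (f : LF6) (l : L6D) : ℕ := Nat.mul (Nat.mul 2 f.Q2) l.L00
noncomputable def La1 (f : LF6) (l : L6D) : ℕ := Nat.mul f.Q2 (Nat.add l.L00 l.L01)
noncomputable def La2 (f : LF6) (l : L6D) : ℕ := Nat.mul (Nat.mul 2 f.Q2) l.L01
noncomputable def Lb0 (f : LF6) (l : L6D) : ℕ := Nat.mul (Nat.mul 2 f.Q2) l.L10
noncomputable def Lb1 (f : LF6) (l : L6D) : ℕ := Nat.mul f.Q2 (Nat.add l.L10 l.L11)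
noncomputable def Lb2 (f : LF6) (l : L6D) : ℕ := Nat.mul (Nat.mul 2 f.Q2) l.L11

/-- the nine scalar bounds, six relation bounds, four matrix conditions -/
noncomputable def leafB (f : LF6) (l : L6D) : Bool :=
  Nat.ble (scB (f.A00 l) (f.A01 l) (f.A02 l) f.K0 (f.K01 l) (K02 l)
    (Nat.mul (f.La0 l) l.b) (Nat.mul l.M0 l.b)) f.nw &&
  Nat.ble (scB (f.A00 l) (f.A01 l) (f.A02 l) f.K0 (f.K11 l) (K12 l)
    (Nat.mul (f.La1 l) l.b) (Nat.mul l.M0 l.b)) f.nw &&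
  Nat.ble (scB (f.A00 l) (f.A01 l) (f.A02 l) f.K0 (f.K21 l) (K22 l)
    (Nat.mul (f.La2 l) l.b) (Nat.mul l.M0 l.b)) f.nw &&
  Nat.ble (scB (f.A20 l) (f.A21 l) (f.A22 l) f.K0 (f.K01 l) (K02 l)
    (Nat.mul (f.Lb0 l) l.b') (Nat.mul l.M1 l.b')) f.nw &&
  Nat.ble (scB (f.A20 l) (f.A21 l) (f.A22 l) f.K0 (f.K11 l) (K12 l)
    (Nat.mul (f.Lb1 l) l.b') (Nat.mul l.M1 l.b')) f.nw &&
  Nat.ble (scB (f.A20 l) (f.A21 l) (f.A22 l) f.K0 (f.K21 l) (K22 l)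
    (Nat.mul (f.Lb2 l) l.b') (Nat.mul l.M1 l.b')) f.nw &&
  Nat.ble (scB (f.A10 l) (f.A11 l) (f.A12 l) f.K0 (f.K01 l) (K02 l)
    (Nat.add (Nat.mul (f.La0 l) l.b') (Nat.mul (f.Lb0 l) l.b))
    (Nat.add (Nat.mul l.M0 l.b') (Nat.mul l.M1 l.b))) f.nw &&
  Nat.ble (scB (f.A10 l) (f.A11 l) (f.A12 l) f.K0 (f.K11 l) (K12 l)
    (Nat.add (Nat.mul (f.La1 l) l.b') (Nat.mul (f.Lb1 l) l.b))
    (Nat.add (Nat.mul l.M0 l.b') (Nat.mul l.M1 l.b))) f.nw &&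
  Nat.ble (scB (f.A10 l) (f.A11 l) (f.A12 l) f.K0 (f.K21 l) (K22 l)
    (Nat.add (Nat.mul (f.La2 l) l.b') (Nat.mul (f.Lb2 l) l.b))
    (Nat.add (Nat.mul l.M0 l.b') (Nat.mul l.M1 l.b))) f.nw &&
  Nat.ble (relB f.K0 (f.K01 l) (K02 l) (f.La0 l) (Sg.ofSub l.M0 l.N0)) f.nw &&
  Nat.ble (relB f.K0 (f.K11 l) (K12 l) (f.La1 l) (Sg.ofSub l.M0 l.N0)) f.nw &&
  Nat.ble (relB f.K0 (f.K21 l) (K22 l) (f.La2 l) (Sg.ofSub l.M0 l.N0)) f.nw &&
  Nat.ble (relB f.K0 (f.K01 l) (K02 l) (f.Lb0 l) (Sg.ofSub l.M1 l.N1)) f.nw &&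
  Nat.ble (relB f.K0 (f.K11 l) (K12 l) (f.Lb1 l) (Sg.ofSub l.M1 l.N1)) f.nw &&
  Nat.ble (relB f.K0 (f.K21 l) (K22 l) (f.Lb2 l) (Sg.ofSub l.M1 l.N1)) f.nw &&
  f.matB l.a l.b l.k l.L00 l.N0 l.T0 && f.matB l.a l.b l.k' l.L01 l.N0 l.T1 &&
  f.matB l.a' l.b' l.k l.L10 l.N1 l.T2 && f.matB l.a' l.b' l.k' l.L11 l.N1 l.T3

/-- all masks -/
noncomputable def leafN (f : LF6) (W m : ℕ) (outs : List ℕ) (l : L6D) : ℕ :=
  Nat.land (scN f.I W m outs (f.A00 l) (f.A01 l) (f.A02 l) f.K0 (f.K01 l) (K02 l)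
    (Nat.mul (f.La0 l) l.b) (Nat.mul l.M0 l.b)) <|
  Nat.land (scN f.I W m outs (f.A00 l) (f.A01 l) (f.A02 l) f.K0 (f.K11 l) (K12 l)
    (Nat.mul (f.La1 l) l.b) (Nat.mul l.M0 l.b)) <|
  Nat.land (scN f.I W m outs (f.A00 l) (f.A01 l) (f.A02 l) f.K0 (f.K21 l) (K22 l)
    (Nat.mul (f.La2 l) l.b) (Nat.mul l.M0 l.b)) <|
  Nat.land (scN f.I W m outs (f.A20 l) (f.A21 l) (f.A22 l) f.K0 (f.K01 l) (K02 l)
    (Nat.mul (f.Lb0 l) l.b') (Nat.mul l.M1 l.b')) <|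
  Nat.land (scN f.I W m outs (f.A20 l) (f.A21 l) (f.A22 l) f.K0 (f.K11 l) (K12 l)
    (Nat.mul (f.Lb1 l) l.b') (Nat.mul l.M1 l.b')) <|
  Nat.land (scN f.I W m outs (f.A20 l) (f.A21 l) (f.A22 l) f.K0 (f.K21 l) (K22 l)
    (Nat.mul (f.Lb2 l) l.b') (Nat.mul l.M1 l.b')) <|
  Nat.land (scN f.I W m outs (f.A10 l) (f.A11 l) (f.A12 l) f.K0 (f.K01 l) (K02 l)
    (Nat.add (Nat.mul (f.La0 l) l.b') (Nat.mul (f.Lb0 l) l.b))
    (Nat.add (Nat.mul l.M0 l.b') (Nat.mul l.M1 l.b))) <|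
  Nat.land (scN f.I W m outs (f.A10 l) (f.A11 l) (f.A12 l) f.K0 (f.K11 l) (K12 l)
    (Nat.add (Nat.mul (f.La1 l) l.b') (Nat.mul (f.Lb1 l) l.b))
    (Nat.add (Nat.mul l.M0 l.b') (Nat.mul l.M1 l.b))) <|
  Nat.land (scN f.I W m outs (f.A10 l) (f.A11 l) (f.A12 l) f.K0 (f.K21 l) (K22 l)
    (Nat.add (Nat.mul (f.La2 l) l.b') (Nat.mul (f.Lb2 l) l.b))
    (Nat.add (Nat.mul l.M0 l.b') (Nat.mul l.M1 l.b))) <|
  Nat.land (relN f.I W m outs f.K0 (f.K01 l) (K02 l) (f.La0 l) (Sg.ofSub l.M0 l.N0)) <|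
  Nat.land (relN f.I W m outs f.K0 (f.K11 l) (K12 l) (f.La1 l) (Sg.ofSub l.M0 l.N0)) <|
  Nat.land (relN f.I W m outs f.K0 (f.K21 l) (K22 l) (f.La2 l) (Sg.ofSub l.M0 l.N0)) <|
  Nat.land (relN f.I W m outs f.K0 (f.K01 l) (K02 l) (f.Lb0 l) (Sg.ofSub l.M1 l.N1)) <|
  Nat.land (relN f.I W m outs f.K0 (f.K11 l) (K12 l) (f.Lb1 l) (Sg.ofSub l.M1 l.N1)) <|
  Nat.land (relN f.I W m outs f.K0 (f.K21 l) (K22 l) (f.Lb2 l) (Sg.ofSub l.M1 l.N1)) <|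
  Nat.land (f.matN W m outs l.a l.b l.k l.L00 l.N0 l.T0) <|
  Nat.land (f.matN W m outs l.a l.b l.k' l.L01 l.N0 l.T1) <|
  Nat.land (f.matN W m outs l.a' l.b' l.k l.L10 l.N1 l.T2)
    (f.matN W m outs l.a' l.b' l.k' l.L11 l.N1 l.T3)

theorem sel3_eq (x0 x1 x2 y0 y1 y2 : ℝ) (h0 : x0 = y0) (h1 : x1 = y1) (h2 : x2 = y2) :
    sel x0 x1 x2 = sel y0 y1 y2 := by rw [h0, h1, h2]

theorem fun_sel (c0 c1 c2 a0 a1 a2 b0 b1 b2 d0 d1 d2 : ℝ) :
    (fun i => c0 * sel a0 a1 a2 i + c1 * sel b0 b1 b2 i + c2 * sel d0 d1 d2 i) =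
      sel (c0 * a0 + c1 * b0 + c2 * d0) (c0 * a1 + c1 * b1 + c2 * d1)
        (c0 * a2 + c1 * b2 + c2 * d2) := by
  funext i
  match i with
  | 0 => rfl
  | 1 => rfl
  | _ + 2 => rfl

theorem fun_selm (c a0 a1 a2 : ℝ) :
    (fun i => c * sel a0 a1 a2 i) = sel (c * a0) (c * a1) (c * a2) := by
  funext i
  match i with
  | 0 => rfl
  | 1 => rfl
  | _ + 2 => rfl

theorem dl_aux (d s t u v a b c e : ℝ) (hd : 0 < d) :
    d * (s * (u * (a / d) + v * (b / d)) + t * (u * (c / d) + v * (e / d))) =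
      s * (u * a + v * b) + t * (u * c + v * e) := by
  field_simp

theorem dm_aux (d s t a b : ℝ) (hd : 0 < d) : d * (s * (a / d) + t * (b / d)) = s * a + t * b := by
  field_simp

theorem rel_key (I : Id6) (w : ℕ → ℝ) {s t u v k q d k0 k1 L00 L01 L10 L11 M0 M1 N0 N1 lam mu nu : ℝ}
    (hs : 0 ≤ s) (ht : 0 ≤ t) (hu : 0 ≤ u) (hv : 0 ≤ v) (huv : u + v = 1)
    (hk : u * k0 + v * k1 = q * k) (Q : 0 < q) (D : 0 < d)
    (hlam : lam = s * (u * (L00 / d) + v * (L01 / d)) + t * (u * (L10 / d) + v * (L11 / d)))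
    (hmu : mu = s * (M0 / d) + t * (M1 / d)) (hnu : nu = s * (N0 / d) + t * (N1 / d))
    (p1 : 0 ≤ 2 * (q * q) * L00 * w I.r0
      + (M0 - N0) * msV w (sel (2 * q ^ 2) (2 * q * k0) (2 * k0 ^ 2)) I.ss)
    (p2 : 0 ≤ q * q * (L00 + L01) * w I.r0
      + (M0 - N0) * msV w (sel (2 * q ^ 2) (q * (k0 + k1)) (2 * (k0 * k1))) I.ss)
    (p3 : 0 ≤ 2 * (q * q) * L01 * w I.r0
      + (M0 - N0) * msV w (sel (2 * q ^ 2) (2 * q * k1) (2 * k1 ^ 2)) I.ss)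
    (p4 : 0 ≤ 2 * (q * q) * L10 * w I.r0
      + (M1 - N1) * msV w (sel (2 * q ^ 2) (2 * q * k0) (2 * k0 ^ 2)) I.ss)
    (p5 : 0 ≤ q * q * (L10 + L11) * w I.r0
      + (M1 - N1) * msV w (sel (2 * q ^ 2) (q * (k0 + k1)) (2 * (k0 * k1))) I.ss)
    (p6 : 0 ≤ 2 * (q * q) * L11 * w I.r0
      + (M1 - N1) * msV w (sel (2 * q ^ 2) (2 * q * k1) (2 * k1 ^ 2)) I.ss) :
    0 ≤ I.rel w k lam mu nu := by
  have Bm := msV_lin w I.ss (u ^ 2) (2 * u * v) (v ^ 2)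
    (sel (2 * q ^ 2) (2 * q * k0) (2 * k0 ^ 2))
    (sel (2 * q ^ 2) (q * (k0 + k1)) (2 * (k0 * k1)))
    (sel (2 * q ^ 2) (2 * q * k1) (2 * k1 ^ 2))
  rw [fun_sel] at Bm
  have kq : q * k = u * k0 + v * k1 := hk.symm
  have uv2 : (u + v) * (u + v) = 1 := by rw [huv, one_mul]
  have w1 : u ^ 2 * (2 * q ^ 2) + 2 * u * v * (2 * q ^ 2) + v ^ 2 * (2 * q ^ 2)
      = 2 * q ^ 2 * 1 := by rw [← uv2]; ring
  have w2 : u ^ 2 * (2 * q * k0) + 2 * u * v * (q * (k0 + k1)) + v ^ 2 * (2 * q * k1)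
      = 2 * q ^ 2 * k := by
    have : 2 * q ^ 2 * k = 2 * q * ((u + v) * (q * k)) := by rw [huv]; ring
    rw [this, kq]; ring
  have w3 : u ^ 2 * (2 * k0 ^ 2) + 2 * u * v * (2 * (k0 * k1)) + v ^ 2 * (2 * k1 ^ 2)
      = 2 * q ^ 2 * k ^ 2 := by
    have : 2 * q ^ 2 * k ^ 2 = 2 * ((q * k) * (q * k)) := by ring
    rw [this, kq]; ring
  rw [w1, w2, w3, ← fun_selm, msV_mul] at Bm
  have key : d * (2 * q ^ 2) * I.rel w k lam mu nu =
      s * u ^ 2 * (2 * (q * q) * L00 * w I.r0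
        + (M0 - N0) * msV w (sel (2 * q ^ 2) (2 * q * k0) (2 * k0 ^ 2)) I.ss)
      + s * (2 * u * v) * (q * q * (L00 + L01) * w I.r0
        + (M0 - N0) * msV w (sel (2 * q ^ 2) (q * (k0 + k1)) (2 * (k0 * k1))) I.ss)
      + s * v ^ 2 * (2 * (q * q) * L01 * w I.r0
        + (M0 - N0) * msV w (sel (2 * q ^ 2) (2 * q * k1) (2 * k1 ^ 2)) I.ss)
      + t * u ^ 2 * (2 * (q * q) * L10 * w I.r0
        + (M1 - N1) * msV w (sel (2 * q ^ 2) (2 * q * k0) (2 * k0 ^ 2)) I.ss)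
      + t * (2 * u * v) * (q * q * (L10 + L11) * w I.r0
        + (M1 - N1) * msV w (sel (2 * q ^ 2) (q * (k0 + k1)) (2 * (k0 * k1))) I.ss)
      + t * v ^ 2 * (2 * (q * q) * L11 * w I.r0
        + (M1 - N1) * msV w (sel (2 * q ^ 2) (2 * q * k1) (2 * k1 ^ 2)) I.ss) := by
    have hsc : d * (2 * q ^ 2) * I.rel w k lam mu nu =
        (u + v) * (2 * q ^ 2) * (d * lam) * w I.r0
        + (d * (mu - nu)) * (2 * q ^ 2 * msV w (sel 1 k (k ^ 2)) I.ss) := by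
      unfold Id6.rel; rw [huv]; ring
    have dl : d * lam = s * (u * L00 + v * L01) + t * (u * L10 + v * L11) := by
      rw [hlam, dl_aux _ _ _ _ _ _ _ _ _ D]
    have dm : d * (mu - nu) = s * (M0 - N0) + t * (M1 - N1) := by
      rw [mul_sub, hmu, hnu, dm_aux _ _ _ _ _ D, dm_aux _ _ _ _ _ D]; ring
    rw [hsc, Bm, dl, dm]
    ring
  have hpos : 0 ≤ d * (2 * q ^ 2) * I.rel w k lam mu nu := by
    rw [key]
    have huv' := mul_nonneg hu hv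
    positivity
  exact nonneg_of_mul_nonneg_right hpos (by positivity)

theorem leaf_sound (f : LF6) (hV : f.Valid) (h : f.T.fam.okC c = true) (l : L6D)
    (hkk : (l.kk.val : ℝ) = l.k.val + l.k'.val)
    (hT0 : l.T0.le (2 ^ f.kb)) (hT1 : l.T1.le (2 ^ f.kb)) (hT2 : l.T2.le (2 ^ f.kb))
    (hT3 : l.T3.le (2 ^ f.kb)) (hB : f.leafB l = true)
    (hN : Ok f.T.fam.msk (f.leafN f.T.fam.W f.T.fam.msk (f.T.outs f.T.fam.W c) l))
    (x y : ℝ) (hxy : c.In x y)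
    (s t u v p k : ℝ) (hs : 0 ≤ s) (ht : 0 ≤ t) (h1 : s * l.a + t * l.a' = 1)
    (hp : s * l.b + t * l.b' = p) (hu : 0 ≤ u) (hv : 0 ≤ v) (huv : u + v = 1)
    (hk : u * l.k.val + v * l.k'.val = f.kq * k) :
    ∃ lam mu nu : ℝ, 0 ≤ lam ∧ 0 ≤ mu ∧ 0 ≤ nu ∧
      (∀ z1 z2 z3 z4, 0 ≤ f.I.tm.form (f.T.vals x y) ⟨1, p, k, lam, nu⟩ z1 z2 z3 z4) ∧
      0 ≤ f.I.sc (f.T.vals x y) p k lam mu ∧ 0 ≤ f.I.rel (f.T.vals x y) k lam mu nu := by
  obtain ⟨hkq, hld, hpq, hce, hF, hw, hm, hsh, hz, hms, hss⟩ := id hV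
  unfold leafB at hB
  simp only [Bool.and_eq_true, Nat.ble_eq] at hB
  obtain ⟨⟨⟨⟨⟨⟨⟨⟨⟨⟨⟨⟨⟨⟨⟨⟨⟨⟨b1, b2⟩, b3⟩, b4⟩, b5⟩, b6⟩, b7⟩, b8⟩, b9⟩, c1⟩, c2⟩, c3⟩, c4⟩, c5⟩,
    c6⟩, m1⟩, m2⟩, m3⟩, m4⟩ := hB
  unfold leafN at hN
  obtain ⟨g1, hN⟩ := ok_land hN
  obtain ⟨g2, hN⟩ := ok_land hN
  obtain ⟨g3, hN⟩ := ok_land hN
  obtain ⟨g4, hN⟩ := ok_land hN
  obtain ⟨g5, hN⟩ := ok_land hN
  obtain ⟨g6, hN⟩ := ok_land hN
  obtain ⟨g7, hN⟩ := ok_land hN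
  obtain ⟨g8, hN⟩ := ok_land hN
  obtain ⟨g9, hN⟩ := ok_land hN
  obtain ⟨r1, hN⟩ := ok_land hN
  obtain ⟨r2, hN⟩ := ok_land hN
  obtain ⟨r3, hN⟩ := ok_land hN
  obtain ⟨r4, hN⟩ := ok_land hN
  obtain ⟨r5, hN⟩ := ok_land hN
  obtain ⟨r6, hN⟩ := ok_land hN
  obtain ⟨n1, hN⟩ := ok_land hN
  obtain ⟨n2, hN⟩ := ok_land hN
  obtain ⟨n3, n4⟩ := ok_land hN
  have ho := fun i => Tab.rep_outs hF h i
  have hrev := fun i => f.T.rev_pol x y i
  have q1 := scN_sound (C := f.T.fam.ctx c h) ho hw hrev hxy f.I hz hms _ _ _ _ _ _ _ _ b1 g1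
  have q2 := scN_sound (C := f.T.fam.ctx c h) ho hw hrev hxy f.I hz hms _ _ _ _ _ _ _ _ b2 g2
  have q3 := scN_sound (C := f.T.fam.ctx c h) ho hw hrev hxy f.I hz hms _ _ _ _ _ _ _ _ b3 g3
  have q4 := scN_sound (C := f.T.fam.ctx c h) ho hw hrev hxy f.I hz hms _ _ _ _ _ _ _ _ b4 g4
  have q5 := scN_sound (C := f.T.fam.ctx c h) ho hw hrev hxy f.I hz hms _ _ _ _ _ _ _ _ b5 g5
  have q6 := scN_sound (C := f.T.fam.ctx c h) ho hw hrev hxy f.I hz hms _ _ _ _ _ _ _ _ b6 g6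
  have q7 := scN_sound (C := f.T.fam.ctx c h) ho hw hrev hxy f.I hz hms _ _ _ _ _ _ _ _ b7 g7
  have q8 := scN_sound (C := f.T.fam.ctx c h) ho hw hrev hxy f.I hz hms _ _ _ _ _ _ _ _ b8 g8
  have q9 := scN_sound (C := f.T.fam.ctx c h) ho hw hrev hxy f.I hz hms _ _ _ _ _ _ _ _ b9 g9
  have p1 := relN_sound (C := f.T.fam.ctx c h) ho hw hrev hxy f.I hss _ _ _ _ _ c1 r1
  have p2 := relN_sound (C := f.T.fam.ctx c h) ho hw hrev hxy f.I hss _ _ _ _ _ c2 r2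
  have p3 := relN_sound (C := f.T.fam.ctx c h) ho hw hrev hxy f.I hss _ _ _ _ _ c3 r3
  have p4 := relN_sound (C := f.T.fam.ctx c h) ho hw hrev hxy f.I hss _ _ _ _ _ c4 r4
  have p5 := relN_sound (C := f.T.fam.ctx c h) ho hw hrev hxy f.I hss _ _ _ _ _ c5 r5
  have p6 := relN_sound (C := f.T.fam.ctx c h) ho hw hrev hxy f.I hss _ _ _ _ _ c6 r6
  have F1 := mat_sound f hV h _ _ _ _ _ _ hT0 m1 n1 x y hxy
  have F2 := mat_sound f hV h _ _ _ _ _ _ hT1 m2 n2 x y hxy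
  have F3 := mat_sound f hV h _ _ _ _ _ _ hT2 m3 n3 x y hxy
  have F4 := mat_sound f hV h _ _ _ _ _ _ hT3 m4 n4 x y hxy
  clear g1 g2 g3 g4 g5 g6 g7 g8 g9 r1 r2 r3 r4 r5 r6 n1 n2 n3 n4 b1 b2 b3 b4 b5 b6 b7 b8 b9 c1 c2 c3
    c4 c5 c6 m1 m2 m3 m4 hV ho hrev hT0 hT1 hT2 hT3
  have Q : (0 : ℝ) < f.kq := by exact_mod_cast hkq
  have D : (0 : ℝ) < f.ld := by exact_mod_cast hld
  set w := f.T.vals x y
  have hk' : k = (u * l.k.val + v * l.k'.val) / f.kq := by rw [hk]; field_simp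
  -- real values of the weights
  have mulc : ∀ a b : ℕ, ((Nat.mul a b : ℕ) : ℝ) = a * b := fun a b => by
    have : Nat.mul a b = a * b := rfl
    rw [this]; push_cast; ring
  have addc : ∀ a b : ℕ, ((Nat.add a b : ℕ) : ℝ) = a + b := fun a b => by
    have : Nat.add a b = a + b := rfl
    rw [this]; push_cast; ring
  have subc : ∀ a b : ℕ, ((Sg.ofSub a b).val : ℝ) = a - b := fun a b => by
    rw [Sg.val_ofSub]; push_cast; ring
  have e0 : ((f.K0 : ℕ) : ℝ) = 2 * f.kq ^ 2 := by unfold K0; rw [mulc, mulc]; push_cast; ring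
  have e01 : ((f.K01 l).val : ℝ) = 2 * f.kq * l.k.val := by
    unfold K01; rw [Sg.val_nmul]; push_cast; rw [mulc]; push_cast; ring
  have e02 : ((K02 l).val : ℝ) = 2 * l.k.val ^ 2 := by
    unfold K02; rw [Sg.val_nmul, Sg.val_mul]; push_cast; ring
  have e11 : ((f.K11 l).val : ℝ) = f.kq * (l.k.val + l.k'.val) := by
    unfold K11; rw [Sg.val_nmul]; push_cast; rw [hkk]
  have e12 : ((K12 l).val : ℝ) = 2 * (l.k.val * l.k'.val) := by
    unfold K12; rw [Sg.val_nmul, Sg.val_mul]; push_cast; ring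
  have e21 : ((f.K21 l).val : ℝ) = 2 * f.kq * l.k'.val := by
    unfold K21; rw [Sg.val_nmul]; push_cast; rw [mulc]; push_cast; ring
  have e22 : ((K22 l).val : ℝ) = 2 * l.k'.val ^ 2 := by
    unfold K22; rw [Sg.val_nmul, Sg.val_mul]; push_cast; ring
  unfold A00 A01 A02 La0 Q2 at q1
  unfold A00 A01 A02 La1 Q2 at q2
  unfold A00 A01 A02 La2 Q2 at q3
  unfold A20 A21 A22 Lb0 Q2 at q4
  unfold A20 A21 A22 Lb1 Q2 at q5
  unfold A20 A21 A22 Lb2 Q2 at q6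
  unfold A10 A11 A12 La0 Lb0 Q2 at q7
  unfold A10 A11 A12 La1 Lb1 Q2 at q8
  unfold A10 A11 A12 La2 Lb2 Q2 at q9
  unfold La0 Q2 at p1
  unfold La1 Q2 at p2
  unfold La2 Q2 at p3
  unfold Lb0 Q2 at p4
  unfold Lb1 Q2 at p5
  unfold Lb2 Q2 at p6
  simp only [mulc, addc, e0, e01, e02, e11, e12, e21, e22, subc, Nat.cast_ofNat] at q1 q2 q3
  simp only [mulc, addc, e0, e01, e02, e11, e12, e21, e22, subc, Nat.cast_ofNat] at q4 q5 q6
  simp only [mulc, addc, e0, e01, e02, e11, e12, e21, e22, subc, Nat.cast_ofNat] at q7 q8 q9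
  simp only [mulc, addc, e0, e01, e02, e11, e12, e21, e22, subc, Nat.cast_ofNat] at p1 p2 p3
  simp only [mulc, addc, e0, e01, e02, e11, e12, e21, e22, subc, Nat.cast_ofNat] at p4 p5 p6
  generalize (l.k.val : ℝ) = k0 at *
  generalize (l.k'.val : ℝ) = k1 at *
  generalize (l.kk.val : ℝ) = kk at *
  generalize hqq : (f.kq : ℝ) = q at *
  generalize hdd : (f.ld : ℝ) = d at *
  generalize (l.a : ℝ) = a at *
  generalize (l.b : ℝ) = b at *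
  generalize (l.a' : ℝ) = a' at *
  generalize (l.b' : ℝ) = b' at *
  have c1 : (0 : ℝ) ≤ l.L00 := Nat.cast_nonneg _
  have c2 : (0 : ℝ) ≤ l.L01 := Nat.cast_nonneg _
  have c3 : (0 : ℝ) ≤ l.L10 := Nat.cast_nonneg _
  have c4 : (0 : ℝ) ≤ l.L11 := Nat.cast_nonneg _
  have c5 : (0 : ℝ) ≤ l.M0 := Nat.cast_nonneg _
  have c6 : (0 : ℝ) ≤ l.M1 := Nat.cast_nonneg _
  have c7 : (0 : ℝ) ≤ l.N0 := Nat.cast_nonneg _
  have c8 : (0 : ℝ) ≤ l.N1 := Nat.cast_nonneg _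
  generalize (l.L00 : ℝ) = L00 at *
  generalize (l.L01 : ℝ) = L01 at *
  generalize (l.L10 : ℝ) = L10 at *
  generalize (l.L11 : ℝ) = L11 at *
  generalize (l.M0 : ℝ) = M0 at *
  generalize (l.M1 : ℝ) = M1 at *
  generalize (l.N0 : ℝ) = N0 at *
  generalize (l.N1 : ℝ) = N1 at *
  set lam : ℝ := s * (u * (L00 / d) + v * (L01 / d)) + t * (u * (L10 / d) + v * (L11 / d))
    with hlam
  set mu : ℝ := s * (M0 / d) + t * (M1 / d) with hmu
  set nu : ℝ := s * (N0 / d) + t * (N1 / d) with hnu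
  refine ⟨lam, mu, nu, by positivity, by positivity, by positivity, ?_, ?_, ?_⟩
  · intro z1 z2 z3 z4
    have G1 := F1 z1 z2 z3 z4
    have G2 := F2 z1 z2 z3 z4
    have G3 := F3 z1 z2 z3 z4
    have G4 := F4 z1 z2 z3 z4
    have E1 := form_lin f.I.tm w u v a b (a * (k0 / q)) (L00 / d) (N0 / d) a b (a * (k1 / q))
      (L01 / d) (N0 / d) z1 z2 z3 z4
    have E2 := form_lin f.I.tm w u v a' b' (a' * (k0 / q)) (L10 / d) (N1 / d) a' b'
      (a' * (k1 / q)) (L11 / d) (N1 / d) z1 z2 z3 z4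
    have E3 := form_lin f.I.tm w s t a b (a * k) (u * (L00 / d) + v * (L01 / d)) (N0 / d) a' b'
      (a' * k) (u * (L10 / d) + v * (L11 / d)) (N1 / d) z1 z2 z3 z4
    have x1 : u * a + v * a = a := by rw [← add_mul, huv, one_mul]
    have x2 : u * b + v * b = b := by rw [← add_mul, huv, one_mul]
    have x3 : u * a' + v * a' = a' := by rw [← add_mul, huv, one_mul]
    have x4 : u * b' + v * b' = b' := by rw [← add_mul, huv, one_mul]
    have x5 : u * (a * (k0 / q)) + v * (a * (k1 / q)) = a * k := by rw [hk']; field_simp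
    have x6 : u * (a' * (k0 / q)) + v * (a' * (k1 / q)) = a' * k := by rw [hk']; field_simp
    have x7 : u * (N0 / d) + v * (N0 / d) = N0 / d := by rw [← add_mul, huv, one_mul]
    have x8 : u * (N1 / d) + v * (N1 / d) = N1 / d := by rw [← add_mul, huv, one_mul]
    have x9 : s * (a * k) + t * (a' * k) = k := by
      have : s * (a * k) + t * (a' * k) = (s * a + t * a') * k := by ring
      rw [this, h1, one_mul]
    rw [x1, x2, x5, x7] at E1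
    rw [x3, x4, x6, x8] at E2
    rw [h1, hp, x9] at E3
    rw [← hlam, ← hnu] at E3
    rw [E3, E1, E2]
    positivity
  · have B := zsV_bilin w f.I.zs (s ^ 2) (s * t) (t ^ 2) (u ^ 2) (2 * u * v) (v ^ 2)
      (sel (d * (a * a)) (d * (a * b)) (d * (b * b)))
      (sel (d * (2 * (a * a'))) (d * (a * b' + a' * b)) (d * (2 * (b * b'))))
      (sel (d * (a' * a')) (d * (a' * b')) (d * (b' * b')))
      (sel (2 * q ^ 2) (2 * q * k0) (2 * k0 ^ 2))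
      (sel (2 * q ^ 2) (q * (k0 + k1)) (2 * (k0 * k1)))
      (sel (2 * q ^ 2) (2 * q * k1) (2 * k1 ^ 2))
    have Bm := msV_lin w f.I.ms (u ^ 2) (2 * u * v) (v ^ 2)
      (sel (2 * q ^ 2) (2 * q * k0) (2 * k0 ^ 2))
      (sel (2 * q ^ 2) (q * (k0 + k1)) (2 * (k0 * k1)))
      (sel (2 * q ^ 2) (2 * q * k1) (2 * k1 ^ 2))
    rw [fun_sel, fun_sel] at B
    rw [fun_sel] at Bm
    have y1 : (s * a + t * a') * (s * a + t * a') = 1 := by rw [h1, one_mul]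
    have y2 : (s * a + t * a') * (s * b + t * b') = p := by rw [h1, hp, one_mul]
    have y3 : (s * b + t * b') * (s * b + t * b') = p ^ 2 := by rw [hp]; ring
    have kq : q * k = u * k0 + v * k1 := hk.symm
    have z1 : s ^ 2 * (d * (a * a)) + s * t * (d * (2 * (a * a'))) + t ^ 2 * (d * (a' * a'))
        = d * 1 := by rw [← y1]; ring
    have z2 : s ^ 2 * (d * (a * b)) + s * t * (d * (a * b' + a' * b)) + t ^ 2 * (d * (a' * b'))
        = d * p := by rw [← y2]; ring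
    have z3 : s ^ 2 * (d * (b * b)) + s * t * (d * (2 * (b * b'))) + t ^ 2 * (d * (b' * b'))
        = d * p ^ 2 := by rw [← y3]; ring
    have uv2 : (u + v) * (u + v) = 1 := by rw [huv, one_mul]
    have w1 : u ^ 2 * (2 * q ^ 2) + 2 * u * v * (2 * q ^ 2) + v ^ 2 * (2 * q ^ 2)
        = 2 * q ^ 2 * 1 := by rw [← uv2]; ring
    have w2 : u ^ 2 * (2 * q * k0) + 2 * u * v * (q * (k0 + k1)) + v ^ 2 * (2 * q * k1)
        = 2 * q ^ 2 * k := by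
      have : 2 * q ^ 2 * k = 2 * q * ((u + v) * (q * k)) := by rw [huv]; ring
      rw [this, kq]; ring
    have w3 : u ^ 2 * (2 * k0 ^ 2) + 2 * u * v * (2 * (k0 * k1)) + v ^ 2 * (2 * k1 ^ 2)
        = 2 * q ^ 2 * k ^ 2 := by
      have : 2 * q ^ 2 * k ^ 2 = 2 * ((q * k) * (q * k)) := by ring
      rw [this, kq]; ring
    rw [z1, z2, z3, w1, w2, w3, ← fun_selm, ← fun_selm, zsV_mul] at B
    rw [w1, w2, w3, ← fun_selm, msV_mul] at Bm
    have key : d * (2 * q ^ 2) * f.I.sc w p k lam mu =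
        s ^ 2 * u ^ 2 * (zsV w (sel (d * (a * a)) (d * (a * b)) (d * (b * b)))
            (sel (2 * q ^ 2) (2 * q * k0) (2 * k0 ^ 2)) f.I.zs
          - 2 * (q * q) * L00 * b * w f.I.zl
          - M0 * b * msV w (sel (2 * q ^ 2) (2 * q * k0) (2 * k0 ^ 2)) f.I.ms)
        + s ^ 2 * (2 * u * v) * (zsV w (sel (d * (a * a)) (d * (a * b)) (d * (b * b)))
            (sel (2 * q ^ 2) (q * (k0 + k1)) (2 * (k0 * k1))) f.I.zs
          - q * q * (L00 + L01) * b * w f.I.zl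
          - M0 * b * msV w (sel (2 * q ^ 2) (q * (k0 + k1)) (2 * (k0 * k1))) f.I.ms)
        + s ^ 2 * v ^ 2 * (zsV w (sel (d * (a * a)) (d * (a * b)) (d * (b * b)))
            (sel (2 * q ^ 2) (2 * q * k1) (2 * k1 ^ 2)) f.I.zs
          - 2 * (q * q) * L01 * b * w f.I.zl
          - M0 * b * msV w (sel (2 * q ^ 2) (2 * q * k1) (2 * k1 ^ 2)) f.I.ms)
        + t ^ 2 * u ^ 2 * (zsV w (sel (d * (a' * a')) (d * (a' * b')) (d * (b' * b')))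
            (sel (2 * q ^ 2) (2 * q * k0) (2 * k0 ^ 2)) f.I.zs
          - 2 * (q * q) * L10 * b' * w f.I.zl
          - M1 * b' * msV w (sel (2 * q ^ 2) (2 * q * k0) (2 * k0 ^ 2)) f.I.ms)
        + t ^ 2 * (2 * u * v) * (zsV w (sel (d * (a' * a')) (d * (a' * b')) (d * (b' * b')))
            (sel (2 * q ^ 2) (q * (k0 + k1)) (2 * (k0 * k1))) f.I.zs
          - q * q * (L10 + L11) * b' * w f.I.zl
          - M1 * b' * msV w (sel (2 * q ^ 2) (q * (k0 + k1)) (2 * (k0 * k1))) f.I.ms)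
        + t ^ 2 * v ^ 2 * (zsV w (sel (d * (a' * a')) (d * (a' * b')) (d * (b' * b')))
            (sel (2 * q ^ 2) (2 * q * k1) (2 * k1 ^ 2)) f.I.zs
          - 2 * (q * q) * L11 * b' * w f.I.zl
          - M1 * b' * msV w (sel (2 * q ^ 2) (2 * q * k1) (2 * k1 ^ 2)) f.I.ms)
        + s * t * u ^ 2 * (zsV w (sel (d * (2 * (a * a'))) (d * (a * b' + a' * b))
              (d * (2 * (b * b')))) (sel (2 * q ^ 2) (2 * q * k0) (2 * k0 ^ 2)) f.I.zs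
          - (2 * (q * q) * L00 * b' + 2 * (q * q) * L10 * b) * w f.I.zl
          - (M0 * b' + M1 * b) * msV w (sel (2 * q ^ 2) (2 * q * k0) (2 * k0 ^ 2)) f.I.ms)
        + s * t * (2 * u * v) * (zsV w (sel (d * (2 * (a * a'))) (d * (a * b' + a' * b))
              (d * (2 * (b * b')))) (sel (2 * q ^ 2) (q * (k0 + k1)) (2 * (k0 * k1))) f.I.zs
          - (q * q * (L00 + L01) * b' + q * q * (L10 + L11) * b) * w f.I.zl
          - (M0 * b' + M1 * b)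
            * msV w (sel (2 * q ^ 2) (q * (k0 + k1)) (2 * (k0 * k1))) f.I.ms)
        + s * t * v ^ 2 * (zsV w (sel (d * (2 * (a * a'))) (d * (a * b' + a' * b))
              (d * (2 * (b * b')))) (sel (2 * q ^ 2) (2 * q * k1) (2 * k1 ^ 2)) f.I.zs
          - (2 * (q * q) * L01 * b' + 2 * (q * q) * L11 * b) * w f.I.zl
          - (M0 * b' + M1 * b) * msV w (sel (2 * q ^ 2) (2 * q * k1) (2 * k1 ^ 2)) f.I.ms) := by
      have hsc : d * (2 * q ^ 2) * f.I.sc w p k lam mu =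
          d * (2 * q ^ 2) * zsV w (sel 1 p (p ^ 2)) (sel 1 k (k ^ 2)) f.I.zs
          - (u + v) * (2 * q ^ 2) * (d * lam) * p * w f.I.zl
          - (d * mu) * p * (2 * q ^ 2 * msV w (sel 1 k (k ^ 2)) f.I.ms) := by
        unfold Id6.sc; rw [huv]; ring
      have dl : d * lam = s * (u * L00 + v * L01) + t * (u * L10 + v * L11) := by
        rw [hlam]; field_simp
      have dm : d * mu = s * M0 + t * M1 := by rw [hmu]; field_simp
      rw [hsc, B, Bm, dl, dm, ← hp]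
      ring
    have hpos : 0 ≤ d * (2 * q ^ 2) * f.I.sc w p k lam mu := by
      rw [key]
      push_cast at q1 q2 q3 q4 q5 q6 q7 q8 q9
      have hst := mul_nonneg hs ht
      have huv' := mul_nonneg hu hv
      positivity
    exact nonneg_of_mul_nonneg_right hpos (by positivity)
  · exact rel_key f.I w hs ht hu hv huv hk Q D hlam hmu hnu p1 p2 p3 p4 p5 p6

end LF6

end Vale.Agent.P211.H237
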