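import Vale.Agent.P211.H237.Core7

/-!
Leaves and subdivision trees in four variables with the control matrix test and a profile
polynomial.
-/

namespace Vale.Agent.P211.H237

open MvPolynomial

variable {F : Fam} {c : CellP} {C : Ctx F c}

/-- a format together with a profile -/
structure LF7 where
  f : LF6
  u : List (List Sg)
  ps : List ℕ
  /-- index of the profile -/
  iu : ℕ

namespace LF7

def P (g : LF7) : PT := ⟨g.f.T, g.u, g.ps⟩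

/-- one matrix -/
noncomputable def sylM (f : LF6) (W m K B Z H hc n : ℕ) (outs : List ℕ) (a b : ℕ) (k : Sg)
    (L N : ℕ) : Bool :=
  Bool.rec false (syl4 W m K B Z H hc n (f.I.tm.mat W outs (f.wt a b k L N)))
    (Nat.ble (wtB (f.wt a b k L N)) f.nm)

theorem sylM_sound (f : LF6) (hkq : 0 < f.kq) (hld : 0 < f.ld) (hs : f.I.tm.short = true)
    {outs : List ℕ} {pol : ℕ → MP} {n0 : ℕ} (ho : ∀ i, Rep C (outs.getD i 0) (pol i) n0)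
    (hn : 8 * f.nm * n0 * (F.nx ^ F.D * F.ny ^ F.E) < 2 ^ F.β)
    {w : ℕ → ℝ} {x y : ℝ} (hw : ∀ i, rev x y (pol i) = w i) (a b : ℕ) (k : Sg) (L N : ℕ)
    (h : sylM f F.W F.msk (F.β + 1) (2 ^ (F.β + 1)) F.Zs F.Hs (F.Zs - 2 ^ F.β)
      ((F.D + 1) * (F.E + 1)) outs a b k L N = true) (hxy : c.In x y) (z1 z2 z3 z4 : ℝ) :
    0 ≤ f.I.tm.form w ⟨a, b, a * (k.val / f.kq), L / f.ld, N / f.ld⟩ z1 z2 z3 z4 := by
  unfold sylM at h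
  obtain ⟨hb, hq⟩ := brec' h
  have hb' := Nat.le_of_ble_eq_true hb
  have hs' := hs
  unfold Tm.short at hs'
  simp only [Bool.and_eq_true, Nat.ble_eq] at hs'
  obtain ⟨⟨⟨⟨⟨⟨⟨⟨⟨l1, l2⟩, l3⟩, l4⟩, l5⟩, l6⟩, l7⟩, l8⟩, l9⟩, l10⟩ := hs'
  have key := syl4_sound (C := C) (n := 8 * f.nm * n0)
    (q := f.I.tm.mat F.W outs (f.wt a b k L N))
    (rep_entN ho _ f.I.tm.a11 l1 hb') (rep_entN ho _ f.I.tm.a12 l2 hb')
    (rep_entN ho _ f.I.tm.a13 l3 hb')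
    (rep_entN ho _ f.I.tm.a14 l4 hb') (rep_entN ho _ f.I.tm.a22 l5 hb')
    (rep_entN ho _ f.I.tm.a23 l6 hb')
    (rep_entN ho _ f.I.tm.a24 l7 hb') (rep_entN ho _ f.I.tm.a33 l8 hb')
    (rep_entN ho _ f.I.tm.a34 l9 hb')
    (rep_entN ho _ f.I.tm.a44 l10 hb') hn hq x y hxy z1 z2 z3 z4
  simp only [rev_ls hw, lsR_ent] at key
  have key' : 0 ≤ f.I.tm.form w ⟨(f.wt a b k L N).c.val, (f.wt a b k L N).p.val,
      (f.wt a b k L N).k.val, (f.wt a b k L N).l.val, (f.wt a b k L N).n.val⟩ z1 z2 z3 z4 := key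
  rw [LF6.wt_form f _ a b k L N hkq hld] at key'
  have h1 : (0 : ℝ) < f.kq := by exact_mod_cast hkq
  have h2 : (0 : ℝ) < f.ld := by exact_mod_cast hld
  exact nonneg_of_mul_nonneg_right key' (by positivity)

/-- the bounds of the scalar weights -/
noncomputable def leafB (f : LF6) (l : L6D) : Bool :=
  Nat.ble (scB (f.A00 l) (f.A01 l) (f.A02 l) f.K0 (f.K01 l) (LF6.K02 l)
    (Nat.mul (f.La0 l) l.b) (Nat.mul l.M0 l.b)) f.nw &&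
  Nat.ble (scB (f.A00 l) (f.A01 l) (f.A02 l) f.K0 (f.K11 l) (LF6.K12 l)
    (Nat.mul (f.La1 l) l.b) (Nat.mul l.M0 l.b)) f.nw &&
  Nat.ble (scB (f.A00 l) (f.A01 l) (f.A02 l) f.K0 (f.K21 l) (LF6.K22 l)
    (Nat.mul (f.La2 l) l.b) (Nat.mul l.M0 l.b)) f.nw &&
  Nat.ble (scB (f.A20 l) (f.A21 l) (f.A22 l) f.K0 (f.K01 l) (LF6.K02 l)
    (Nat.mul (f.Lb0 l) l.b') (Nat.mul l.M1 l.b')) f.nw &&
  Nat.ble (scB (f.A20 l) (f.A21 l) (f.A22 l) f.K0 (f.K11 l) (LF6.K12 l)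
    (Nat.mul (f.Lb1 l) l.b') (Nat.mul l.M1 l.b')) f.nw &&
  Nat.ble (scB (f.A20 l) (f.A21 l) (f.A22 l) f.K0 (f.K21 l) (LF6.K22 l)
    (Nat.mul (f.Lb2 l) l.b') (Nat.mul l.M1 l.b')) f.nw &&
  Nat.ble (scB (f.A10 l) (f.A11 l) (f.A12 l) f.K0 (f.K01 l) (LF6.K02 l)
    (Nat.add (Nat.mul (f.La0 l) l.b') (Nat.mul (f.Lb0 l) l.b))
    (Nat.add (Nat.mul l.M0 l.b') (Nat.mul l.M1 l.b))) f.nw &&
  Nat.ble (scB (f.A10 l) (f.A11 l) (f.A12 l) f.K0 (f.K11 l) (LF6.K12 l)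
    (Nat.add (Nat.mul (f.La1 l) l.b') (Nat.mul (f.Lb1 l) l.b))
    (Nat.add (Nat.mul l.M0 l.b') (Nat.mul l.M1 l.b))) f.nw &&
  Nat.ble (scB (f.A10 l) (f.A11 l) (f.A12 l) f.K0 (f.K21 l) (LF6.K22 l)
    (Nat.add (Nat.mul (f.La2 l) l.b') (Nat.mul (f.Lb2 l) l.b))
    (Nat.add (Nat.mul l.M0 l.b') (Nat.mul l.M1 l.b))) f.nw &&
  Nat.ble (relB f.K0 (f.K01 l) (LF6.K02 l) (f.La0 l) (Sg.ofSub l.M0 l.N0)) f.nw &&
  Nat.ble (relB f.K0 (f.K11 l) (LF6.K12 l) (f.La1 l) (Sg.ofSub l.M0 l.N0)) f.nw &&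
  Nat.ble (relB f.K0 (f.K21 l) (LF6.K22 l) (f.La2 l) (Sg.ofSub l.M0 l.N0)) f.nw &&
  Nat.ble (relB f.K0 (f.K01 l) (LF6.K02 l) (f.Lb0 l) (Sg.ofSub l.M1 l.N1)) f.nw &&
  Nat.ble (relB f.K0 (f.K11 l) (LF6.K12 l) (f.Lb1 l) (Sg.ofSub l.M1 l.N1)) f.nw &&
  Nat.ble (relB f.K0 (f.K21 l) (LF6.K22 l) (f.Lb2 l) (Sg.ofSub l.M1 l.N1)) f.nw

/-- all masks -/
noncomputable def leafN (f : LF6) (W m : ℕ) (outs : List ℕ) (l : L6D) (iu : ℕ) : ℕ :=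
  Nat.land (H237.mk W m (nth outs iu)) <|
  Nat.land (scN f.I W m outs (f.A00 l) (f.A01 l) (f.A02 l) f.K0 (f.K01 l) (LF6.K02 l)
    (Nat.mul (f.La0 l) l.b) (Nat.mul l.M0 l.b)) <|
  Nat.land (scN f.I W m outs (f.A00 l) (f.A01 l) (f.A02 l) f.K0 (f.K11 l) (LF6.K12 l)
    (Nat.mul (f.La1 l) l.b) (Nat.mul l.M0 l.b)) <|
  Nat.land (scN f.I W m outs (f.A00 l) (f.A01 l) (f.A02 l) f.K0 (f.K21 l) (LF6.K22 l)
    (Nat.mul (f.La2 l) l.b) (Nat.mul l.M0 l.b)) <|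
  Nat.land (scN f.I W m outs (f.A20 l) (f.A21 l) (f.A22 l) f.K0 (f.K01 l) (LF6.K02 l)
    (Nat.mul (f.Lb0 l) l.b') (Nat.mul l.M1 l.b')) <|
  Nat.land (scN f.I W m outs (f.A20 l) (f.A21 l) (f.A22 l) f.K0 (f.K11 l) (LF6.K12 l)
    (Nat.mul (f.Lb1 l) l.b') (Nat.mul l.M1 l.b')) <|
  Nat.land (scN f.I W m outs (f.A20 l) (f.A21 l) (f.A22 l) f.K0 (f.K21 l) (LF6.K22 l)
    (Nat.mul (f.Lb2 l) l.b') (Nat.mul l.M1 l.b')) <|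
  Nat.land (scN f.I W m outs (f.A10 l) (f.A11 l) (f.A12 l) f.K0 (f.K01 l) (LF6.K02 l)
    (Nat.add (Nat.mul (f.La0 l) l.b') (Nat.mul (f.Lb0 l) l.b))
    (Nat.add (Nat.mul l.M0 l.b') (Nat.mul l.M1 l.b))) <|
  Nat.land (scN f.I W m outs (f.A10 l) (f.A11 l) (f.A12 l) f.K0 (f.K11 l) (LF6.K12 l)
    (Nat.add (Nat.mul (f.La1 l) l.b') (Nat.mul (f.Lb1 l) l.b))
    (Nat.add (Nat.mul l.M0 l.b') (Nat.mul l.M1 l.b))) <|
  Nat.land (scN f.I W m outs (f.A10 l) (f.A11 l) (f.A12 l) f.K0 (f.K21 l) (LF6.K22 l)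
    (Nat.add (Nat.mul (f.La2 l) l.b') (Nat.mul (f.Lb2 l) l.b))
    (Nat.add (Nat.mul l.M0 l.b') (Nat.mul l.M1 l.b))) <|
  Nat.land (relN f.I W m outs f.K0 (f.K01 l) (LF6.K02 l) (f.La0 l) (Sg.ofSub l.M0 l.N0)) <|
  Nat.land (relN f.I W m outs f.K0 (f.K11 l) (LF6.K12 l) (f.La1 l) (Sg.ofSub l.M0 l.N0)) <|
  Nat.land (relN f.I W m outs f.K0 (f.K21 l) (LF6.K22 l) (f.La2 l) (Sg.ofSub l.M0 l.N0)) <|
  Nat.land (relN f.I W m outs f.K0 (f.K01 l) (LF6.K02 l) (f.Lb0 l) (Sg.ofSub l.M1 l.N1)) <|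
  Nat.land (relN f.I W m outs f.K0 (f.K11 l) (LF6.K12 l) (f.Lb1 l) (Sg.ofSub l.M1 l.N1))
    (relN f.I W m outs f.K0 (f.K21 l) (LF6.K22 l) (f.Lb2 l) (Sg.ofSub l.M1 l.N1))

/-- the check of a leaf with given outputs -/
noncomputable def leafS (f : LF6) (iu W m K B Z H hc n : ℕ) (outs : List ℕ) (l : L6D) : Bool :=
  leafB f l && (Nat.beq (Nat.land (leafN f W m outs l iu) m) m &&
    (sylM f W m K B Z H hc n outs l.a l.b l.k l.L00 l.N0 &&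
    (sylM f W m K B Z H hc n outs l.a l.b l.k' l.L01 l.N0 &&
    (sylM f W m K B Z H hc n outs l.a' l.b' l.k l.L10 l.N1 &&
    sylM f W m K B Z H hc n outs l.a' l.b' l.k' l.L11 l.N1))))

/-- evaluate a list of numbers before calling `k` -/
noncomputable def forceL (l : List ℕ) : (List ℕ → Bool) → Bool :=
  List.rec (motive := fun _ => (List ℕ → Bool) → Bool) (fun k => k [])
    (fun a _ ih k => frc a fun a' => ih fun l => k (a' :: l)) l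

theorem forceL_eq (l : List ℕ) : ∀ k : List ℕ → Bool, forceL l k = k l := by
  induction l with
  | nil => intro k; rfl
  | cons a l ih =>
    intro k
    show frc a (fun a' => forceL l fun l => k (a' :: l)) = _
    rw [frc_eq, ih]

/-- validity of a format -/
def Valid (g : LF7) : Prop :=
  0 < g.f.kq ∧ 0 < g.f.ld ∧ 0 < g.f.pq ∧ 0 < g.f.ce ∧ g.P.okP = true ∧
    g.f.nw * g.f.T.n0 * (g.f.T.nx ^ g.f.T.D * g.f.T.ny ^ g.f.T.E) < 2 ^ g.f.T.β ∧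
    8 * g.f.nm * g.f.T.n0 * (g.f.T.nx ^ g.f.T.D * g.f.T.ny ^ g.f.T.E) < 2 ^ g.f.T.β ∧
    1 ≤ g.f.nw ∧
    g.f.I.tm.short = true ∧ g.f.I.zs.length ≤ 16 ∧ g.f.I.ms.length ≤ 16 ∧ g.f.I.ss.length ≤ 16

instance (g : LF7) : Decidable g.Valid := by unfold Valid; infer_instance

theorem leafS_sound (g : LF7) (hV : g.Valid) (h : g.f.T.fam.okC c = true) (l : L6D)
    (hkk : (l.kk.val : ℝ) = l.k.val + l.k'.val)
    (hN : leafS g.f g.iu g.f.T.fam.W g.f.T.fam.msk (g.f.T.fam.β + 1) (2 ^ (g.f.T.fam.β + 1))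
      g.f.T.fam.Zs g.f.T.fam.Hs (g.f.T.fam.Zs - 2 ^ g.f.T.fam.β)
      ((g.f.T.fam.D + 1) * (g.f.T.fam.E + 1)) (g.P.outs g.f.T.fam.W c) l = true)
    (x y : ℝ) (hxy : c.In x y)
    (s t u v p k : ℝ) (hs : 0 ≤ s) (ht : 0 ≤ t) (h1 : s * l.a + t * l.a' = 1)
    (hp : s * l.b + t * l.b' = p) (hu : 0 ≤ u) (hv : 0 ≤ v) (huv : u + v = 1)
    (hk : u * l.k.val + v * l.k'.val = g.f.kq * k) :
    0 ≤ g.P.vals x y g.iu ∧ ∃ lam mu nu : ℝ, 0 ≤ lam ∧ 0 ≤ mu ∧ 0 ≤ nu ∧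
      (∀ z1 z2 z3 z4, 0 ≤ g.f.I.tm.form (g.P.vals x y) ⟨1, p, k, lam, nu⟩ z1 z2 z3 z4) ∧
      0 ≤ g.f.I.sc (g.P.vals x y) p k lam mu ∧ 0 ≤ g.f.I.rel (g.P.vals x y) k lam mu nu := by
  obtain ⟨hkq, hld, hpq, hce, hP, hw, hm, hn1, hsh, hz, hms, hss⟩ := hV
  unfold leafS at hN
  rw [Bool.and_eq_true, Bool.and_eq_true, Bool.and_eq_true, Bool.and_eq_true,
    Bool.and_eq_true] at hN
  obtain ⟨hB, hM, m1, m2, m3, m4⟩ := hN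
  have hM' : Ok g.f.T.fam.msk (leafN g.f g.f.T.fam.W g.f.T.fam.msk (g.P.outs g.f.T.fam.W c) l g.iu) :=
    Nat.eq_of_beq_eq_true hM
  unfold leafB at hB
  simp only [Bool.and_eq_true, Nat.ble_eq] at hB
  obtain ⟨⟨⟨⟨⟨⟨⟨⟨⟨⟨⟨⟨⟨⟨b1, b2⟩, b3⟩, b4⟩, b5⟩, b6⟩, b7⟩, b8⟩, b9⟩, c1⟩, c2⟩, c3⟩, c4⟩, c5⟩,
    c6⟩ := hB
  unfold leafN at hM'
  obtain ⟨g0, hM'⟩ := ok_land hM'
  obtain ⟨g1, hM'⟩ := ok_land hM'
  obtain ⟨g2, hM'⟩ := ok_land hM'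
  obtain ⟨g3, hM'⟩ := ok_land hM'
  obtain ⟨g4, hM'⟩ := ok_land hM'
  obtain ⟨g5, hM'⟩ := ok_land hM'
  obtain ⟨g6, hM'⟩ := ok_land hM'
  obtain ⟨g7, hM'⟩ := ok_land hM'
  obtain ⟨g8, hM'⟩ := ok_land hM'
  obtain ⟨g9, hM'⟩ := ok_land hM'
  obtain ⟨r1, hM'⟩ := ok_land hM'
  obtain ⟨r2, hM'⟩ := ok_land hM'
  obtain ⟨r3, hM'⟩ := ok_land hM'
  obtain ⟨r4, hM'⟩ := ok_land hM'
  obtain ⟨r5, r6⟩ := ok_land hM'
  have ho : ∀ i, Rep (g.f.T.fam.ctx c h) ((g.P.outs g.f.T.fam.W c).getD i 0) (g.P.pol i)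
    g.f.T.n0 := fun i => PT.rep_outs (P := g.P) hP h i
  have hrev := fun i => g.P.rev_pol x y i
  refine ⟨?_, ?_⟩
  · rw [← hrev]
    have h2 := (ho g.iu).up
    rw [← nth_eq] at h2
    refine h2.nonneg (lt_of_le_of_lt (Nat.mul_le_mul_right _ ?_) hw) (by rfl) g0 x y hxy
    calc g.f.T.n0 = 1 * g.f.T.n0 := (Nat.one_mul _).symm
      _ ≤ g.f.nw * g.f.T.n0 := Nat.mul_le_mul_right _ hn1
  · exact LF6.leaf_core g.f hkq hld l hkk (g.P.vals x y)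
      (fun z1 z2 z3 z4 => sylM_sound (C := g.f.T.fam.ctx c h) g.f hkq hld hsh ho hm hrev _ _ _ _ _
        m1 hxy z1 z2 z3 z4)
      (fun z1 z2 z3 z4 => sylM_sound (C := g.f.T.fam.ctx c h) g.f hkq hld hsh ho hm hrev _ _ _ _ _
        m2 hxy z1 z2 z3 z4)
      (fun z1 z2 z3 z4 => sylM_sound (C := g.f.T.fam.ctx c h) g.f hkq hld hsh ho hm hrev _ _ _ _ _
        m3 hxy z1 z2 z3 z4)
      (fun z1 z2 z3 z4 => sylM_sound (C := g.f.T.fam.ctx c h) g.f hkq hld hsh ho hm hrev _ _ _ _ _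
        m4 hxy z1 z2 z3 z4)
      (scN_sound (C := g.f.T.fam.ctx c h) ho hw hrev hxy g.f.I hz hms _ _ _ _ _ _ _ _ b1 g1)
      (scN_sound (C := g.f.T.fam.ctx c h) ho hw hrev hxy g.f.I hz hms _ _ _ _ _ _ _ _ b2 g2)
      (scN_sound (C := g.f.T.fam.ctx c h) ho hw hrev hxy g.f.I hz hms _ _ _ _ _ _ _ _ b3 g3)
      (scN_sound (C := g.f.T.fam.ctx c h) ho hw hrev hxy g.f.I hz hms _ _ _ _ _ _ _ _ b4 g4)
      (scN_sound (C := g.f.T.fam.ctx c h) ho hw hrev hxy g.f.I hz hms _ _ _ _ _ _ _ _ b5 g5)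
      (scN_sound (C := g.f.T.fam.ctx c h) ho hw hrev hxy g.f.I hz hms _ _ _ _ _ _ _ _ b6 g6)
      (scN_sound (C := g.f.T.fam.ctx c h) ho hw hrev hxy g.f.I hz hms _ _ _ _ _ _ _ _ b7 g7)
      (scN_sound (C := g.f.T.fam.ctx c h) ho hw hrev hxy g.f.I hz hms _ _ _ _ _ _ _ _ b8 g8)
      (scN_sound (C := g.f.T.fam.ctx c h) ho hw hrev hxy g.f.I hz hms _ _ _ _ _ _ _ _ b9 g9)
      (relN_sound (C := g.f.T.fam.ctx c h) ho hw hrev hxy g.f.I hss _ _ _ _ _ c1 r1)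
      (relN_sound (C := g.f.T.fam.ctx c h) ho hw hrev hxy g.f.I hss _ _ _ _ _ c2 r2)
      (relN_sound (C := g.f.T.fam.ctx c h) ho hw hrev hxy g.f.I hss _ _ _ _ _ c3 r3)
      (relN_sound (C := g.f.T.fam.ctx c h) ho hw hrev hxy g.f.I hss _ _ _ _ _ c4 r4)
      (relN_sound (C := g.f.T.fam.ctx c h) ho hw hrev hxy g.f.I hss _ _ _ _ _ c5 r5)
      (relN_sound (C := g.f.T.fam.ctx c h) ho hw hrev hxy g.f.I hss _ _ _ _ _ c6 r6)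
      s t u v p k hs ht h1 hp hu hv huv hk

end LF7

end Vale.Agent.P211.H237
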