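import Vale.Agent.P211.H237.Psd3

/-!
Weighted sums with integer weights, linear checks and matrix checks for them.
-/

namespace Vale.Agent.P211.H237

open MvPolynomial

variable {F : Fam} {c : CellP}

/-- multiplication by an integer -/
noncomputable def smz (W v : ℕ) (z : ℤ) : ℕ :=
  Int.rec (fun k => (v * k) % W) (fun k => ((W - v) * (k + 1)) % W) z

theorem Rep.smz {C : Ctx F c} {v : ℕ} {P : MP} {n : ℕ} (h : Rep C v P n) (z : ℤ) :
    Rep C (smz F.W v z) (MvPolynomial.C z * P) (z.natAbs * n) := by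
  refine ⟨?_, ?_, ?_⟩
  · have := (Bd.C z).mul h.1
    exact this.mono le_rfl (by omega) (by omega)
  · cases z with
    | ofNat k => exact (Nat.mod_lt _ F.W_pos).le
    | negSucc k => exact (Nat.mod_lt _ F.W_pos).le
  · cases z with
    | ofNat k =>
      show (((v * k) % F.W : ℕ) : ZMod F.W) = _
      rw [ZMod.natCast_mod, Nat.cast_mul, h.2.2, eval₂_mul, eval₂_C]
      simp only [eq_intCast, Int.ofNat_eq_natCast, Int.cast_natCast]
      ring
    | negSucc k =>
      show ((((F.W - v) * (k + 1)) % F.W : ℕ) : ZMod F.W) = _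
      rw [ZMod.natCast_mod, Nat.cast_mul, Nat.cast_sub h.2.1, ZMod.natCast_self, h.2.2, eval₂_mul,
        eval₂_C]
      simp only [eq_intCast, Int.cast_negSucc]
      push_cast
      ring

/-- weighted sum: entries `(index, weight)` -/
noncomputable def lz (W : ℕ) (outs : List ℕ) (l : List (ℕ × ℤ)) : ℕ :=
  List.rec 0 (fun t _ acc => (smz W (outs.getD t.1 0) t.2 + acc) % W) l

/-- polynomial of a weighted sum -/
noncomputable def lzP (vals : List MP) (l : List (ℕ × ℤ)) : MP :=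
  List.foldr (fun t acc => MvPolynomial.C t.2 * vals.getD t.1 0 + acc) 0 l

/-- real value of a weighted sum -/
noncomputable def lzR (w : ℕ → ℝ) (l : List (ℕ × ℤ)) : ℝ :=
  List.foldr (fun t acc => (t.2 : ℝ) * w t.1 + acc) 0 l

/-- sum of the absolute values of the weights -/
def lzB (l : List (ℕ × ℤ)) : ℕ := List.foldr (fun t acc => t.2.natAbs + acc) 0 l

theorem rep_lz (hF : F.okB = true) (h : F.okC c = true) (l : List (ℕ × ℤ)) :
    Rep (F.ctx c h) (lz F.W (F.outs c) l) (lzP (run F.prog [X 0, X 1]) l) (lzB l * F.n0) := by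
  induction l with
  | nil =>
    refine ⟨Bd.zero.mono (Nat.zero_le _) (Nat.zero_le _) (Nat.zero_le _), Nat.zero_le _, ?_⟩
    show ((0 : ℕ) : ZMod F.W) = _ * eval₂ _ _ 0
    simp
  | cons t l ih =>
    have := ((rep_outs hF h t.1).smz t.2).add ih
    refine this.mono (le_of_eq ?_)
    show _ = (t.2.natAbs + lzB l) * F.n0
    ring

/-- the values of the outputs at a point -/
noncomputable def valsAt (F : Fam) (x y : ℝ) (i : ℕ) : ℝ := (run F.prog [x, y]).getD i 0

theorem rev_lz (x y : ℝ) (l : List (ℕ × ℤ)) :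
    rev x y (lzP (run F.prog [X 0, X 1]) l) = lzR (valsAt F x y) l := by
  induction l with
  | nil => exact rev_zero x y
  | cons t l ih =>
    show rev x y (_ * _ + lzP _ l) = _ * _ + lzR _ l
    rw [rev_add, rev_mul, rev_C, ih, rev_getD]
    rfl

/-- bound check for weights: `nw` bounds the sum of the weights; static part -/
def Fam.okW (F : Fam) (nw : ℕ) : Bool :=
  Nat.blt (nw * F.n0 * (F.nx ^ F.D * F.ny ^ F.E)) (2 ^ F.β)

/-- linear check -/
noncomputable def zlin (W m nw : ℕ) (outs : List ℕ) (l : List (ℕ × ℤ)) : Bool :=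
  Nat.ble (lzB l) nw && chk W m (lz W outs l)

theorem zlin_sound (hF : F.okB = true) (h : F.okC c = true) {nw : ℕ} (hw : F.okW nw = true)
    (l : List (ℕ × ℤ)) (hl : zlin F.W F.msk nw (F.outs c) l = true) (x y : ℝ) (hxy : c.In x y) :
    0 ≤ lzR (valsAt F x y) l := by
  unfold zlin at hl
  unfold Fam.okW at hw
  rw [Bool.and_eq_true, Nat.ble_eq] at hl
  rw [Nat.blt_eq] at hw
  rw [← rev_lz]
  refine (rep_lz hF h l).nonneg (lt_of_le_of_lt ?_ hw) hl.2 x y hxy
  exact Nat.mul_le_mul_right _ (Nat.mul_le_mul_right _ hl.1)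

/-- six weighted sums -/
structure L6 where
  a : List (ℕ × ℤ)
  b : List (ℕ × ℤ)
  c : List (ℕ × ℤ)
  d : List (ℕ × ℤ)
  e : List (ℕ × ℤ)
  f : List (ℕ × ℤ)

/-- the real symmetric form of six weighted sums -/
noncomputable def L6.form (w : ℕ → ℝ) (l : L6) (X Y Z : ℝ) : ℝ :=
  lzR w l.a * X ^ 2 + 2 * lzR w l.b * X * Y + 2 * lzR w l.c * X * Z
      + lzR w l.d * Y ^ 2 + 2 * lzR w l.e * Y * Z + lzR w l.f * Z ^ 2

/-- matrix check; digits of `T` are bounded by `2^kb`, offset `o` -/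
noncomputable def zpsd (W m nm o : ℕ) (outs : List ℕ) (l : L6) (t : T3) : Bool :=
  Nat.ble (lzB l.a) nm && Nat.ble (lzB l.b) nm && Nat.ble (lzB l.c) nm &&
  Nat.ble (lzB l.d) nm && Nat.ble (lzB l.e) nm && Nat.ble (lzB l.f) nm &&
  psd3 W m o ⟨lz W outs l.a, lz W outs l.b, lz W outs l.c, lz W outs l.d, lz W outs l.e,
    lz W outs l.f⟩ t

/-- static bound for matrix checks -/
def Fam.okM (F : Fam) (nm kb o : ℕ) : Bool :=
  Nat.blt (27 * ((2 ^ kb + o) * (2 ^ kb + o) * (nm * F.n0)) * (F.nx ^ F.D * F.ny ^ F.E)) (2 ^ F.β)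

/-- the digits of `T` -/
def T3.lt (t : T3) (kb : ℕ) : Prop :=
  t.a < 2 ^ kb ∧ t.b < 2 ^ kb ∧ t.c < 2 ^ kb ∧ t.d < 2 ^ kb ∧ t.e < 2 ^ kb ∧ t.f < 2 ^ kb

theorem zpsd_sound (hF : F.okB = true) (h : F.okC c = true) {nm kb o : ℕ}
    (hm : F.okM nm kb o = true) (l : L6) (t : T3) (ht : t.lt kb)
    (hl : zpsd F.W F.msk nm o (F.outs c) l t = true) (x y : ℝ) (hxy : c.In x y) (z1 z2 z3 : ℝ) :
    0 ≤ l.form (valsAt F x y) z1 z2 z3 := by
  unfold zpsd at hl
  unfold Fam.okM at hm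
  simp only [Bool.and_eq_true, Nat.ble_eq] at hl
  rw [Nat.blt_eq] at hm
  obtain ⟨⟨⟨⟨⟨⟨b1, b2⟩, b3⟩, b4⟩, b5⟩, b6⟩, hp⟩ := hl
  obtain ⟨t1, t2, t3, t4, t5, t6⟩ := ht
  have up : ∀ l : List (ℕ × ℤ), lzB l ≤ nm → Rep (F.ctx c h) (lz F.W (F.outs c) l)
      (lzP (run F.prog [X 0, X 1]) l) (nm * F.n0) :=
    fun l hl => (rep_lz hF h l).mono (Nat.mul_le_mul_right _ hl)
  have key := psd3_sound (C := F.ctx c h) (o := o) (M := 2 ^ kb + o) (n := nm * F.n0)
    (up l.a b1) (up l.b b2) (up l.c b3) (up l.d b4) (up l.e b5) (up l.f b6) (t := t)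
    (by refine ⟨?_, ?_, ?_, ?_, ?_, ?_⟩ <;> omega) hm hp x y hxy z1 z2 z3
  simp only [rev_lz] at key
  exact key

end Vale.Agent.P211.H237
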