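import Vale.Agent.P211.H237.Res
import Mathlib.Data.List.GetD

/-!
Straight line programs over commutative rings, with a fast evaluation of natural numbers modulo `W`
and with norm/degree bounds.
-/

namespace Vale.Agent.P211.H237

open MvPolynomial

/-- expressions in the entries of an environment -/
inductive Ex
  | v (i : ℕ)
  | c (z : ℤ)
  | add (a b : Ex)
  | mul (a b : Ex)

namespace Ex

/-- value in a commutative ring -/
def ev {S : Type*} [CommRing S] (env : List S) : Ex → S
  | v i => env.getD i 0
  | c z => (z : S)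
  | add a b => a.ev env + b.ev env
  | mul a b => a.ev env * b.ev env

/-- fast value modulo `W` -/
noncomputable def evN (W : ℕ) (env : List ℕ) : Ex → ℕ :=
  Ex.rec (fun i => env.getD i 0)
    (fun z => Int.rec (fun k => k) (fun k => W - (k + 1) % W) z)
    (fun _ _ x y => (x + y) % W) (fun _ _ x y => (x * y) % W)

theorem cast_evN (W : ℕ) (hW : 0 < W) (env : List ℕ) (e : Ex) :
    ((e.evN W env : ℕ) : ZMod W) = e.ev (env.map (Nat.cast : ℕ → ZMod W)) := by
  induction e with
  | v i =>
    show ((env.getD i 0 : ℕ) : ZMod W) = (env.map (Nat.cast : ℕ → ZMod W)).getD i 0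
    have := List.getD_map env 0 (n := i) (Nat.cast : ℕ → ZMod W)
    rw [Nat.cast_zero] at this
    exact this.symm
  | c z =>
    cases z with
    | ofNat k =>
      show ((k : ℕ) : ZMod W) = ((Int.ofNat k : ℤ) : ZMod W)
      simp
    | negSucc k =>
      show ((W - (k + 1) % W : ℕ) : ZMod W) = ((Int.negSucc k : ℤ) : ZMod W)
      rw [Nat.cast_sub (Nat.mod_lt _ hW).le, ZMod.natCast_mod, ZMod.natCast_self, zero_sub,
        Int.cast_negSucc]
  | add a b iha ihb =>
    show (((a.evN W env + b.evN W env) % W : ℕ) : ZMod W) = _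
    rw [ZMod.natCast_mod, Nat.cast_add, iha, ihb]; rfl
  | mul a b iha ihb =>
    show (((a.evN W env * b.evN W env) % W : ℕ) : ZMod W) = _
    rw [ZMod.natCast_mod, Nat.cast_mul, iha, ihb]; rfl

theorem map_ev {S S' : Type*} [CommRing S] [CommRing S'] (φ : S →+* S') (env : List S) (e : Ex) :
    φ (e.ev env) = e.ev (env.map φ) := by
  induction e with
  | v i =>
    show φ (env.getD i 0) = (env.map φ).getD i 0
    have := List.getD_map env 0 (n := i) φ
    rw [map_zero] at this
    exact this.symm
  | c z => simp [ev]
  | add a b iha ihb => simp only [ev, map_add, iha, ihb]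
  | mul a b iha ihb => simp only [ev, map_mul, iha, ihb]

/-- bounds -/
def bd (env : List (ℕ × ℕ × ℕ)) : Ex → ℕ × ℕ × ℕ
  | v i => env.getD i (0, 0, 0)
  | c z => (z.natAbs, 0, 0)
  | add a b => ((a.bd env).1 + (b.bd env).1, max (a.bd env).2.1 (b.bd env).2.1,
      max (a.bd env).2.2 (b.bd env).2.2)
  | mul a b => ((a.bd env).1 * (b.bd env).1, (a.bd env).2.1 + (b.bd env).2.1,
      (a.bd env).2.2 + (b.bd env).2.2)

/-- the bounds of an environment are valid -/
def EnvBd (env : List MP) (be : List (ℕ × ℕ × ℕ)) : Prop :=
  ∀ i, Bd (env.getD i 0) (be.getD i (0, 0, 0)).1 (be.getD i (0, 0, 0)).2.1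
    (be.getD i (0, 0, 0)).2.2

theorem bd_ev {env : List MP} {be : List (ℕ × ℕ × ℕ)} (h : EnvBd env be) (e : Ex) :
    Bd (e.ev env) (e.bd be).1 (e.bd be).2.1 (e.bd be).2.2 := by
  induction e with
  | v i => exact h i
  | c z =>
    have := Bd.C z
    simpa [ev, bd] using this
  | add a b iha ihb => exact iha.add ihb
  | mul a b iha ihb => exact iha.mul ihb

end Ex

/-- run a program: every expression may use all earlier values -/
def run {S : Type*} [CommRing S] (prog : List Ex) (env : List S) : List S :=
  prog.foldl (fun env e => env ++ [e.ev env]) env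

noncomputable def runN (W : ℕ) (prog : List Ex) (env : List ℕ) : List ℕ :=
  prog.foldl (fun env e => env ++ [e.evN W env]) env

def runBd (prog : List Ex) (env : List (ℕ × ℕ × ℕ)) : List (ℕ × ℕ × ℕ) :=
  prog.foldl (fun env e => env ++ [e.bd env]) env

theorem cast_runN (W : ℕ) (hW : 0 < W) (prog : List Ex) : ∀ env : List ℕ,
    (runN W prog env).map (Nat.cast : ℕ → ZMod W) = run prog (env.map (Nat.cast : ℕ → ZMod W)) := by
  induction prog with
  | nil => intro env; rfl
  | cons e prog ih =>
    intro env
    have h1 := ih (env ++ [e.evN W env])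
    rw [List.map_append, List.map_singleton, Ex.cast_evN W hW] at h1
    exact h1

theorem map_run {S S' : Type*} [CommRing S] [CommRing S'] (φ : S →+* S') (prog : List Ex) :
    ∀ env : List S, (run prog env).map φ = run prog (env.map φ) := by
  induction prog with
  | nil => intro env; rfl
  | cons e prog ih =>
    intro env
    have h1 := ih (env ++ [e.ev env])
    rw [List.map_append, List.map_singleton, Ex.map_ev] at h1
    exact h1

theorem runBd_run (prog : List Ex) : ∀ (env : List MP) (be : List (ℕ × ℕ × ℕ)),
    env.length = be.length → Ex.EnvBd env be → Ex.EnvBd (run prog env) (runBd prog be) := by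
  induction prog with
  | nil => intro env be _ h; exact h
  | cons e prog ih =>
    intro env be hl h
    refine ih (env ++ [e.ev env]) (be ++ [e.bd be]) (by simp [hl]) ?_
    intro i
    rcases Nat.lt_trichotomy i env.length with hi | hi | hi
    · rw [List.getD_append _ _ _ _ hi, List.getD_append _ _ _ _ (hl ▸ hi)]
      exact h i
    · rw [List.getD_append_right _ _ _ _ hi.ge, List.getD_append_right _ _ _ _ (hl ▸ hi.ge), ← hl,
        hi, Nat.sub_self]
      exact Ex.bd_ev h e
    · rw [List.getD_append_right _ _ _ _ hi.le, List.getD_append_right _ _ _ _ (hl ▸ hi.le), ← hl]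
      obtain ⟨k, hk⟩ : ∃ k, i - env.length = k + 1 := ⟨i - env.length - 1, by omega⟩
      rw [hk]
      simpa using Bd.zero

end Vale.Agent.P211.H237
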