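import Vale.Agent.P211.H237.Chk

/-!
Kernel functions: cell context, linear combinations, 3x3 matrices after a triangular congruence.
-/

namespace Vale.Agent.P211.H237

open MvPolynomial

/-! ### the context -/

noncomputable def intN (W : ℕ) (z : ℤ) : ℕ :=
  Int.rec (fun k => k % W) (fun k => W - (k + 1) % W) z

theorem cast_intN (W : ℕ) (hW : 0 < W) (z : ℤ) : ((intN W z : ℕ) : ZMod W) = (z : ZMod W) := by
  cases z with
  | ofNat k =>
    show ((k % W : ℕ) : ZMod W) = ((Int.ofNat k : ℤ) : ZMod W)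
    simp [ZMod.natCast_mod]
  | negSucc k =>
    show ((W - (k + 1) % W : ℕ) : ZMod W) = ((Int.negSucc k : ℤ) : ZMod W)
    rw [Nat.cast_sub (Nat.mod_lt _ hW).le, ZMod.natCast_mod, ZMod.natCast_self, zero_sub,
      Int.cast_negSucc]

/-- Newton iteration for the inverse of an odd number modulo a power of two -/
noncomputable def invN (W a : ℕ) (k : ℕ) : ℕ :=
  Nat.rec 1 (fun _ i => (i * (2 + W - (a * i) % W)) % W) k

namespace Fam

noncomputable def x0 (F : Fam) (c : CellP) : ℕ := (c.xq * (1 + 2 ^ (F.β + 1))) % F.W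
noncomputable def y0 (F : Fam) (c : CellP) : ℕ :=
  (c.yq * (1 + 2 ^ ((F.β + 1) * (F.D + 1)))) % F.W
noncomputable def x1 (F : Fam) (c : CellP) : ℕ :=
  (intN F.W c.xa + intN F.W c.xb * 2 ^ (F.β + 1)) % F.W
noncomputable def y1 (F : Fam) (c : CellP) : ℕ :=
  (intN F.W c.ya + intN F.W c.yb * 2 ^ ((F.β + 1) * (F.D + 1))) % F.W
noncomputable def s0 (F : Fam) (c : CellP) : ℕ := (F.x0 c ^ F.D % F.W * (F.y0 c ^ F.E % F.W)) % F.W
noncomputable def xr (F : Fam) (c : CellP) : ℕ := (F.x1 c * invN F.W (F.x0 c) 20) % F.W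
noncomputable def yr (F : Fam) (c : CellP) : ℕ := (F.y1 c * invN F.W (F.y0 c) 20) % F.W

noncomputable def okC (F : Fam) (c : CellP) : Bool :=
  Nat.blt 0 c.xq && Nat.blt 0 c.yq && decide (c.xa < c.xb) && decide (c.ya < c.yb) &&
  Nat.ble (2 * c.xq) F.nx && Nat.ble (c.xa.natAbs + c.xb.natAbs) F.nx &&
  Nat.ble (2 * c.yq) F.ny && Nat.ble (c.ya.natAbs + c.yb.natAbs) F.ny &&
  Nat.beq ((F.xr c * F.x0 c) % F.W) (F.x1 c) && Nat.beq ((F.yr c * F.y0 c) % F.W) (F.y1 c)

/-- the context of a checked cell -/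
noncomputable def ctx (F : Fam) (c : CellP) (h : F.okC c = true) : Ctx F c where
  xb := (F.xr c : ZMod F.W)
  yb := (F.yr c : ZMod F.W)
  s0 := F.s0 c
  hxq := by simp only [okC, Bool.and_eq_true, Nat.blt_eq] at h; exact h.1.1.1.1.1.1.1.1.1
  hyq := by simp only [okC, Bool.and_eq_true, Nat.blt_eq] at h; exact h.1.1.1.1.1.1.1.1.2
  hxl := by simp only [okC, Bool.and_eq_true, decide_eq_true_eq] at h; exact h.1.1.1.1.1.1.1.2
  hyl := by simp only [okC, Bool.and_eq_true, decide_eq_true_eq] at h; exact h.1.1.1.1.1.1.2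
  hx := by simp only [okC, Bool.and_eq_true, Nat.ble_eq] at h; exact h.1.1.1.1.1.2
  hx' := by simp only [okC, Bool.and_eq_true, Nat.ble_eq] at h; exact h.1.1.1.1.2
  hy := by simp only [okC, Bool.and_eq_true, Nat.ble_eq] at h; exact h.1.1.1.2
  hy' := by simp only [okC, Bool.and_eq_true, Nat.ble_eq] at h; exact h.1.1.2
  hxb := by
    simp only [okC, Bool.and_eq_true] at h
    have h1 := Nat.eq_of_beq_eq_true h.1.2
    have h2 := congrArg (Nat.cast : ℕ → ZMod F.W) h1
    unfold x1 x0 at h2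
    rw [ZMod.natCast_mod, ZMod.natCast_mod, Nat.cast_mul, ZMod.natCast_mod, Nat.cast_add,
      Nat.cast_mul (intN _ _), cast_intN _ F.W_pos, cast_intN _ F.W_pos] at h2
    push_cast at h2
    rw [← h2]
  hyb := by
    simp only [okC, Bool.and_eq_true] at h
    have h1 := Nat.eq_of_beq_eq_true h.2
    have h2 := congrArg (Nat.cast : ℕ → ZMod F.W) h1
    unfold y1 y0 at h2
    rw [ZMod.natCast_mod, ZMod.natCast_mod, Nat.cast_mul, ZMod.natCast_mod, Nat.cast_add,
      Nat.cast_mul (intN _ _), cast_intN _ F.W_pos, cast_intN _ F.W_pos] at h2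
    push_cast at h2
    rw [← h2]
  hs0 := by
    unfold s0 x0 y0
    rw [ZMod.natCast_mod, Nat.cast_mul, ZMod.natCast_mod, ZMod.natCast_mod, Nat.cast_pow,
      Nat.cast_pow, ZMod.natCast_mod, ZMod.natCast_mod]
    push_cast
    ring

/-- all scaled outputs on a cell -/
noncomputable def outs (F : Fam) (c : CellP) : List ℕ := outN F (F.xr c) (F.yr c) (F.s0 c)

end Fam

variable {F : Fam} {c : CellP}

theorem rep_outs (hF : F.okB = true) (h : F.okC c = true) (i : ℕ) :
    Rep (F.ctx c h) ((F.outs c).getD i 0) ((run F.prog [X 0, X 1]).getD i 0) F.n0 :=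
  rep_output (C := F.ctx c h) hF _ _ rfl rfl i

theorem rep_one (C : Ctx F c) (hs : C.s0 ≤ F.W) : Rep C C.s0 1 1 := by
  refine ⟨?_, hs, ?_⟩
  · have := (Bd.C 1).mono (n' := 1) (a' := F.D) (b' := F.E) (by simp) (Nat.zero_le _)
      (Nat.zero_le _)
    simpa using this
  · simp

/-- weighted sum of outputs: list of (index, digit) -/
noncomputable def lc (W o : ℕ) (outs : List ℕ) (l : List (ℕ × ℕ)) : ℕ :=
  List.foldr (fun t acc => (sm W o (outs.getD t.1 0) t.2 + acc) % W) 0 l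

/-- real value of a weighted sum -/
noncomputable def lcR (o : ℕ) (vals : List ℝ) (l : List (ℕ × ℕ)) : ℝ :=
  List.foldr (fun t acc => ((t.2 : ℝ) - o) * vals.getD t.1 0 + acc) 0 l

/-- polynomial of a weighted sum -/
noncomputable def lcP (o : ℕ) (vals : List MP) (l : List (ℕ × ℕ)) : MP :=
  List.foldr (fun t acc => MvPolynomial.C ((t.2 : ℤ) - o) * vals.getD t.1 0 + acc) 0 l

/-- norm of a weighted sum -/
def lcB (o n0 : ℕ) (l : List (ℕ × ℕ)) : ℕ :=
  List.foldr (fun t acc => (t.2 + o) * n0 + acc) 0 l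

theorem rep_lc (hF : F.okB = true) (h : F.okC c = true) (o : ℕ) (l : List (ℕ × ℕ)) :
    Rep (F.ctx c h) (lc F.W o (F.outs c) l) (lcP o (run F.prog [X 0, X 1]) l) (lcB o F.n0 l) := by
  induction l with
  | nil =>
    refine ⟨Bd.zero.mono (Nat.zero_le _) (Nat.zero_le _) (Nat.zero_le _), Nat.zero_le _, ?_⟩
    show ((0 : ℕ) : ZMod F.W) = _ * eval₂ _ _ 0
    simp
  | cons t l ih => exact ((rep_outs hF h t.1).sm o t.2).add ih

theorem rev_add (x y : ℝ) (P Q : MP) : rev x y (P + Q) = rev x y P + rev x y Q := by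
  unfold rev; rw [eval₂_add]

theorem rev_mul (x y : ℝ) (P Q : MP) : rev x y (P * Q) = rev x y P * rev x y Q := by
  unfold rev; rw [eval₂_mul]

theorem rev_C (x y : ℝ) (z : ℤ) : rev x y (MvPolynomial.C z) = z := by
  unfold rev; rw [eval₂_C]; simp

theorem rev_one (x y : ℝ) : rev x y 1 = 1 := by
  have := rev_C x y 1
  simpa using this

theorem rev_zero (x y : ℝ) : rev x y 0 = 0 := by
  have := rev_C x y 0
  simpa using this

theorem rev_lc (x y : ℝ) (o : ℕ) (l : List (ℕ × ℕ)) :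
    rev x y (lcP o (run F.prog [X 0, X 1]) l) = lcR o (run F.prog [x, y]) l := by
  induction l with
  | nil => exact rev_zero x y
  | cons t l ih =>
    show rev x y (_ * _ + lcP o _ l) = _ * _ + lcR o _ l
    rw [rev_add, rev_mul, rev_C, ih, rev_getD]
    push_cast
    rfl

/-- **linear check** -/
noncomputable def linOK (F : Fam) (c : CellP) (o : ℕ) (l : List (ℕ × ℕ)) : Bool :=
  Nat.blt (lcB o F.n0 l * (F.nx ^ F.D * F.ny ^ F.E)) (2 ^ F.β) &&
    chk F.W F.msk (lc F.W o (F.outs c) l)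

theorem linOK_sound (hF : F.okB = true) (h : F.okC c = true) (o : ℕ) (l : List (ℕ × ℕ))
    (hl : linOK F c o l = true) (x y : ℝ) (hxy : c.In x y) : 0 ≤ lcR o (run F.prog [x, y]) l := by
  unfold linOK at hl
  rw [Bool.and_eq_true, Nat.blt_eq] at hl
  rw [← rev_lc]
  exact (rep_lc hF h o l).nonneg hl.1 hl.2 x y hxy

end Vale.Agent.P211.H237
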