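import Vale.Agent.P211.H237.Core
import Mathlib.Data.ZMod.Basic
import Mathlib.Topology.Algebra.MvPolynomial
import Mathlib.Topology.Instances.Real.Lemmas

/-!
Positivity on a box of an integer polynomial in two variables from one residue modulo a power of
two.
-/

namespace Vale.Agent.P211.H237

open MvPolynomial

/-- norm and degree bounds -/
def Bd (P : MP) (n a b : ℕ) : Prop :=
  (∃ Q : MN, Dom P Q ∧ eval (fun _ => 1) Q ≤ n) ∧ degreeOf 0 P ≤ a ∧ degreeOf 1 P ≤ b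

theorem Bd.mono {P : MP} {n a b n' a' b' : ℕ} (h : Bd P n a b) (hn : n ≤ n') (ha : a ≤ a')
    (hb : b ≤ b') : Bd P n' a' b' := by
  obtain ⟨⟨Q, h1, h2⟩, h3, h4⟩ := h
  exact ⟨⟨Q, h1, h2.trans hn⟩, h3.trans ha, h4.trans hb⟩

theorem Bd.add {P P' : MP} {n a b n' a' b' : ℕ} (h : Bd P n a b) (h' : Bd P' n' a' b') :
    Bd (P + P') (n + n') (max a a') (max b b') := by
  obtain ⟨⟨Q, h1, h2⟩, h3, h4⟩ := h
  obtain ⟨⟨Q', h1', h2'⟩, h3', h4'⟩ := h'
  refine ⟨⟨Q + Q', h1.add h1', ?_⟩, ?_, ?_⟩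
  · rw [map_add]; omega
  · exact (degreeOf_add_le 0 P P').trans (max_le_max h3 h3')
  · exact (degreeOf_add_le 1 P P').trans (max_le_max h4 h4')

theorem Bd.mul {P P' : MP} {n a b n' a' b' : ℕ} (h : Bd P n a b) (h' : Bd P' n' a' b') :
    Bd (P * P') (n * n') (a + a') (b + b') := by
  obtain ⟨⟨Q, h1, h2⟩, h3, h4⟩ := h
  obtain ⟨⟨Q', h1', h2'⟩, h3', h4'⟩ := h'
  refine ⟨⟨Q * Q', h1.mul h1', ?_⟩, ?_, ?_⟩
  · rw [map_mul]; exact Nat.mul_le_mul h2 h2'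
  · exact (degreeOf_mul_le 0 P P').trans (Nat.add_le_add h3 h3')
  · exact (degreeOf_mul_le 1 P P').trans (Nat.add_le_add h4 h4')

theorem Bd.C (z : ℤ) : Bd (C z) z.natAbs 0 0 := by
  refine ⟨⟨MvPolynomial.C z.natAbs, Dom.C z, ?_⟩, ?_, ?_⟩
  · rw [eval_C]
  · rw [degreeOf_C]
  · rw [degreeOf_C]

theorem Bd.X0 : Bd (X 0) 1 1 0 := by
  refine ⟨⟨X 0, Dom.X 0, ?_⟩, ?_, ?_⟩
  · rw [eval_X]
  · rw [degreeOf_X]; simp
  · rw [degreeOf_X]; simp

theorem Bd.X1 : Bd (X 1) 1 0 1 := by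
  refine ⟨⟨X 1, Dom.X 1, ?_⟩, ?_, ?_⟩
  · rw [eval_X]
  · rw [degreeOf_X]; simp
  · rw [degreeOf_X]; simp

theorem Bd.zero : Bd 0 0 0 0 := by
  refine ⟨⟨0, Dom.zero, by simp⟩, by simp [degreeOf_zero], by simp [degreeOf_zero]⟩

theorem Bd.pow {P : MP} {n a b : ℕ} (h : Bd P n a b) : ∀ k, Bd (P ^ k) (n ^ k) (k * a) (k * b)
  | 0 => by simpa using (Bd.C 1)
  | k + 1 => by
    rw [pow_succ, pow_succ]
    exact ((h.pow k).mul h).mono le_rfl (by rw [Nat.succ_mul]) (by rw [Nat.succ_mul])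

theorem Bd.supp0 {P : MP} {n a b : ℕ} (h : Bd P n a b) {m} (hm : m ∈ P.support) : m 0 ≤ a :=
  (monomial_le_degreeOf 0 hm).trans h.2.1

theorem Bd.supp1 {P : MP} {n a b : ℕ} (h : Bd P n a b) {m} (hm : m ∈ P.support) : m 1 ≤ b :=
  (monomial_le_degreeOf 1 hm).trans h.2.2

theorem Dom.sum {ι : Type*} (s : Finset ι) (f : ι → MP) (g : ι → MN)
    (h : ∀ i ∈ s, Dom (f i) (g i)) : Dom (∑ i ∈ s, f i) (∑ i ∈ s, g i) := by
  classical
  induction s using Finset.induction_on with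
  | empty => simpa using Dom.zero
  | insert a s ha ih =>
    rw [Finset.sum_insert ha, Finset.sum_insert ha]
    exact (h a (Finset.mem_insert_self _ _)).add
      (ih fun i hi => h i (Finset.mem_insert_of_mem hi))

/-- homogeneous substitution -/
noncomputable def Hom (P : MP) (D E : ℕ) (x0 x1 y0 y1 : MP) : MP :=
  ∑ m ∈ P.support, C (coeff m P) * (x1 ^ m 0 * x0 ^ (D - m 0) * (y1 ^ m 1 * y0 ^ (E - m 1)))

/-- linear polynomial in variable 0 or 1 -/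
noncomputable def lin (i : Fin 2) (a b : ℤ) : MP := C a + C b * X i

theorem lin_bd0 (a b : ℤ) {n : ℕ} (h : a.natAbs + b.natAbs ≤ n) : Bd (lin 0 a b) n 1 0 := by
  have := (Bd.C a).add ((Bd.C b).mul Bd.X0)
  exact this.mono (by omega) (by simp) (by simp)

theorem lin_bd1 (a b : ℤ) {n : ℕ} (h : a.natAbs + b.natAbs ≤ n) : Bd (lin 1 a b) n 0 1 := by
  have := (Bd.C a).add ((Bd.C b).mul Bd.X1)
  exact this.mono (by omega) (by simp) (by simp)

theorem coeff_sum_le (P : MP) (Q : MN) (h : Dom P Q) :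
    ∑ m ∈ P.support, (coeff m P).natAbs ≤ eval (fun _ => 1) Q := by
  classical
  rw [eval_eq']
  simp only [one_pow, Finset.prod_const_one, mul_one]
  calc ∑ m ∈ P.support, (coeff m P).natAbs ≤ ∑ m ∈ P.support, coeff m Q :=
        Finset.sum_le_sum fun m _ => h m
    _ ≤ ∑ m ∈ P.support ∪ Q.support, coeff m Q :=
        Finset.sum_le_sum_of_subset Finset.subset_union_left
    _ = ∑ m ∈ Q.support, coeff m Q := by
        refine (Finset.sum_subset Finset.subset_union_right fun m _ hm => ?_).symm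
        exact notMem_support_iff.mp hm


theorem Bd.sum {ι : Type*} (s : Finset ι) (f : ι → MP) (n : ι → ℕ) (a b : ℕ)
    (h : ∀ i ∈ s, Bd (f i) (n i) a b) : Bd (∑ i ∈ s, f i) (∑ i ∈ s, n i) a b := by
  classical
  induction s using Finset.induction_on with
  | empty => exact Bd.zero.mono le_rfl (Nat.zero_le _) (Nat.zero_le _)
  | insert c s hc ih =>
    rw [Finset.sum_insert hc, Finset.sum_insert hc]
    have := (h c (Finset.mem_insert_self _ _)).add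
      (ih fun i hi => h i (Finset.mem_insert_of_mem hi))
    simpa using this

theorem Hom_bd {P x0 x1 y0 y1 : MP} {n D E nx ny : ℕ} (hP : Bd P n D E) (hx0 : Bd x0 nx 1 0)
    (hx1 : Bd x1 nx 1 0) (hy0 : Bd y0 ny 0 1) (hy1 : Bd y1 ny 0 1) :
    Bd (Hom P D E x0 x1 y0 y1) (n * (nx ^ D * ny ^ E)) D E := by
  have h1 : Bd (Hom P D E x0 x1 y0 y1)
      (∑ m ∈ P.support, (coeff m P).natAbs * (nx ^ D * ny ^ E)) D E := by
    refine Bd.sum _ _ _ _ _ fun m hm => ?_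
    have ha := hP.supp0 hm
    have hb := hP.supp1 hm
    have h2 := (Bd.C (coeff m P)).mul (((hx1.pow (m 0)).mul (hx0.pow (D - m 0))).mul
      ((hy1.pow (m 1)).mul (hy0.pow (E - m 1))))
    refine h2.mono (le_of_eq ?_) ?_ ?_
    · rw [← pow_add, ← pow_add, Nat.add_sub_cancel' ha, Nat.add_sub_cancel' hb]
    · omega
    · omega
  refine h1.mono ?_ le_rfl le_rfl
  rw [← Finset.sum_mul]
  obtain ⟨⟨Q, hQ, hn⟩, -, -⟩ := hP
  exact Nat.mul_le_mul_right _ ((coeff_sum_le P Q hQ).trans hn)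

theorem map_Hom {S : Type*} [CommRing S] (φ : MP →+* S) {P x0 x1 y0 y1 : MP} {n D E : ℕ}
    (hP : Bd P n D E) (xb yb : S) (hx : φ x1 = xb * φ x0) (hy : φ y1 = yb * φ y0) :
    φ (Hom P D E x0 x1 y0 y1)
      = φ x0 ^ D * φ y0 ^ E * eval₂ (Int.castRingHom S) ![xb, yb] P := by
  unfold Hom
  rw [map_sum, eval₂_eq', Finset.mul_sum]
  refine Finset.sum_congr rfl fun m hm => ?_
  have ha := hP.supp0 hm
  have hb := hP.supp1 hm
  have hC : φ (C (coeff m P)) = (Int.castRingHom S) (coeff m P) := by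
    have : φ.comp (C : ℤ →+* MP) = Int.castRingHom S := RingHom.ext_int _ _
    rw [← this]; rfl
  simp only [map_mul, map_pow, Fin.prod_univ_two, Matrix.cons_val_zero, Matrix.cons_val_one, hx, hy,
    hC]
  have e1 : φ x0 ^ D = φ x0 ^ m 0 * φ x0 ^ (D - m 0) := by
    rw [← pow_add, Nat.add_sub_cancel' ha]
  have e2 : φ y0 ^ E = φ y0 ^ m 1 * φ y0 ^ (E - m 1) := by
    rw [← pow_add, Nat.add_sub_cancel' hb]
  rw [e1, e2]; ring

/-- real evaluation -/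
noncomputable def rev (x y : ℝ) (P : MP) : ℝ := eval₂ (Int.castRingHom ℝ) ![x, y] P

theorem continuous_rev (P : MP) : Continuous fun z : ℝ × ℝ => rev z.1 z.2 P := by
  unfold rev
  simp only [eval₂_eq', Fin.prod_univ_two, Matrix.cons_val_zero, Matrix.cons_val_one]
  refine continuous_finsetSum _ fun m _ => continuous_const.mul ?_
  exact (continuous_fst.pow _).mul (continuous_snd.pow _)

/-- data of a cell: `x ∈ [xa/xq, xb/xq]`, `y ∈ [ya/yq, yb/yq]`, digits of `β+1` bits -/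
structure CellP where
  xa : ℤ
  xb : ℤ
  xq : ℕ
  ya : ℤ
  yb : ℤ
  yq : ℕ

/-- the box of a cell -/
def CellP.In (c : CellP) (x y : ℝ) : Prop :=
  (c.xa : ℝ) ≤ c.xq * x ∧ c.xq * x ≤ c.xb ∧ (c.ya : ℝ) ≤ c.yq * y ∧ c.yq * y ≤ c.yb

theorem nonneg_on_half {P : MP} {n D E nx ny β W : ℕ} (hP : Bd P n D E) (c : CellP)
    (hW : W = 2 ^ ((β + 1) * ((D + 1) * (E + 1)))) (hxq : 0 < c.xq) (hyq : 0 < c.yq)
    (hx : 2 * c.xq ≤ nx) (hx' : c.xa.natAbs + (c.xb).natAbs ≤ nx)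
    (hy : 2 * c.yq ≤ ny) (hy' : c.ya.natAbs + (c.yb).natAbs ≤ ny)
    (hn : n * (nx ^ D * ny ^ E) < 2 ^ β) (v : ℕ) (xb yb : ZMod W)
    (hxb : (c.xa : ZMod W) + c.xb * 2 ^ (β + 1) = xb * (c.xq * (1 + 2 ^ (β + 1))))
    (hyb : (c.ya : ZMod W) + c.yb * 2 ^ ((β + 1) * (D + 1))
      = yb * (c.yq * (1 + 2 ^ ((β + 1) * (D + 1)))))
    (hv : (v : ZMod W) = (c.xq * (1 + 2 ^ (β + 1))) ^ D * (c.yq * (1 + 2 ^ ((β + 1) * (D + 1)))) ^ E
      * eval₂ (Int.castRingHom (ZMod W)) ![xb, yb] P)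
    (hm : ((v + mask β (D + 1) (E + 1)) % W) &&& mask β (D + 1) (E + 1)
      = mask β (D + 1) (E + 1))
    (x y : ℝ) (h1 : (c.xa : ℝ) ≤ c.xq * x) (h2 : c.xq * x < c.xb) (h3 : (c.ya : ℝ) ≤ c.yq * y)
    (h4 : c.yq * y < c.yb) : 0 ≤ rev x y P := by
  set H : MP := Hom P D E (lin 0 c.xq c.xq) (lin 0 c.xa c.xb) (lin 1 c.yq c.yq) (lin 1 c.ya c.yb)
    with hH
  have hHb : Bd H (n * (nx ^ D * ny ^ E)) D E :=
    Hom_bd hP (lin_bd0 _ _ (by simpa [two_mul] using hx)) (lin_bd0 _ _ hx')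
      (lin_bd1 _ _ (by simpa [two_mul] using hy)) (lin_bd1 _ _ hy')
  obtain ⟨⟨Q, hQ, hQn⟩, -, -⟩ := id hHb
  obtain ⟨Y, hY, hYlt, hYm⟩ := exists_digits H Q hQ β (D + 1) (E + 1)
    (fun m hm => Nat.lt_succ_of_le (hHb.supp0 hm)) (fun m hm => Nat.lt_succ_of_le (hHb.supp1 hm))
    (hQn.trans_lt hn)
  rw [← hW] at hYlt
  -- evaluation modulo W
  have hmod : (v : ZMod W) = ((eval ![2 ^ (β + 1), 2 ^ ((β + 1) * (D + 1))] H : ℤ) : ZMod W) := by
    have h5 := map_Hom ((Int.castRingHom (ZMod W)).comp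
      (eval ![(2 : ℤ) ^ (β + 1), 2 ^ ((β + 1) * (D + 1))])) hP xb yb
      (x0 := lin 0 c.xq c.xq) (x1 := lin 0 c.xa c.xb) (y0 := lin 1 c.yq c.yq)
      (y1 := lin 1 c.ya c.yb) (by
        simp only [lin, RingHom.comp_apply, map_add, map_mul, eval_C, eval_X,
          Matrix.cons_val_zero]
        simp only [map_pow, eq_intCast, Int.cast_natCast, Int.cast_ofNat]
        rw [hxb]; ring) (by
        simp only [lin, RingHom.comp_apply, map_add, map_mul, eval_C, eval_X,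
          Matrix.cons_val_one, Matrix.cons_val_fin_one]
        simp only [map_pow, eq_intCast, Int.cast_natCast, Int.cast_ofNat]
        rw [hyb]; ring)
    rw [← hH] at h5
    rw [hv]
    have h6 : ((eval ![2 ^ (β + 1), 2 ^ ((β + 1) * (D + 1))] H : ℤ) : ZMod W)
        = ((Int.castRingHom (ZMod W)).comp
      (eval ![(2 : ℤ) ^ (β + 1), 2 ^ ((β + 1) * (D + 1))])) H := rfl
    rw [h6, h5]
    simp only [lin, RingHom.comp_apply, map_add, map_mul, eval_C, eval_X,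
          Matrix.cons_val_zero, Matrix.cons_val_one, Matrix.cons_val_fin_one]
    simp only [map_pow, eq_intCast, Int.cast_natCast, Int.cast_ofNat]
    congr 1
    ring
  have hYv : (v + mask β (D + 1) (E + 1)) % W = Y := by
    have h5 : ((v + mask β (D + 1) (E + 1) : ℕ) : ZMod W) = ((Y : ℕ) : ZMod W) := by
      have h6 : ((Y : ℕ) : ZMod W) = (((Y : ℕ) : ℤ) : ZMod W) := by push_cast; rfl
      rw [h6, hY]; push_cast; rw [← hmod]
    rw [ZMod.natCast_eq_natCast_iff] at h5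
    unfold Nat.ModEq at h5
    rw [h5, Nat.mod_eq_of_lt hYlt]
  have hco := hYm (by rw [← hYv]; exact hm)
  -- real points
  have hq : (0 : ℝ) < c.xb - c.xq * x := by linarith
  have hq' : (0 : ℝ) < c.yb - c.yq * y := by linarith
  set t : ℝ := (c.xq * x - c.xa) / (c.xb - c.xq * x) with ht
  set r : ℝ := (c.yq * y - c.ya) / (c.yb - c.yq * y) with hr
  have ht0 : 0 ≤ t := div_nonneg (by linarith) hq.le
  have hr0 : 0 ≤ r := div_nonneg (by linarith) hq'.le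
  have hnn := eval_nonneg H hco t r ht0 hr0
  have hmap := map_Hom (eval₂Hom (Int.castRingHom ℝ) ![t, r]) hP x y
    (x0 := lin 0 c.xq c.xq) (x1 := lin 0 c.xa c.xb) (y0 := lin 1 c.yq c.yq)
    (y1 := lin 1 c.ya c.yb) (by
      simp only [lin, map_add, map_mul, coe_eval₂Hom, eval₂_C, eval₂_X, Matrix.cons_val_zero]
      simp only [eq_intCast, Int.cast_natCast]
      rw [ht]; field_simp; ring) (by
      simp only [lin, map_add, map_mul, coe_eval₂Hom, eval₂_C, eval₂_X, Matrix.cons_val_one,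
        Matrix.cons_val_fin_one]
      simp only [eq_intCast, Int.cast_natCast]
      rw [hr]; field_simp; ring)
  rw [← hH, coe_eval₂Hom] at hmap
  rw [hmap] at hnn
  have hx0 : 0 < eval₂ (Int.castRingHom ℝ) ![t, r] (lin 0 c.xq c.xq) := by
    simp only [lin, eval₂_add, eval₂_mul, eval₂_C, eval₂_X, Matrix.cons_val_zero]
    simp only [eq_intCast, Int.cast_natCast]
    have : (0 : ℝ) < c.xq := by exact_mod_cast hxq
    positivity
  have hy0 : 0 < eval₂ (Int.castRingHom ℝ) ![t, r] (lin 1 c.yq c.yq) := by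
    simp only [lin, eval₂_add, eval₂_mul, eval₂_C, eval₂_X, Matrix.cons_val_one,
      Matrix.cons_val_fin_one]
    simp only [eq_intCast, Int.cast_natCast]
    have : (0 : ℝ) < c.yq := by exact_mod_cast hyq
    positivity
  have h7 : 0 < eval₂ (Int.castRingHom ℝ) ![t, r] (lin 0 c.xq c.xq) ^ D *
      eval₂ (Int.castRingHom ℝ) ![t, r] (lin 1 c.yq c.yq) ^ E := by positivity
  exact nonneg_of_mul_nonneg_right hnn h7

/-- closed box version -/
theorem nonneg_on_box {P : MP} {n D E nx ny β W : ℕ} (hP : Bd P n D E) (c : CellP)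
    (hW : W = 2 ^ ((β + 1) * ((D + 1) * (E + 1)))) (hxq : 0 < c.xq) (hyq : 0 < c.yq)
    (hxl : c.xa < c.xb) (hyl : c.ya < c.yb)
    (hx : 2 * c.xq ≤ nx) (hx' : c.xa.natAbs + (c.xb).natAbs ≤ nx)
    (hy : 2 * c.yq ≤ ny) (hy' : c.ya.natAbs + (c.yb).natAbs ≤ ny)
    (hn : n * (nx ^ D * ny ^ E) < 2 ^ β) (v : ℕ) (xb yb : ZMod W)
    (hxb : (c.xa : ZMod W) + c.xb * 2 ^ (β + 1) = xb * (c.xq * (1 + 2 ^ (β + 1))))
    (hyb : (c.ya : ZMod W) + c.yb * 2 ^ ((β + 1) * (D + 1))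
      = yb * (c.yq * (1 + 2 ^ ((β + 1) * (D + 1)))))
    (hv : (v : ZMod W) = (c.xq * (1 + 2 ^ (β + 1))) ^ D * (c.yq * (1 + 2 ^ ((β + 1) * (D + 1)))) ^ E
      * eval₂ (Int.castRingHom (ZMod W)) ![xb, yb] P)
    (hm : ((v + mask β (D + 1) (E + 1)) % W) &&& mask β (D + 1) (E + 1)
      = mask β (D + 1) (E + 1))
    (x y : ℝ) (hxy : c.In x y) : 0 ≤ rev x y P := by
  obtain ⟨h1, h2, h3, h4⟩ := hxy
  have hxq' : (0 : ℝ) < c.xq := by exact_mod_cast hxq
  have hyq' : (0 : ℝ) < c.yq := by exact_mod_cast hyq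
  have hxl' : (c.xa : ℝ) < c.xb := by exact_mod_cast hxl
  have hyl' : (c.ya : ℝ) < c.yb := by exact_mod_cast hyl
  have hcl : IsClosed {z : ℝ × ℝ | 0 ≤ rev z.1 z.2 P} :=
    isClosed_le continuous_const (continuous_rev P)
  have hsub : Set.Ico ((c.xa : ℝ) / c.xq) (c.xb / c.xq) ×ˢ Set.Ico ((c.ya : ℝ) / c.yq) (c.yb / c.yq)
      ⊆ {z : ℝ × ℝ | 0 ≤ rev z.1 z.2 P} := by
    rintro ⟨x', y'⟩ ⟨⟨ha, hb⟩, ⟨hc, hd⟩⟩
    simp only at ha hb hc hd
    refine nonneg_on_half hP c hW hxq hyq hx hx' hy hy' hn v xb yb hxb hyb hv hm x' y' ?_ ?_ ?_ ?_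
    · rw [div_le_iff₀ hxq'] at ha; linarith
    · rw [lt_div_iff₀ hxq'] at hb; linarith
    · rw [div_le_iff₀ hyq'] at hc; linarith
    · rw [lt_div_iff₀ hyq'] at hd; linarith
  have h5 := hcl.closure_subset_iff.mpr hsub
  rw [closure_prod_eq, closure_Ico, closure_Ico] at h5
  · have h6 : ((x, y) : ℝ × ℝ) ∈ Set.Icc ((c.xa : ℝ) / c.xq) (c.xb / c.xq) ×ˢ
        Set.Icc ((c.ya : ℝ) / c.yq) (c.yb / c.yq) := by
      refine Set.mk_mem_prod (Set.mem_Icc.mpr ⟨?_, ?_⟩) (Set.mem_Icc.mpr ⟨?_, ?_⟩)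
      · rw [div_le_iff₀ hxq']; linarith
      · rw [le_div_iff₀ hxq']; linarith
      · rw [div_le_iff₀ hyq']; linarith
      · rw [le_div_iff₀ hyq']; linarith
    exact h5 h6
  · exact (div_lt_div_of_pos_right hyl' hyq').ne
  · exact (div_lt_div_of_pos_right hxl' hxq').ne

end Vale.Agent.P211.H237
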