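import Vale.Agent.P211.H237.Leaf7

/-!
Exclusion leaves, packed data and subdivision trees.
-/

namespace Vale.Agent.P211.H237

open MvPolynomial

variable {c : CellP}

namespace LF7

/-! ### exclusion -/

/-- the weighted sum for one vertex -/
noncomputable def exL (f : LF6) (i0 i1 i2 : ℕ) (b : ℕ) (k : Sg) : List (ℕ × Sg) :=
  [(i0, Sg.m (Nat.mul f.ce (Nat.mul f.kq f.pq))), (i1, Sg.m (Nat.mul f.ce (Nat.mul f.kq b))),
    (i2, Sg.nmul (Nat.mul f.ce f.pq) (Sg.neg k)), (f.I.one, Sg.m (Nat.mul f.pq f.kq))]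

noncomputable def exK (f : LF6) (W m : ℕ) (outs : List ℕ) (i0 i1 i2 pa pb : ℕ) (k k' : Sg) :
    Bool :=
  Nat.ble (lsB (exL f i0 i1 i2 pa k)) f.nw && (Nat.ble (lsB (exL f i0 i1 i2 pa k')) f.nw &&
  (Nat.ble (lsB (exL f i0 i1 i2 pb k)) f.nw && (Nat.ble (lsB (exL f i0 i1 i2 pb k')) f.nw &&
  Nat.beq (Nat.land (Nat.land (slinN W m outs (exL f i0 i1 i2 pa k))
    (Nat.land (slinN W m outs (exL f i0 i1 i2 pa k'))
    (Nat.land (slinN W m outs (exL f i0 i1 i2 pb k))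
      (slinN W m outs (exL f i0 i1 i2 pb k'))))) m) m)))

theorem exK_sound (g : LF7) (hV : g.Valid) (h : g.f.T.fam.okC c = true)
    (i0 i1 i2 pa pb : ℕ) (k k' : Sg)
    (hN : exK g.f g.f.T.fam.W g.f.T.fam.msk (g.P.outs g.f.T.fam.W c) i0 i1 i2 pa pb k k' = true)
    (x y : ℝ) (hxy : c.In x y) (hone : g.P.vals x y g.f.I.one = 1)
    (s t u v p κ : ℝ) (hs : 0 ≤ s) (ht : 0 ≤ t) (h1 : s * g.f.pq + t * g.f.pq = 1)
    (hp : s * pa + t * pb = p) (hu : 0 ≤ u) (hv : 0 ≤ v) (huv : u + v = 1)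
    (hk : u * k.val + v * k'.val = g.f.kq * κ) :
    g.P.vals x y i0 + p * g.P.vals x y i1 + κ * g.P.vals x y i2 < 0 := by
  obtain ⟨hkq, hld, hpq, hce, hP, hw, hm, hn1, hsh, hz, hms, hss⟩ := hV
  unfold exK at hN
  simp only [Bool.and_eq_true, Nat.ble_eq] at hN
  obtain ⟨b1, b2, b3, b4, hM⟩ := hN
  have hM' : Ok g.f.T.fam.msk _ := Nat.eq_of_beq_eq_true hM
  obtain ⟨m1, hM'⟩ := ok_land hM'
  obtain ⟨m2, hM'⟩ := ok_land hM'
  obtain ⟨m3, m4⟩ := ok_land hM'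
  have ho : ∀ i, Rep (g.f.T.fam.ctx c h) ((g.P.outs g.f.T.fam.W c).getD i 0) (g.P.pol i)
    g.f.T.n0 := fun i => PT.rep_outs (P := g.P) hP h i
  have hrev := fun i => g.P.rev_pol x y i
  have e1 := slin_sound (C := g.f.T.fam.ctx c h) ho hw hrev _ b1 m1 hxy
  have e2 := slin_sound (C := g.f.T.fam.ctx c h) ho hw hrev _ b2 m2 hxy
  have e3 := slin_sound (C := g.f.T.fam.ctx c h) ho hw hrev _ b3 m3 hxy
  have e4 := slin_sound (C := g.f.T.fam.ctx c h) ho hw hrev _ b4 m4 hxy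
  have key : ∀ (b : ℕ) (k : Sg), lsR (g.P.vals x y) (exL g.f i0 i1 i2 b k) =
      -(g.f.ce * (g.f.kq * g.f.pq) * g.P.vals x y i0 + g.f.ce * (g.f.kq * b) * g.P.vals x y i1 +
        g.f.ce * g.f.pq * k.val * g.P.vals x y i2 + g.f.pq * g.f.kq) := by
    intro b k
    unfold exL lsR
    simp only [List.foldr, Sg.val_nmul, Sg.val_neg, hone]
    have v1 : ∀ n : ℕ, (((Sg.m n).val : ℤ) : ℝ) = -(n : ℝ) := fun n => by simp [Sg.val]
    have mulc : ∀ a b : ℕ, ((Nat.mul a b : ℕ) : ℝ) = a * b := fun a b => by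
      have : Nat.mul a b = a * b := rfl
      rw [this]; push_cast; ring
    rw [v1, v1, v1, mulc, mulc, mulc, mulc, mulc]
    push_cast
    rw [mulc]
    ring
  rw [key] at e1 e2 e3 e4
  have Q : (0 : ℝ) < g.f.kq := by exact_mod_cast hkq
  have Z : (0 : ℝ) < g.f.ce := by exact_mod_cast hce
  set w0 := g.P.vals x y i0
  set w1 := g.P.vals x y i1
  set w2 := g.P.vals x y i2
  generalize (g.f.kq : ℝ) = q at *
  generalize (g.f.ce : ℝ) = d at *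
  generalize (g.f.pq : ℝ) = r at *
  generalize (k.val : ℝ) = a at *
  generalize (k'.val : ℝ) = b at *
  generalize (pa : ℝ) = P0 at *
  generalize (pb : ℝ) = P1 at *
  have hsu := mul_nonneg hs hu
  have hsv := mul_nonneg hs hv
  have htu := mul_nonneg ht hu
  have htv := mul_nonneg ht hv
  have f1 := mul_nonneg hsu e1
  have f2 := mul_nonneg hsv e2
  have f3 := mul_nonneg htu e3
  have f4 := mul_nonneg htv e4
  have hsum : s * u * -(d * (q * r) * w0 + d * (q * P0) * w1 + d * r * a * w2 + r * q) +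
      s * v * -(d * (q * r) * w0 + d * (q * P0) * w1 + d * r * b * w2 + r * q) +
      t * u * -(d * (q * r) * w0 + d * (q * P1) * w1 + d * r * a * w2 + r * q) +
      t * v * -(d * (q * r) * w0 + d * (q * P1) * w1 + d * r * b * w2 + r * q) =
      -(q * (d * (w0 + p * w1 + κ * w2) + 1)) := by
    have a1 : s * u * -(d * (q * r) * w0 + d * (q * P0) * w1 + d * r * a * w2 + r * q) +
      s * v * -(d * (q * r) * w0 + d * (q * P0) * w1 + d * r * b * w2 + r * q) +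
      t * u * -(d * (q * r) * w0 + d * (q * P1) * w1 + d * r * a * w2 + r * q) +
      t * v * -(d * (q * r) * w0 + d * (q * P1) * w1 + d * r * b * w2 + r * q) =
      -((u + v) * (s * r + t * r) * (d * q * w0 + q) + (u + v) * (s * P0 + t * P1) * d * q * w1 +
        (s * r + t * r) * (u * a + v * b) * d * w2) := by ring
    rw [a1, huv, h1, hp, hk]
    ring
  have hneg : 0 ≤ -(q * (d * (w0 + p * w1 + κ * w2) + 1)) := by rw [← hsum]; linarith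
  by_contra hc
  push Not at hc
  have : 0 < q * (d * (w0 + p * w1 + κ * w2) + 1) := by positivity
  linarith

/-! ### packed data -/

/-- digit number `i` in base `2^k` -/
noncomputable def dgk (k d i : ℕ) : ℕ :=
  Nat.mod (Nat.shiftRight d (Nat.mul k i)) (Nat.pow 2 k)

/-- an unused matrix -/
def T0 : T4 := ⟨.p 0, .p 0, .p 0, .p 0, .p 0, .p 0, .p 0, .p 0, .p 0, .p 0⟩

/-- data of a leaf -/
noncomputable def lOf (f : LF6) (pa pb : ℕ) (ka kb : ℤ) (d : ℕ) : L6D :=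
  ⟨f.pq, pa, f.pq, pb, Sg.ofInt ka, Sg.ofInt kb, Sg.ofInt (Int.add ka kb),
    dgk f.kb d 0, dgk f.kb d 1, dgk f.kb d 2, dgk f.kb d 3, dgk f.kb d 4, dgk f.kb d 5,
    dgk f.kb d 6, dgk f.kb d 7, T0, T0, T0, T0⟩

theorem weights_p {pq pa pb : ℕ} (hpq : 0 < pq) (hab : pa < pb) (p : ℝ)
    (h1 : (pa : ℝ) ≤ pq * p) (h2 : pq * p ≤ pb) :
    ∃ s t : ℝ, 0 ≤ s ∧ 0 ≤ t ∧ s * pq + t * pq = 1 ∧ s * pa + t * pb = p := by
  have hpq' : (0 : ℝ) < pq := by exact_mod_cast hpq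
  have h10 : (pa : ℝ) < pb := by exact_mod_cast hab
  have h11 : (0 : ℝ) < pb - pa := by linarith
  refine ⟨(pb - pq * p) / (pq * (pb - pa)), (pq * p - pa) / (pq * (pb - pa)),
    div_nonneg (by linarith) (by positivity), div_nonneg (by linarith) (by positivity), ?_, ?_⟩
  · field_simp; ring
  · field_simp; ring

theorem weights_k {kq : ℕ} {ka kb : ℤ} (hkk : ka < kb) (k : ℝ)
    (hk1 : (ka : ℝ) ≤ kq * k) (hk2 : kq * k ≤ kb) :
    ∃ u v : ℝ, 0 ≤ u ∧ 0 ≤ v ∧ u + v = 1 ∧ u * ka + v * kb = kq * k := by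
  have hkk' : (ka : ℝ) < kb := by exact_mod_cast hkk
  have hkd : (0 : ℝ) < kb - ka := by linarith
  refine ⟨(kb - kq * k) / (kb - ka), (kq * k - ka) / (kb - ka),
    div_nonneg (by linarith) hkd.le, div_nonneg (by linarith) hkd.le, ?_, ?_⟩
  · field_simp; ring
  · field_simp; ring

/-- the conclusion -/
def Good7 (g : LF7) (x y p k : ℝ) : Prop :=
  (∀ c ∈ g.f.I.cons, 0 ≤ g.P.vals x y c.1 + p * g.P.vals x y c.2.1 + k * g.P.vals x y c.2.2) →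
  0 ≤ g.P.vals x y g.iu ∧ ∃ lam mu nu : ℝ, 0 ≤ lam ∧ 0 ≤ mu ∧ 0 ≤ nu ∧
      (∀ z1 z2 z3 z4, 0 ≤ g.f.I.tm.form (g.P.vals x y) ⟨1, p, k, lam, nu⟩ z1 z2 z3 z4) ∧
      0 ≤ g.f.I.sc (g.P.vals x y) p k lam mu ∧ 0 ≤ g.f.I.rel (g.P.vals x y) k lam mu nu

/-- a normal leaf -/
noncomputable def leafK (g : LF7) (W m K B Z H hc n : ℕ) (c : CellP) (pa pb : ℕ) (ka kb : ℤ)
    (d : ℕ) : Bool :=
  g.f.T.fam.okC c && (Nat.blt pa pb && (decide (ka < kb) &&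
    forceL (g.P.outs W c) fun o => leafS g.f g.iu W m K B Z H hc n o (lOf g.f pa pb ka kb d)))

/-- lookup of a constraint -/
def nthC (l : List (ℕ × ℕ × ℕ)) (i : ℕ) : ℕ × ℕ × ℕ := l.getD i (0, 0, 0)

/-- an excluded leaf -/
noncomputable def leafX (g : LF7) (W m : ℕ) (c : CellP) (pa pb : ℕ) (ka kb : ℤ) (j : ℕ) : Bool :=
  g.f.T.fam.okC c && (Nat.blt pa pb && (decide (ka < kb) && (Nat.blt j g.f.I.cons.length &&
    forceL (g.P.outs W c) fun o => exK g.f W m o (nthC g.f.I.cons j).1 (nthC g.f.I.cons j).2.1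
      (nthC g.f.I.cons j).2.2 pa pb (Sg.ofInt ka) (Sg.ofInt kb))))

theorem leafK_sound (g : LF7) (hV : g.Valid) (pa pb : ℕ) (ka kb : ℤ) (d : ℕ)
    (h : leafK g g.f.T.fam.W g.f.T.fam.msk (g.f.T.fam.β + 1) (2 ^ (g.f.T.fam.β + 1))
      g.f.T.fam.Zs g.f.T.fam.Hs (g.f.T.fam.Zs - 2 ^ g.f.T.fam.β)
      ((g.f.T.fam.D + 1) * (g.f.T.fam.E + 1)) c pa pb ka kb d = true)
    (x y p k : ℝ) (hxy : c.In x y) (h1 : (pa : ℝ) ≤ g.f.pq * p) (h2 : g.f.pq * p ≤ pb)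
    (h3 : (ka : ℝ) ≤ g.f.kq * k) (h4 : g.f.kq * k ≤ kb) : g.Good7 x y p k := by
  unfold leafK at h
  rw [Bool.and_eq_true, Bool.and_eq_true, Bool.and_eq_true, Nat.blt_eq, decide_eq_true_eq,
    forceL_eq] at h
  obtain ⟨hc, hp, hk, hl⟩ := h
  intro _
  have hpq : 0 < g.f.pq := hV.2.2.1
  obtain ⟨s, t, hs, ht, hst, hsp⟩ := weights_p hpq hp p h1 h2
  obtain ⟨u, v, hu, hv, huv, huk⟩ := weights_k hk k h3 h4
  have e0 : ((lOf g.f pa pb ka kb d).kk.val : ℝ) =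
      (lOf g.f pa pb ka kb d).k.val + (lOf g.f pa pb ka kb d).k'.val := by
    show (((Sg.ofInt (Int.add ka kb)).val : ℤ) : ℝ) =
      (((Sg.ofInt ka).val : ℤ) : ℝ) + (((Sg.ofInt kb).val : ℤ) : ℝ)
    rw [Sg.val_ofInt, Sg.val_ofInt, Sg.val_ofInt]
    have : Int.add ka kb = ka + kb := rfl
    rw [this]; push_cast; ring
  refine leafS_sound g hV hc (lOf g.f pa pb ka kb d) e0 hl x y hxy s t u v p k hs ht hst hsp
    hu hv huv ?_
  show u * (((Sg.ofInt ka).val : ℤ) : ℝ) + v * (((Sg.ofInt kb).val : ℤ) : ℝ) = g.f.kq * k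
  rw [Sg.val_ofInt, Sg.val_ofInt]
  exact huk

theorem leafX_sound (g : LF7) (hV : g.Valid) (hone : ∀ x y, g.P.vals x y g.f.I.one = 1)
    (pa pb : ℕ) (ka kb : ℤ) (j : ℕ)
    (h : leafX g g.f.T.fam.W g.f.T.fam.msk c pa pb ka kb j = true)
    (x y p k : ℝ) (hxy : c.In x y) (h1 : (pa : ℝ) ≤ g.f.pq * p) (h2 : g.f.pq * p ≤ pb)
    (h3 : (ka : ℝ) ≤ g.f.kq * k) (h4 : g.f.kq * k ≤ kb) : g.Good7 x y p k := by
  unfold leafX at h
  rw [Bool.and_eq_true, Bool.and_eq_true, Bool.and_eq_true, Bool.and_eq_true, Nat.blt_eq,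
    Nat.blt_eq, decide_eq_true_eq, forceL_eq] at h
  obtain ⟨hc, hp, hk, hj, hl⟩ := h
  intro hcons
  have hpq : 0 < g.f.pq := hV.2.2.1
  obtain ⟨s, t, hs, ht, hst, hsp⟩ := weights_p hpq hp p h1 h2
  obtain ⟨u, v, hu, hv, huv, huk⟩ := weights_k hk k h3 h4
  have := exK_sound g hV hc _ _ _ pa pb _ _ hl x y hxy (hone x y) s t u v p k hs ht hst hsp hu hv
    huv (by rw [Sg.val_ofInt, Sg.val_ofInt]; exact huk)
  have hm : nthC g.f.I.cons j ∈ g.f.I.cons := by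
    unfold nthC
    rw [List.getD_eq_getElem _ _ hj]; exact List.getElem_mem hj
  exact absurd (hcons _ hm) (not_le.mpr this)

end LF7

/-! ### trees -/

/-- subdivision trees -/
inductive Tr7
  | lf (d : ℕ)
  | ex (j : ℕ)
  | sx (m : ℤ) (a b : Tr7)
  | sy (m : ℤ) (a b : Tr7)
  | sp (m : ℕ) (a b : Tr7)
  | sk (m : ℤ) (a b : Tr7)

namespace LF7

/-- the check of a tree -/
noncomputable def ok (g : LF7) (W m K B Z H hc n : ℕ) (t : Tr7) :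
    ℤ → ℤ → ℤ → ℤ → ℕ → ℕ → ℤ → ℤ → Bool :=
  Tr7.rec (motive := fun _ => ℤ → ℤ → ℤ → ℤ → ℕ → ℕ → ℤ → ℤ → Bool)
    (fun d xa xb ya yb pa pb ka kb =>
      leafK g W m K B Z H hc n ⟨xa, xb, g.f.xq, ya, yb, g.f.yq⟩ pa pb ka kb d)
    (fun j xa xb ya yb pa pb ka kb =>
      leafX g W m ⟨xa, xb, g.f.xq, ya, yb, g.f.yq⟩ pa pb ka kb j)
    (fun m _ _ ia ib xa xb ya yb pa pb ka kb =>
      Bool.rec false (ib m xb ya yb pa pb ka kb) (ia xa m ya yb pa pb ka kb))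
    (fun m _ _ ia ib xa xb ya yb pa pb ka kb =>
      Bool.rec false (ib xa xb m yb pa pb ka kb) (ia xa xb ya m pa pb ka kb))
    (fun m _ _ ia ib xa xb ya yb pa pb ka kb =>
      Bool.rec false (ib xa xb ya yb m pb ka kb) (ia xa xb ya yb pa m ka kb))
    (fun m _ _ ia ib xa xb ya yb pa pb ka kb =>
      Bool.rec false (ib xa xb ya yb pa pb m kb) (ia xa xb ya yb pa pb ka m)) t

/-- the box -/
def InB (g : LF7) (xa xb ya yb : ℤ) (pa pb : ℕ) (ka kb : ℤ) (x y p k : ℝ) : Prop :=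
  (xa : ℝ) ≤ g.f.xq * x ∧ g.f.xq * x ≤ xb ∧ (ya : ℝ) ≤ g.f.yq * y ∧ g.f.yq * y ≤ yb ∧
  (pa : ℝ) ≤ g.f.pq * p ∧ g.f.pq * p ≤ pb ∧ (ka : ℝ) ≤ g.f.kq * k ∧ g.f.kq * k ≤ kb

theorem ok_sound (g : LF7) (hV : g.Valid) (hone : ∀ x y, g.P.vals x y g.f.I.one = 1) (t : Tr7) :
    ∀ (xa xb ya yb : ℤ) (pa pb : ℕ) (ka kb : ℤ),
    ok g g.f.T.fam.W g.f.T.fam.msk (g.f.T.fam.β + 1) (2 ^ (g.f.T.fam.β + 1))
      g.f.T.fam.Zs g.f.T.fam.Hs (g.f.T.fam.Zs - 2 ^ g.f.T.fam.β)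
      ((g.f.T.fam.D + 1) * (g.f.T.fam.E + 1)) t xa xb ya yb pa pb ka kb = true →
    ∀ x y p k, g.InB xa xb ya yb pa pb ka kb x y p k → g.Good7 x y p k := by
  induction t with
  | lf d =>
    intro xa xb ya yb pa pb ka kb h x y p k ⟨h1, h2, h3, h4, h5, h6, h7, h8⟩
    exact leafK_sound g hV pa pb ka kb d h x y p k ⟨h1, h2, h3, h4⟩ h5 h6 h7 h8
  | ex j =>
    intro xa xb ya yb pa pb ka kb h x y p k ⟨h1, h2, h3, h4, h5, h6, h7, h8⟩
    exact leafX_sound g hV hone pa pb ka kb j h x y p k ⟨h1, h2, h3, h4⟩ h5 h6 h7 h8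
  | sx m a b iha ihb =>
    intro xa xb ya yb pa pb ka kb h x y p k ⟨h1, h2, h3, h4, h5, h6, h7, h8⟩
    obtain ⟨ha, hb⟩ := brec' h
    rcases le_total (g.f.xq * x : ℝ) m with hm | hm
    · exact iha _ _ _ _ _ _ _ _ ha x y p k ⟨h1, hm, h3, h4, h5, h6, h7, h8⟩
    · exact ihb _ _ _ _ _ _ _ _ hb x y p k ⟨hm, h2, h3, h4, h5, h6, h7, h8⟩
  | sy m a b iha ihb =>
    intro xa xb ya yb pa pb ka kb h x y p k ⟨h1, h2, h3, h4, h5, h6, h7, h8⟩
    obtain ⟨ha, hb⟩ := brec' h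
    rcases le_total (g.f.yq * y : ℝ) m with hm | hm
    · exact iha _ _ _ _ _ _ _ _ ha x y p k ⟨h1, h2, h3, hm, h5, h6, h7, h8⟩
    · exact ihb _ _ _ _ _ _ _ _ hb x y p k ⟨h1, h2, hm, h4, h5, h6, h7, h8⟩
  | sp m a b iha ihb =>
    intro xa xb ya yb pa pb ka kb h x y p k ⟨h1, h2, h3, h4, h5, h6, h7, h8⟩
    obtain ⟨ha, hb⟩ := brec' h
    rcases le_total (g.f.pq * p : ℝ) m with hm | hm
    · exact iha _ _ _ _ _ _ _ _ ha x y p k ⟨h1, h2, h3, h4, h5, hm, h7, h8⟩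
    · exact ihb _ _ _ _ _ _ _ _ hb x y p k ⟨h1, h2, h3, h4, hm, h6, h7, h8⟩
  | sk m a b iha ihb =>
    intro xa xb ya yb pa pb ka kb h x y p k ⟨h1, h2, h3, h4, h5, h6, h7, h8⟩
    obtain ⟨ha, hb⟩ := brec' h
    rcases le_total (g.f.kq * k : ℝ) m with hm | hm
    · exact iha _ _ _ _ _ _ _ _ ha x y p k ⟨h1, h2, h3, h4, h5, h6, h7, hm⟩
    · exact ihb _ _ _ _ _ _ _ _ hb x y p k ⟨h1, h2, h3, h4, h5, h6, hm, h8⟩

/-- the whole check of a region -/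
noncomputable def run (g : LF7) (t : Tr7) (xa xb ya yb : ℤ) (pa pb : ℕ) (ka kb : ℤ) : Bool :=
  frc g.f.T.fam.W fun W => frc g.f.T.fam.msk fun m => frc (g.f.T.fam.β + 1) fun K =>
  frc (2 ^ (g.f.T.fam.β + 1)) fun B => frc g.f.T.fam.Zs fun Z => frc g.f.T.fam.Hs fun H =>
  frc (g.f.T.fam.Zs - 2 ^ g.f.T.fam.β) fun hc =>
  frc ((g.f.T.fam.D + 1) * (g.f.T.fam.E + 1)) fun n => ok g W m K B Z H hc n t xa xb ya yb pa pb ka kb

theorem run_sound (g : LF7) (hV : g.Valid) (hone : ∀ x y, g.P.vals x y g.f.I.one = 1) (t : Tr7)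
    (xa xb ya yb : ℤ) (pa pb : ℕ) (ka kb : ℤ) (h : g.run t xa xb ya yb pa pb ka kb = true)
    (x y p k : ℝ) (hb : g.InB xa xb ya yb pa pb ka kb x y p k) : g.Good7 x y p k := by
  unfold run at h
  simp only [frc_eq] at h
  exact ok_sound g hV hone t _ _ _ _ _ _ _ _ h x y p k hb

end LF7

end Vale.Agent.P211.H237
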